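import Vale.Agent.P146.H498.D3

/-!
# P146: the third order term of a typical system, literal form

`hc3_rb`: the hypothesis `hC3` of `H694.br_n` with the number `RB`, the parameters `e`, `e1`,
`e2` free. `br_n3r`: exclusion of the big root with this number.
-/

open MeasureTheory ProbabilityTheory

namespace Vale.Agent.P146.C3Amp

open Vale.Agent.P157.Lv hiding Dep
open Vale.Agent.P146.H425 Vale.Agent.P146.H646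
open Vale.Agent.P146.H325 hiding cb cf
open Vale.Agent.P146.H196 Vale.Agent.P146.H246 Vale.Agent.P146.H347
  Vale.Agent.P146.H816 Vale.Agent.P146.H119 Vale.Agent.P146.H475 Vale.Agent.P146.H418
  Vale.Agent.P146.H615 Vale.Agent.P146.H320 Vale.Agent.P146.H161 Vale.Agent.P146.H317
  Vale.Agent.P146.H694 Vale.Agent.P146.H412

set_option linter.all false

/-- `RB` at the canonical numbers -/
noncomputable def RBc (b η x kp wf t e e1 e2 U hh g k j k4 v p pR pC : ℝ) : ℝ :=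
  RB b η x kp wf t e e1 e2 (k ^ 2) (U ^ 2 + pC)
    (4 * (1 + η) ^ 2 * U * (U * j ^ 2) + (4 * (1 + η) ^ 2) ^ 2 * (pC + pR))
    (2 * (U ^ 4 + pC) + 8 * k4) (U ^ 3 + (1 + η) ^ 6 * pR) (U ^ 4 + (1 + η) ^ 8 * pR)
    (U ^ 5 + (1 + η) ^ 6 * (pC + pR))
    (125 * b ^ 2 * (U * (hh + g) ^ 2 + p ^ 2 + v * η ^ 2))

section raw

variable {L : Law} {LB LF : Type} [Fintype LB] [DecidableEq LB] [Fintype LF] [DecidableEq LF]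
  {cB : LB → ℝ} {cF : LF → ℝ} {BL : Finset LB} {FL : Finset LF} {t u : ℝ}

/-- the third order term from the numbers -/
lemma d3_raw_rb (h : Adm L) (hs0 : L.s ≠ 0) (hx0 : 0 < L.x)
    (hx1 : L.x < 1) {r0 : ℝ} (hc : L.c = L.s ^ 2 * L.n * (1 - (1 - L.x) * r0))
    (hb : 1 ≤ L.b) (hx4 : 4 * (L.x * L.b ^ 2) ≤ 1)
    {S : Finset (Fin L.n)} {i0 i1 : Fin L.n} (hi0 : i0 ∉ S) (hi1 : i1 ∉ S)
    (hs : Sh cB cF BL FL 1 (√L.vp) t u) (ht1 : t ≤ 1) (hu0 : 0 ≤ u) (huu : u ≤ 1)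
    {e e1 e2 U hh g k j k4 p pR pC : ℝ} (hU0 : 0 < U) (hU1 : U ≤ 1)
    (hvU : L.vp ≤ L.b ^ 2 * U) (he0 : 0 < e) (he1 : e ≤ 1) (h1 : 0 < e1) (h2 : 0 < e2)
    (q1 : exS L.n L.b cB cF L.s L.η L.lam L.c L.x
      (H317.ind U (Qk L.n L.b cB cF L.s L.η L.lam L.c L.x S (Kset S BL FL))) ≤ pR)
    (q2 : exS L.n L.b cB cF L.s L.η L.lam L.c L.x
      (H317.ind (U ^ 2) (CCv L.n L.b cB cF L.s L.η L.lam L.c L.x S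
        (Kset (insert i0 S) BL FL))) ≤ pC)
    (q3 : exS L.n L.b cB cF L.s L.η L.lam L.c L.x
      (Qk L.n L.b cB cF L.s L.η L.lam L.c L.x S (Kset (insert i0 S) BL FL)) -
        exS L.n L.b cB cF L.s L.η L.lam L.c L.x
          (Qk L.n L.b cB cF L.s L.η L.lam L.c L.x S (Kset S BL FL)) ≤ U * j ^ 2)
    (q4 : exS L.n L.b cB cF L.s L.η L.lam L.c L.x
      (RKk L.n L.b cB cF L.s L.η L.lam L.c L.x S (Kset (insert i0 S) BL FL)) ≤ k ^ 2)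
    (q5 : exS L.n L.b cB cF L.s L.η L.lam L.c L.x
      (K4v L.n L.b cB cF L.s L.η L.lam L.c L.x S (Kset (insert i0 S) BL FL)) ≤ k4)
    (q6 : L.b ^ 2 / L.n * t * d0 L.n L.b cB cF L.s L.η L.lam L.c L.x r0 (Kset S BL FL)
        (Kset Finset.univ BL FL) ((Finset.univ : Finset (Fin L.n)) \ S).card ^ 2 +
      L.b ^ 2 * (u * L.vp / L.b ^ 2) * H646.d0f L.n L.b cB cF L.s L.η L.lam L.c L.x r0
        ((Finset.univ : Finset (Fin L.n)) \ S).card ^ 2 ≤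
      125 * L.b ^ 2 * (U * (hh + g) ^ 2 + p ^ 2 + L.vp * L.η ^ 2)) :
    exS L.n L.b cB cF L.s L.η L.lam L.c L.x (fun z =>
      |Ts L.n L.b cB cF L.s L.η L.lam L.c L.x S BL FL (1 - (1 - L.x) * r0) i0 z -
        ks L.n L.b cB cF L.s L.η L.lam L.c L.x S BL FL
          (Th3 L.n L.b cB cF L.s L.η L.lam L.c L.x) i1 z ^ 2 *
          Qs L.n L.b cB cF L.s L.η L.lam L.c L.x S BL FL z ^ 3|) ≤
      RBc L.b L.η L.x (1 - (1 - L.x) * r0) (u * L.vp / L.b ^ 2) t e e1 e2 U hh g k j k4 L.vp p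
        pR pC := by
  have hv0 := h.vp0
  have hb0 := h.b0
  have hcB : ∑ l ∈ BL, cB l ^ 2 = t := by rw [hs.shB, one_pow, mul_one]
  have hcF : ∑ l ∈ FL, cF l ^ 2 = L.b ^ 2 * (u * L.vp / L.b ^ 2) := by
    rw [hs.shF, Real.sq_sqrt h.vp0.le]
    field_simp
  obtain ⟨hwf0, hwfv, hwfU⟩ := wf_num hb hv0 hu0 huu hvU
  obtain ⟨g1, g2, g3⟩ := b0_num (t := t) hb ht1 hwfU hU1 h.x0 hx4
  have hne : ((Finset.univ : Finset (Fin L.n)) \ S).Nonempty :=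
    ⟨i0, Finset.mem_sdiff.2 ⟨Finset.mem_univ _, hi0⟩⟩
  have num := RB_mono (b := L.b) (x := L.x) (kp := 1 - (1 - L.x) * r0)
    (X1 := k ^ 2) (X2 := U ^ 2 + pC)
    (X3 := 4 * (1 + L.η) ^ 2 * U * (U * j ^ 2) + (4 * (1 + L.η) ^ 2) ^ 2 * (pC + pR))
    (X4 := 2 * (U ^ 4 + pC) + 8 * k4) (Q3 := U ^ 3 + (1 + L.η) ^ 6 * pR)
    (Q4 := U ^ 4 + (1 + L.η) ^ 8 * pR) (QC := U ^ 5 + (1 + L.η) ^ 6 * (pC + pR))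
    ht1 he0 h1 h2 h.η0 hwf0 le_rfl le_rfl le_rfl le_rfl le_rfl le_rfl le_rfl q6
  exact (hc3_num h.lam0 h.η0 hs0 h.n0 hx0 hx1 hc (Finset.subset_univ S) hi0 hi1 hne hwf0 hcB ht1
    hcF (mul_pos two_pos hb0) g1 g2 g3 he0 he1 h1 h2 hU0.le q1 q2 q3 q4 q5).trans num

/-- **The third order term of a typical system, any levels, literal form.** -/
theorem d3_rb (h : Adm L) (hη1 : L.η ≤ 1 / 2) (hs0 : L.s ≠ 0) (hx0 : 0 < L.x)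
    (hx1 : L.x < 1) {r0 : ℝ} (hc : L.c = L.s ^ 2 * L.n * (1 - (1 - L.x) * r0))
    (hk0 : 0 ≤ 1 - (1 - L.x) * r0) (hk1 : 1 - (1 - L.x) * r0 ≤ 1) (hr0 : |r0| ≤ 1)
    (hb : 1 ≤ L.b) (hx4 : 4 * (L.x * L.b ^ 2) ≤ 1)
    {m1 m2 : ℕ} (hm1 : 2 ≤ m1) (h12 : m1 ≤ m2) (hmn : 2 * m2 ≤ L.n) {a0 a1 u0 u1 : ℝ}
    (hs : Sh cB cF BL FL 1 (√L.vp) t u)
    (ht0 : 0 ≤ t) (hta : t ≤ a1) (ha1 : a1 ≤ 1) (hu0 : 0 ≤ u) (huu : u ≤ 1)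
    (hua : u0 < u1) (hu1 : u1 ≤ 1) (hu00 : 0 ≤ u0) {dt : ℝ} (hdt : 0 < dt) (hda : dt ≤ a1 - a0)
    {m : ℕ} (hm : m ∈ Finset.Icc m1 m2)
    {i0 i1 : Fin L.n} (hi0 : i0.1 + m = L.n) (hi1 : i1.1 + 1 = L.n)
    {e e1 e2 U g p tm pR pC : ℝ} (hU0 : 0 < U) (hU1 : U ≤ 1)
    (hvU : L.vp ≤ L.b ^ 2 * U) (hg : L.lam / (L.s ^ 2 * L.n) ≤ g) (hp : 0 ≤ p) (he0 : 0 < e)
    (he1 : e ≤ 1) (h1 : 0 < e1) (h2 : 0 < e2) (hN : Nums L tm U p pR) (hC : TailC L tm U pC)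
    (hatm : a1 ≤ tm)
    (hTyp : Typ L cB cF a1 u1 (a1 - a0) (u1 - u0) 14 ((m2 : ℝ) - m1 + 1) m BL FL) :
    exS L.n L.b cB cF L.s L.η L.lam L.c L.x (fun z =>
      |Ts L.n L.b cB cF L.s L.η L.lam L.c L.x (Sn L.n m) BL FL (1 - (1 - L.x) * r0) i0 z -
        ks L.n L.b cB cF L.s L.η L.lam L.c L.x (Sn L.n m) BL FL
          (Th3 L.n L.b cB cF L.s L.η L.lam L.c L.x) i1 z ^ 2 *
          Qs L.n L.b cB cF L.s L.η L.lam L.c L.x (Sn L.n m) BL FL z ^ 3|) ≤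
      RBc L.b L.η L.x (1 - (1 - L.x) * r0) (u * L.vp / L.b ^ 2) t e e1 e2 U (1 / √(m1 : ℝ)) g
        (kN L U (u1 - u0)) (jN m1 m2) (k4N L U dt) L.vp p pR pC := by
  obtain ⟨hm1', hm2'⟩ := Finset.mem_Icc.1 hm
  have hm10 : (0 : ℝ) < m1 := by
    have : 0 < m1 := by omega
    exact_mod_cast this
  have hmm : (m1 : ℝ) ≤ m := by exact_mod_cast hm1'
  have htm : t ≤ tm := hta.trans hatm
  have ht1 : t ≤ 1 := hta.trans ha1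
  have ha0' : 0 ≤ a1 := ht0.trans hta
  have hml : m ≤ L.n := by omega
  have hi0' : i0 ∉ Sn L.n m := by
    simp only [Sn, Finset.mem_filter, Finset.mem_univ, true_and]
    omega
  have hi1' : i1 ∉ Sn L.n m := by
    simp only [Sn, Finset.mem_filter, Finset.mem_univ, true_and]
    omega
  have hins : insert i0 (Sn L.n m) = Sn L.n (m - 1) := Sn_ins (by omega) hi0
  have hsub : Sn L.n m ⊆ Sn L.n (m - 1) := by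
    rw [← hins]
    exact Finset.subset_insert _ _
  obtain ⟨y1, y2, y3⟩ := typ_num h hx0 hm1 h12 ha0' hua hu1 hu00 hdt hda hm hi0 hU0 hN hatm hTyp
  have q1 := pQ_can (r := U) h hs ht0 ht1 hu0 huu (hN.tl (Sn L.n m) t u ht0 htm hu0 huu)
  have q2 := pC_can h hs ht0 ht1 hu0 huu hsub (hC (Sn L.n (m - 1)) t u ht0 htm hu0 huu)
  have q4 := rk_can (BL := BL) (FL := FL) h hsub y2
  have q5 := k4_can (BL := BL) (FL := FL) h hsub y3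
  have q6 := dd_can h hη1 hs0 hx1 hk0 hk1 hr0 hb hs ht0 ht1 hu0 huu (m := m) (by omega) hml hU0
    hU1 hvU (one_div_le_one_div_of_le (Real.sqrt_pos.2 hm10) (Real.sqrt_le_sqrt hmm)) hg hp
    (hN.cc _ t u ht0 htm hu0 huu) (hN.ps t u ht0 htm hu0 huu)
  rw [← hins] at q2 q4 q5
  exact d3_raw_rb h hs0 hx0 hx1 hc hb hx4 hi0' hi1' hs ht1 hu0 huu hU0 hU1 hvU he0 he1
    h1 h2 q1 q2 (inc_can h y1) q4 q5 q6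

end raw

section three

variable {L : Law}

/-- **The hypothesis `hC3` of `H694.br_n`, literal form.** -/
theorem hc3_rb (h : Adm L) (hη1 : L.η ≤ 1 / 2) (hs0 : L.s ≠ 0) (hx0 : 0 < L.x)
    (hx1 : L.x < 1) {r0 kp : ℝ} (hkp : kp = 1 - (1 - L.x) * r0)
    (hc : L.c = L.s ^ 2 * L.n * kp) (hk0 : 0 ≤ kp) (hk1 : kp ≤ 1) (hr0 : |r0| ≤ 1)
    (hb : 1 ≤ L.b) (hx4 : 4 * (L.x * L.b ^ 2) ≤ 1)
    {m1 m2 : ℕ} (hm1 : 2 ≤ m1) (h12 : m1 ≤ m2) (hmn : 2 * m2 ≤ L.n)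
    {q0 q1 p0 p1 u0 u1 : ℝ} (hq0 : 0 ≤ q0) (hqp : q1 ≤ p0) (hp : p0 ≤ p1)
    (hp1 : p1 ≤ 1) (hu0 : 0 ≤ u0) (hu : u0 < u1) (hu1 : u1 ≤ 1)
    {dt : ℝ} (hdt : 0 < dt) (hdq : dt ≤ q1 - q0) (hdp : dt ≤ p1 - p0)
    {e e1 e2 U g p pR pC : ℝ} (hU0 : 0 < U) (hU1 : U ≤ 1)
    (hvU : L.vp ≤ L.b ^ 2 * U) (hg : L.lam / (L.s ^ 2 * L.n) ≤ g) (hp' : 0 ≤ p) (he0 : 0 < e)
    (he1 : e ≤ 1) (h1 : 0 < e1) (h2 : 0 < e2) (hN : Nums L p1 U p pR) (hC : TailC L p1 U pC) :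
    ∀ t2 ∈ Set.Icc q0 q1, ∀ t1 ∈ Set.Icc p0 p1, ∀ u ∈ Set.Icc u0 u1,
      ∀ m ∈ Finset.Icc m1 m2,
      Typ L (c3 t2 t1) (H418.cf L.vp u) p1 u1 (p1 - p0) (u1 - u0) 14 ((m2 : ℝ) - m1 + 1) m
        {0, 1} {true} →
      Typ L (c3 t2 t1) (H418.cf L.vp u) q1 u1 (q1 - q0) (u1 - u0) 14 ((m2 : ℝ) - m1 + 1) m
        {0} {true} →
      ∀ i0 i1 : Fin L.n, i0.1 + m = L.n → i1.1 + 1 = L.n →
      D3 L kp t2 t1 u m {0, 1} (T3 L t2 t1 u) i0 i1 ≤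
          RBc L.b L.η L.x kp (u * L.vp / L.b ^ 2) t1 e e1 e2 U (1 / √(m1 : ℝ)) g
            (kN L U (u1 - u0)) (jN m1 m2) (k4N L U dt) L.vp p pR pC ∧
        D3 L kp t2 t1 u m {0} (T3 L t2 t1 u) i0 i1 ≤
          RBc L.b L.η L.x kp (u * L.vp / L.b ^ 2) t2 e e1 e2 U (1 / √(m1 : ℝ)) g
            (kN L U (u1 - u0)) (jN m1 m2) (k4N L U dt) L.vp p pR pC := by
  intro t2 ht2 t1 ht1 u hut m hm T1 T2 i0 i1 hi0 hi1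
  have h21 : t2 ≤ t1 := ht2.2.trans (hqp.trans ht1.1)
  have t20 : 0 ≤ t2 := hq0.trans ht2.1
  have t10 : 0 ≤ t1 := t20.trans h21
  have t11 : t1 ≤ 1 := ht1.2.trans hp1
  have u00 : 0 ≤ u := hu0.trans hut.1
  have u11 : u ≤ 1 := hut.2.trans hu1
  have q1p : q1 ≤ p1 := hqp.trans hp
  have s1 := sh_1 (v := L.vp) t20 h21 t11 u00 u11
  have s2 := sh_2 (v := L.vp) t20 h21 t11 u00 u11
  subst hkp
  exact ⟨d3_rb (dt := dt) h hη1 hs0 hx0 hx1 hc hk0 hk1 hr0 hb hx4 hm1 h12 hmn s1 t10 ht1.2 hp1 u00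
      u11 hu hu1 hu0 hdt hdp hm hi0 hi1 hU0 hU1 hvU hg hp' he0 he1 h1 h2 hN hC le_rfl T1,
    d3_rb (dt := dt) h hη1 hs0 hx0 hx1 hc hk0 hk1 hr0 hb hx4 hm1 h12 hmn s2 t20 ht2.2
      (q1p.trans hp1) u00 u11 hu hu1 hu0 hdt hdq hm hi0 hi1 hU0 hU1 hvU hg
      hp' he0 he1 h1 h2 hN hC q1p T2⟩

/-- **Exclusion of the big root, all the equations proved, literal number of the last one.** -/
theorem br_n3r (h : Adm L) (hη : 0 < L.η) (hη1 : L.η ≤ 1 / 2) (hs0 : L.s ≠ 0)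
    (hx0 : 0 < L.x) (hx1 : L.x < 1) {r0 kp : ℝ} (hkp : kp = 1 - (1 - L.x) * r0)
    (hc : L.c = L.s ^ 2 * L.n * kp) (hk0 : 0 ≤ kp) (hk1 : kp ≤ 1) (hr0 : |r0| ≤ 1)
    (hb : 1 ≤ L.b) (hx2 : L.x ^ 2 * (L.b ^ 2 + L.vp) ≤ 1 / 4) (hx4 : 4 * (L.x * L.b ^ 2) ≤ 1)
    {m1 m2 : ℕ} (hm1 : 2 ≤ m1) (h12 : m1 ≤ m2) (hmn : 2 * m2 ≤ L.n)
    {q0 q1 p0 p1 u0 u1 : ℝ} (hq0 : 0 ≤ q0) (hqp : q1 ≤ p0)
    (hp1 : p1 ≤ 1) (hu0 : 0 ≤ u0) (hu : u0 < u1) (hu1 : u1 ≤ 1)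
    {dt : ℝ} (hdt : 0 < dt) (hdq : dt ≤ q1 - q0) (hdp : dt ≤ p1 - p0)
    {U g p δ T ee e1 e2 pR pC R3 ξ ηt Lc γ τm τn e : ℝ} (hU0 : 0 < U) (hU1 : U ≤ 1)
    (hxU : L.x ≤ U) (hT : 1 - q0 ≤ T) (hvU : L.vp ≤ L.b ^ 2 * U)
    (hτ : ∀ m ∈ Finset.Icc m1 m2, ∀ t ∈ Set.Icc q0 p1, |tauL L kp m t| ≤ τm)
    (hτU : τm ≤ U ^ 2)
    (hτn : ∀ m ∈ Finset.Icc m1 m2, ∀ t ∈ Set.Icc q0 p1, -tauL L kp m t ≤ τn) (hτn0 : 0 ≤ τn)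
    (hg : L.lam / (L.s ^ 2 * L.n) ≤ g) (hp' : 0 ≤ p) (hδ : 0 < δ)
    (hN : Nums L p1 U p pR) (hC : TailC L p1 U pC) (hee0 : 0 < ee) (hee1 : ee ≤ 1)
    (he1 : 0 < e1) (he2 : 0 < e2)
    (hR3 : ∀ t ∈ Set.Icc q0 p1, ∀ wf : ℝ, 0 ≤ wf → wf ≤ L.vp → wf ≤ U →
      RBc L.b L.η L.x kp wf t ee e1 e2 U (1 / √(m1 : ℝ)) g (kN L U (u1 - u0)) (jN m1 m2)
        (k4N L U dt) L.vp p pR pC ≤ R3)
    (hL : 0 < Lc) (hηξ : 16 * L.η ≤ ξ) (hξ : ξ ≤ 1 / 2) (hηt : 0 < ηt)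
    (hreg : 2 * τn * ((1 - ξ) * Lc) + 3 * (kp ^ 2 * L.vp) ≤
      L.x * kp ^ 3 * L.b ^ 4 * ((1 - ξ) * Lc) ^ 2)
    (hγ : 0 < γ)
    (hgap : γ ≤ kp ^ 2 * L.b ^ 2 * (p0 - q1) / U ^ 2 -
      4 * (L.x * kp ^ 3 * L.b ^ 4) * ξ / Lc - 8 * τm * ξ / Lc ^ 2 - 3 * ηt / Lc)
    (he0 : 0 ≤ e)
    (he : E1n L.b (30 * L.b ^ 3) U (1 / √(m1 : ℝ)) g L.vp L.η L.x (kN L U (u1 - u0)) p
      (jN m1 m2) δ T pR R3 ≤ e) :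
    ∃ t2 ∈ Set.Icc q0 q1, ∃ u ∈ Set.Icc u0 u1, ∃ m ∈ Finset.Icc m1 m2,
      L.ex' t2 u (H762.big Lc (L.Q (Sn L.n m) t2 u)) ≤
        PBn (30 * L.b ^ 3) γ ξ ηt Lc (kN L U (u1 - u0)) pR e := by
  have hb0 := h.b0
  have key := hc3_rb h hη1 hs0 hx0 hx1 hkp hc hk0 hk1 hr0 hb hx4 hm1 h12 hmn hq0 hqp
    (by linarith) hp1 hu0 hu hu1 hdt hdq hdp hU0 hU1 hvU hg hp' hee0 hee1 he1 he2 hN hC
  refine br_n h hη hη1 hs0 hx0 hx1 hkp hc hk0 hk1 hr0 hb hx2 hm1 h12 hmn hq0 (by linarith) hqp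
    (by linarith) hp1 hu0 hu hu1 (T3 L) (fun t2 t1 u i => T3_bm h t2 t1 u i)
    (fun t2 t1 u => T3_eq1 h t2 t1 u) (by positivity)
    (fun t2 t1 u i z => T3_le h hη1 hb t2 t1 u i z) hU0 hU1 hxU hT hvU hτ hτU hτn hτn0 hg hp' hδ
    hN (R3 := R3) ?_ hL hηξ hξ hηt hreg hγ hgap he0 he
  intro t2 ht2 t1 ht1 u hut m hm T1 T2 i0 i1 hi0 hi1
  obtain ⟨c1, c2⟩ := key t2 ht2 t1 ht1 u hut m hm T1 T2 i0 i1 hi0 hi1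
  obtain ⟨hwf0, hwfv, hwfU⟩ := wf_num hb h.vp0 (hu0.trans hut.1) (hut.2.trans hu1) hvU
  exact ⟨c1.trans (hR3 t1 ⟨by linarith [ht1.1], ht1.2⟩ _ hwf0 hwfv hwfU),
    c2.trans (hR3 t2 ⟨ht2.1, by linarith [ht2.2, ht1.1, ht1.2]⟩ _ hwf0 hwfv hwfU)⟩

end three

end Vale.Agent.P146.C3Amp
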