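import Vale.Agent.P146.H498.Amp4

/-!
# P146: the third order term for the modulated SK system, part 5

The pointwise bound of `Ts - ks² Qs³` through conditional means given `Kset S BL FL`.
-/

open MeasureTheory ProbabilityTheory

namespace Vale.Agent.P146.C3Amp

open Vale.Agent.P157.Lv Vale.Agent.P146.H196 Vale.Agent.P146.H646 Vale.Agent.P146.H615
  Vale.Agent.P146.H347 Vale.Agent.P146.H475 Vale.Agent.P146.H161 Vale.Agent.P146.H816
  Vale.Agent.P146.H325 Vale.Agent.P146.H317 Vale.Agent.P146.H694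

set_option linter.unusedSectionVars false

variable {n : ℕ} {LB LF : Type} [Fintype LB] [DecidableEq LB] [Fintype LF] [DecidableEq LF]

/-- the bound of the second moment of the row. -/
def B2 (b wf X2 : ℝ) : ℝ := 2 * b ^ 4 * X2 + 2 * b ^ 4 * wf ^ 2

/-- the bound of the fourth moment of the row. -/
def B4 (b wf X4 : ℝ) : ℝ := 8 * b ^ 8 * X4 + 8 * b ^ 8 * wf ^ 4

/-- the bound of the second moment of the row minus its direction. -/
def Bd2 (b η wf X1 X2 X3 : ℝ) : ℝ :=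
  b ^ 4 * (4 * X1 + 32 * η ^ 4 * X2 + 32 * X3) + 2 * b ^ 4 * wf ^ 2

/-- the bound of the two sided third order term. -/
noncomputable def RB (b η x kp wf t e e1 e2 X1 X2 X3 X4 Q3 Q4 QC DU : ℝ) : ℝ :=
  (3 * (1 - t) + 3 * e) * (384 * b ^ 6 * (1 + η) ^ 2 * Q3) + 2232 / e *
    (2 * (1 + η) ^ 2 * (2352 / e1 * Bd2 b η wf X1 X2 X3 + e1 * (2568576 * B4 b wf X4 +
      49536 * (b ^ 8 * Q4))) +
    9216 * (1 + η) ^ 2 * b ^ 6 * (e2 / 2 * Q3 + 2048 / e2 * (2 * b ^ 4 * QC +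
      2 * b ^ 4 * wf ^ 2 * Q3)) + DU +
    (kp ^ 2 * (b ^ 2 * ((1 + η) ^ 2 + wf)) + 64 * b ^ 6 * (1 + η) ^ 8) *
      (17 / 2 * x ^ 2 * B2 b wf X2))

variable {b s η lam c x : ℝ} {cB : LB → ℝ} {cF : LF → ℝ} {BL : Finset LB} {FL : Finset LF}
  {i0 : Fin n} {S : Finset (Fin n)}

section law

variable (hl : 0 < lam) (hη : 0 ≤ η)
include hl hη

lemma cx_q2_le (hn : 0 < n) (hi0 : i0 ∉ S) {t wf : ℝ}
    (ht : ∑ l ∈ BL, cB l ^ 2 = t) (ht1 : t ≤ 1) (hwf : ∑ l ∈ FL, cF l ^ 2 = b ^ 2 * wf)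
    (z : Co n LB LF → ℝ) :
    cxS n b cB cF s η lam c x (Kset S BL FL)
      (H498.q2 (muA (Xs n) lam η c) 1 (Sm b cB cF s η) x (Kset (insert i0 S) BL FL)
        (tA b cB cF s η i0 S BL FL)) z ≤
    B2 b wf (cxS n b cB cF s η lam c x (Kset S BL FL)
      (CCv n b cB cF s η lam c x S (Kset (insert i0 S) BL FL)) z) := by
  have hG := gmA (n := n) b cB cF s hl hη c
  have hw := H347.wt hG 1 x
  have bC := bm_CCv (n := n) (b := b) (s := s) (c := c) (x := x) (cB := cB) (cF := cF) hl hη S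
    (Kset (insert i0 S) BL FL)
  have ht0 : 0 ≤ t := by rw [← ht]; exact Finset.sum_nonneg fun _ _ => sq_nonneg _
  have ht2 : t ^ 2 ≤ 1 := pow_le_one₀ ht0 ht1
  have hb : BM (H498.q2 (muA (Xs n) lam η c) 1 (Sm b cB cF s η) x (Kset (insert i0 S) BL FL)
        (tA b cB cF s η i0 S BL FL)) := H498.bm_q2 hG 1 x _ fun e => H498.bm_SA hG _ 1 e
  have h3 := cx_mono hw (K := Kset S BL FL) hb ((bcm (2 * b ^ 4) bC).add (BM.const (2 * b ^ 4 *
        wf ^ 2))) (fun y => by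
      rw [q2_eq980 hi0]
      refine (q2_le hl hη hn (Kset (insert i0 S) BL FL) hi0 ht hwf y).trans
        (add_le_add ?_ le_rfl)
      refine mul_le_mul_of_nonneg_right ?_ (CCv_nonneg _ _ _)
      calc 2 * b ^ 4 * t ^ 2 ≤ 2 * b ^ 4 * 1 := mul_le_mul_of_nonneg_left ht2 (by positivity)
        _ = 2 * b ^ 4 := mul_one _) z
  rw [cx_add hw (bcm _ bC) (BM.const _), cx_const_mul hw,
    cx_dep hw (Q := fun _ => 2 * b ^ 4 * wf ^ 2) (fun _ _ => rfl)] at h3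
  exact h3

lemma cx_q4_le (hn : 0 < n) (hi0 : i0 ∉ S) {t wf : ℝ}
    (ht : ∑ l ∈ BL, cB l ^ 2 = t) (ht1 : t ≤ 1) (hwf : ∑ l ∈ FL, cF l ^ 2 = b ^ 2 * wf)
    (z : Co n LB LF → ℝ) :
    cxS n b cB cF s η lam c x (Kset S BL FL)
      (H498.q4 (muA (Xs n) lam η c) 1 (Sm b cB cF s η) x (Kset (insert i0 S) BL FL)
        (tA b cB cF s η i0 S BL FL)) z ≤
    B4 b wf (cxS n b cB cF s η lam c x (Kset S BL FL)
      (M4v n b cB cF s η lam c x S (Kset (insert i0 S) BL FL)) z) := by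
  have hG := gmA (n := n) b cB cF s hl hη c
  have hw := H347.wt hG 1 x
  have bC := bm_M4v (n := n) (b := b) (s := s) (c := c) (x := x) (cB := cB) (cF := cF) hl hη S
    (Kset (insert i0 S) BL FL)
  have ht0 : 0 ≤ t := by rw [← ht]; exact Finset.sum_nonneg fun _ _ => sq_nonneg _
  have ht2 : t ^ 4 ≤ 1 := pow_le_one₀ ht0 ht1
  have hb : BM (H498.q4 (muA (Xs n) lam η c) 1 (Sm b cB cF s η) x (Kset (insert i0 S) BL FL)
        (tA b cB cF s η i0 S BL FL)) := H498.bm_q4 hG 1 x _ fun e => H498.bm_SA hG _ 1 e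
  have h3 := cx_mono hw (K := Kset S BL FL) hb ((bcm (8 * b ^ 8) bC).add (BM.const (8 * b ^ 8 *
        wf ^ 4))) (fun y => by
      rw [q4_eq980 hi0]
      refine (q4_le hl hη hn (Kset (insert i0 S) BL FL) hi0 ht hwf y).trans
        (add_le_add ?_ le_rfl)
      refine mul_le_mul_of_nonneg_right ?_ (M4v_nonneg _ _ _)
      calc 8 * b ^ 8 * t ^ 4 ≤ 8 * b ^ 8 * 1 := mul_le_mul_of_nonneg_left ht2 (by positivity)
        _ = 8 * b ^ 8 := mul_one _) z
  rw [cx_add hw (bcm _ bC) (BM.const _), cx_const_mul hw,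
    cx_dep hw (Q := fun _ => 8 * b ^ 8 * wf ^ 4) (fun _ _ => rfl)] at h3
  exact h3

lemma bm_RKc : BM (RKc n b cB cF s η lam c x S BL FL i0) := by
  have hG := gmA (n := n) b cB cF s hl hη c
  have hσ : ∀ j : Fin n, Bd fun w : ℝ × Xs n => sp w.2 j := fun j => H347.bm_sp j
  have h1 := H615.bm_RKg hG x (Kset (insert i0 S) BL FL) hσ S
  have e : RKc n b cB cF s η lam c x S BL FL i0 = fun z => ((n : ℝ) ^ 2)⁻¹ *
      RKg (muA (Xs n) lam η c) (Sm b cB cF s η) x (Kset (insert i0 S) BL FL)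
        (fun (j : Fin n) w => sp w.2 j) S z := by
    funext z
    unfold RKc
    rw [div_eq_inv_mul]
  rw [e]
  exact bcm _ h1

lemma bm_Dv : BM (Dv n b cB cF s η lam c x S BL FL i0) := by
  have hw := wt_sk (n := n) (LB := LB) (LF := LF) (b := b) (cB := cB) (cF := cF) (s := s)
    (c := c) (x := x) hl hη
  have h : BM (fun y => ∑ j ∈ S, (cxS n b cB cF s η lam c x (Kset (insert i0 S) BL FL)
      (avS b cB cF s η lam c (fun w => al η w.1 * sp w.2 j)) y -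
    Mj n b cB cF s η lam c x S BL FL j y) ^ 2) :=
    BM.sum S fun j _ => bsq ((hw.bm_cx _ (bm_aj hl hη j)).sub (bm_Mj hl hη j))
  exact bm_div h n

omit hl hη in
lemma arith_q2d {A R C D b η t wf : ℝ} (hR : 0 ≤ R) (hC : 0 ≤ C) (ht : t ^ 2 ≤ 1)
    (h : A ≤ b ^ 4 * t ^ 2 * (4 * R + 32 * η ^ 4 * C + 32 * D ^ 2) + 2 * b ^ 4 * wf ^ 2) :
    A ≤ 4 * b ^ 4 * R + 32 * η ^ 4 * b ^ 4 * C + 32 * b ^ 4 * D ^ 2 + 2 * b ^ 4 * wf ^ 2 := by
  have n1 : 0 ≤ 4 * R + 32 * η ^ 4 * C + 32 * D ^ 2 := by positivity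
  have n2 : b ^ 4 * t ^ 2 ≤ b ^ 4 * 1 := mul_le_mul_of_nonneg_left ht (by positivity)
  have n3 := mul_le_mul_of_nonneg_right n2 n1
  rw [mul_one] at n3
  linarith

omit hl hη in
lemma RKc_nonneg (y : Co n LB LF → ℝ) : 0 ≤ RKc n b cB cF s η lam c x S BL FL i0 y := by
  unfold RKc
  refine div_nonneg ?_ (sq_nonneg (n : ℝ))
  unfold RKg
  exact Finset.sum_nonneg fun _ _ => Finset.sum_nonneg fun _ _ => sq_nonneg _

omit hl hη in
lemma Dv_glue (z y : Co n LB LF → ℝ) :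
    (∑ j ∈ S, (cxS n b cB cF s η lam c x (Kset (insert i0 S) BL FL)
        (avS b cB cF s η lam c (fun w => al η w.1 * sp w.2 j)) (glue (Kset S BL FL) z y) -
        Mj n b cB cF s η lam c x S BL FL j z) ^ 2) / n =
      Dv n b cB cF s η lam c x S BL FL i0 (glue (Kset S BL FL) z y) := by
  unfold Dv
  have h : ∀ j, Mj n b cB cF s η lam c x S BL FL j (glue (Kset S BL FL) z y) =
      Mj n b cB cF s η lam c x S BL FL j z := fun j => dep_Mj j z y
  simp only [h]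

lemma q2d_glue (hn : 0 < n) (hi0 : i0 ∉ S) {t wf : ℝ}
    (ht : ∑ l ∈ BL, cB l ^ 2 = t) (ht1 : t ≤ 1) (hwf : ∑ l ∈ FL, cF l ^ 2 = b ^ 2 * wf)
    (z : Co n LB LF → ℝ) {g : ℝ} {v : Co n LB LF → ℝ}
    (hv : ∀ e, g * v e = dA b cB i0 S BL FL
      (fun j => Mj n b cB cF s η lam c x S BL FL j z) e) (y : Co n LB LF → ℝ) :
    H498.q2 (muA (Xs n) lam η c) 1 (Sm b cB cF s η) x
      (Kset (insert i0 S) BL FL)
        (H498.df (tA b cB cF s η i0 S BL FL) (fun w => sp w.2 i0) g v) (glue (Kset S BL FL) z y) ≤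
      4 * b ^ 4 * RKc n b cB cF s η lam c x S BL FL i0 (glue (Kset S BL FL) z y) +
      32 * η ^ 4 * b ^ 4 * CCv n b cB cF s η lam c x S (Kset (insert i0 S) BL FL)
        (glue (Kset S BL FL) z y) +
      32 * b ^ 4 * Dv n b cB cF s η lam c x S BL FL i0 (glue (Kset S BL FL) z y) ^ 2 +
      2 * b ^ 4 * wf ^ 2 := by
  have ht0 : 0 ≤ t := by rw [← ht]; exact Finset.sum_nonneg fun _ _ => sq_nonneg _
  have h1 := q2d_le (n := n) (b := b) (s := s) (c := c) (x := x) (cB := cB) (cF := cF) hl hη hn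
    hi0 ht hwf hv (glue (Kset S BL FL) z y)
  rw [Dv_glue z y] at h1
  exact arith_q2d (RKc_nonneg _) (CCv_nonneg _ _ _) (pow_le_one₀ ht0 ht1) h1

lemma bm_q2d (g : ℝ) (v : Co n LB LF → ℝ) :
    BM (H498.q2 (muA (Xs n) lam η c) 1 (Sm b cB cF s η) x (Kset (insert i0 S) BL FL)
        (H498.df (tA b cB cF s η i0 S BL FL) (fun w => sp w.2 i0) g v)) := by
  have hG := gmA (n := n) b cB cF s hl hη c
  exact H498.bm_q2 hG 1 x _ fun e => (H498.bm_SA hG _ 1 e).sub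
    (((bm_sp i0).const_mul g).mul (Bm.const (v e)))

lemma cx_q2d_le (hn : 0 < n) (hi0 : i0 ∉ S) {t wf : ℝ}
    (ht : ∑ l ∈ BL, cB l ^ 2 = t) (ht1 : t ≤ 1) (hwf : ∑ l ∈ FL, cF l ^ 2 = b ^ 2 * wf)
    (z : Co n LB LF → ℝ) {g : ℝ} {v : Co n LB LF → ℝ}
    (hv : ∀ e, g * v e = dA b cB i0 S BL FL
      (fun j => Mj n b cB cF s η lam c x S BL FL j z) e) :
    cxS n b cB cF s η lam c x (Kset S BL FL)
      (H498.q2 (muA (Xs n) lam η c) 1 (Sm b cB cF s η) x (Kset (insert i0 S) BL FL)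
        (H498.df (tA b cB cF s η i0 S BL FL) (fun w => sp w.2 i0) g v)) z ≤
    Bd2 b η wf (cxS n b cB cF s η lam c x (Kset S BL FL)
        (RKc n b cB cF s η lam c x S BL FL i0) z)
      (cxS n b cB cF s η lam c x (Kset S BL FL)
        (CCv n b cB cF s η lam c x S (Kset (insert i0 S) BL FL)) z)
      (cxS n b cB cF s η lam c x (Kset S BL FL)
        (fun y => Dv n b cB cF s η lam c x S BL FL i0 y ^ 2) z) := by
  have hw : Wt (g1 (Co n LB LF)) (wS n b cB cF s η lam c x) := wtA b cB cF s hl hη c x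
  have bC := bm_CCv (n := n) (b := b) (s := s) (c := c) (x := x) (cB := cB) (cF := cF) hl hη S
    (Kset (insert i0 S) BL FL)
  have bR := bm_RKc (n := n) (b := b) (s := s) (c := c) (x := x) (cB := cB) (cF := cF)
    (BL := BL) (FL := FL) (i0 := i0) (S := S) hl hη
  have bD := bsq (bm_Dv (n := n) (b := b) (s := s) (c := c) (x := x) (cB := cB) (cF := cF)
    (BL := BL) (FL := FL) (i0 := i0) (S := S) hl hη)
  have b1 := bcm (4 * b ^ 4) bR
  have b2 := bcm (32 * η ^ 4 * b ^ 4) bC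
  have b3 := bcm (32 * b ^ 4) bD
  have hb := bm_q2d (n := n) (b := b) (s := s) (c := c) (x := x) (cB := cB) (cF := cF)
    (BL := BL) (FL := FL) (i0 := i0) (S := S) hl hη g v
  have h3 : cx (g1 (Co n LB LF)) (Kset S BL FL) (wS n b cB cF s η lam c x)
      (H498.q2 (muA (Xs n) lam η c) 1 (Sm b cB cF s η) x (Kset (insert i0 S) BL FL)
        (H498.df (tA b cB cF s η i0 S BL FL) (fun w => sp w.2 i0) g v)) z ≤
      cx (g1 (Co n LB LF)) (Kset S BL FL) (wS n b cB cF s η lam c x) (fun y =>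
      4 * b ^ 4 * RKc n b cB cF s η lam c x S BL FL i0 y +
      32 * η ^ 4 * b ^ 4 * CCv n b cB cF s η lam c x S (Kset (insert i0 S) BL FL) y +
      32 * b ^ 4 * Dv n b cB cF s η lam c x S BL FL i0 y ^ 2 + 2 * b ^ 4 * wf ^ 2) z := by
    unfold cx
    refine div_le_div_of_nonneg_right ?_ (hw.wn_pos (Kset S BL FL) z).le
    refine integral_mono (hw.sec_mul _ z hb)
      (hw.sec_mul _ z (((b1.add b2).add b3).add (BM.const _))) fun y => ?_
    exact mul_le_mul_of_nonneg_left (q2d_glue hl hη hn hi0 ht ht1 hwf z hv y) (hw.pos _).le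
  rw [cx_add hw ((b1.add b2).add b3) (BM.const _), cx_add hw (b1.add b2) b3, cx_add hw b1 b2,
    cx_const_mul hw, cx_const_mul hw, cx_const_mul hw,
    cx_dep hw (Q := fun _ => 2 * b ^ 4 * wf ^ 2) (fun _ _ => rfl)] at h3
  refine h3.trans (le_of_eq ?_)
  unfold Bd2
  ring

end law

end Vale.Agent.P146.C3Amp
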