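import Vale.Agent.P146.H498.C3Main
import Vale.Agent.P146.H317.C3Inst

/-!
# P146: the third order term for the modulated SK system, part 1

The flip of a hidden site as a symmetry of the block, the moments of the row, and the moments of
the row minus its mean direction.
-/

open MeasureTheory ProbabilityTheory

namespace Vale.Agent.P146.C3Amp

open Vale.Agent.P157.Lv Vale.Agent.P146.H196 Vale.Agent.P146.H646 Vale.Agent.P146.H615
  Vale.Agent.P146.H347 Vale.Agent.P146.H475 Vale.Agent.P146.H161 Vale.Agent.P146.H816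
  Vale.Agent.P146.H325 Vale.Agent.P146.H317

set_option linter.unusedSectionVars false

/-- a vector is its norm times a unit vector. -/
lemma exists_unit {ι : Type} [Fintype ι] [DecidableEq ι] [Nonempty ι] (a : ι → ℝ) :
    ∃ v : ι → ℝ, ∑ i, v i ^ 2 = 1 ∧ ∀ i, √(∑ i, a i ^ 2) * v i = a i := by
  rcases eq_or_ne (∑ i, a i ^ 2) 0 with h | h
  · obtain ⟨i0⟩ := ‹Nonempty ι›
    refine ⟨Pi.single i0 1, ?_, fun i => ?_⟩
    · rw [Finset.sum_eq_single i0]
      · simp
      · intro j _ hj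
        simp [hj]
      · simp
    · have h1 := (Finset.sum_eq_zero_iff_of_nonneg fun i _ => sq_nonneg (a i)).1 h i
        (Finset.mem_univ i)
      rw [h, Real.sqrt_zero, zero_mul]
      exact (pow_eq_zero_iff two_ne_zero).1 h1 |>.symm
  · have h0 : 0 ≤ ∑ i, a i ^ 2 := Finset.sum_nonneg fun i _ => sq_nonneg _
    have hs : √(∑ i, a i ^ 2) ≠ 0 := Real.sqrt_ne_zero'.2 (lt_of_le_of_ne h0 (Ne.symm h))
    refine ⟨fun i => a i / √(∑ i, a i ^ 2), ?_, fun i => mul_div_cancel₀ _ hs⟩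
    simp only [div_pow]
    rw [← Finset.sum_div, Real.sq_sqrt h0, div_self h]

variable {n : ℕ} {LB LF : Type} [Fintype LB] [DecidableEq LB] [Fintype LF] [DecidableEq LF]

/-- the flip of the site `i`. -/
def Tfl (i : Fin n) (w : ℝ × Xs n) : ℝ × Xs n := (w.1, fun j => w.2 j * fl i j)

open scoped Classical in
/-- the coordinates which change sign. -/
noncomputable def Ffl (LB LF : Type) [Fintype LB] [DecidableEq LB] [Fintype LF] [DecidableEq LF]
    (i : Fin n) : Finset (Co n LB LF) := Finset.univ.filter fun e => eps LB LF (fl i) e = -1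

lemma mem_Ffl (i : Fin n) (e : Co n LB LF) : e ∈ Ffl LB LF i ↔ eps LB LF (fl i) e = -1 := by
  unfold Ffl
  simp

section inst

variable (b : ℝ) (cB : LB → ℝ) (cF : LF → ℝ) (s : ℝ) {η lam : ℝ} (hl : 0 < lam) (c : ℝ)
include hl

theorem sym_amp (i : Fin n) : H498.Sym (muA (Xs n) lam η c) (Sm b cB cF s η) (Ffl LB LF i)
    (Tfl i) where
  mp := (symG b cB cF s η hl c (fl i)).mp
  inv w := by
    unfold Tfl
    refine Prod.ext rfl ?_
    funext j
    show w.2 j * fl i j * fl i j = w.2 j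
    rw [mul_assoc, Int.units_mul_self, mul_one]
  odd e he w := by
    have h := Sm_gauge b cB cF s η (fl i) e w
    rw [(mem_Ffl i e).1 he] at h
    rw [show Tfl i w = (w.1, fun j => w.2 j * fl i j) from rfl, h]
    ring
  evn e he w := by
    have h := Sm_gauge b cB cF s η (fl i) e w
    have h1 : eps LB LF (fl i) e = 1 := by
      have h2 := eps_sq (LB := LB) (LF := LF) (fl i) e
      rcases mul_self_eq_one_iff.1 h2 with h3 | h3
      · exact h3
      · exact absurd ((mem_Ffl i e).2 h3) he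
    rw [h1, one_mul] at h
    exact h

theorem blk_amp (hη : 0 ≤ η) {x : ℝ} (hx0 : 0 < x) (hx1 : x ≤ 1) {S : Finset (Fin n)}
    {i0 : Fin n} (hi0 : i0 ∉ S) (BL : Finset LB) (FL : Finset LF) {b0 : ℝ} (hb0 : 0 < b0)
    (hb : b ^ 2 * (∑ l ∈ BL, cB l ^ 2) + ∑ l ∈ FL, cF l ^ 2 ≤ b0 ^ 2) (h1 : x * b0 ≤ 1 / 2)
    (h2 : x * b0 ^ 2 ≤ 1) :
    H498.Blk (muA (Xs n) lam η c) 1 (Sm b cB cF s η) (M0c b cB cF s η) x (Kset S BL FL)
      (Kset (insert i0 S) BL FL) (Ffl LB LF i0) (Tfl i0) b0 where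
  hG := gmA (n := n) b cB cF s hl hη c
  sym := sym_amp b cB cF s hl c i0
  x0 := hx0
  x1 := hx1
  hK := Kset_mono (Finset.subset_insert i0 S) (Finset.Subset.refl _) (Finset.Subset.refl _)
  dj := by
    intro e he hF
    have h3 : eps LB LF (fl i0) e = 1 := by
      refine eps_eq_oneK (fl i0) (fun i hi => ?_) he
      unfold fl
      rw [if_neg]
      rintro rfl
      exact hi0 hi
    rw [mem_Ffl, h3] at hF
    norm_num at hF
  sub := by
    intro e he
    rw [← Rw_eq hi0] at he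
    rw [mem_Ffl]
    rcases e with (⟨p, l⟩ | ⟨i, l⟩) | j
    · have h1 := (bd_memR p l).1 he
      exact SkS_fl_row h1.1.1
    · have h1 := (fd_memR i l).1 he
      show sp (fl i0) i = -1
      rw [h1.1]
      exact sp_fl_self i0
    · exact absurd he (gd_memR j)
  b0p := hb0
  hb := by
    intro w
    refine le_trans ?_ hb
    have e1 : ∑ e, H498.SA (Kset (insert i0 S) BL FL \ Kset S BL FL) 1 (Sm b cB cF s η) e w ^ 2 =
        ∑ e ∈ Rw i0 S BL FL, Sm b cB cF s η e w ^ 2 := by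
      rw [← Rw_eq hi0, ← Finset.sum_subset (Finset.subset_univ (Rw i0 S BL FL))]
      · refine Finset.sum_congr rfl fun e he => ?_
        unfold H498.SA
        rw [if_pos he, one_mul]
      · intro e _ he
        unfold H498.SA
        rw [if_neg he]
        norm_num
    rw [e1, sum_Rw_sq b cB cF s η hi0 BL FL w]
    rcases Nat.eq_zero_or_pos n with hn | hn
    · subst hn
      exact i0.elim0
    · have hn' : (0 : ℝ) < n := Nat.cast_pos.2 hn
      have h4 : (S.card : ℝ) ≤ n := by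
        have := Finset.card_le_univ S
        rw [Fintype.card_fin] at this
        exact_mod_cast this
      have ht0 : 0 ≤ ∑ l ∈ BL, cB l ^ 2 := Finset.sum_nonneg fun _ _ => sq_nonneg _
      have h5 : b ^ 2 / n * (∑ l ∈ BL, cB l ^ 2) * S.card ≤
          b ^ 2 / n * (∑ l ∈ BL, cB l ^ 2) * n :=
        mul_le_mul_of_nonneg_left h4 (by positivity)
      have h6 : b ^ 2 / n * (∑ l ∈ BL, cB l ^ 2) * n = b ^ 2 * ∑ l ∈ BL, cB l ^ 2 := by
        field_simp
      rw [h6] at h5
      linarith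
  xb := h1
  xb2 := h2

end inst

section mom

variable {b s η lam c x : ℝ} {cB : LB → ℝ} {cF : LF → ℝ} {BL : Finset LB} {FL : Finset LF}
  {i0 : Fin n} {S : Finset (Fin n)}

/-- the row energies. -/
noncomputable abbrev tA (b : ℝ) (cB : LB → ℝ) (cF : LF → ℝ) (s η : ℝ) (i0 : Fin n)
    (S : Finset (Fin n)) (BL : Finset LB) (FL : Finset LF) : Co n LB LF → ℝ × Xs n → ℝ :=
  H498.SA (Kset (insert i0 S) BL FL \ Kset S BL FL) 1 (Sm b cB cF s η)

lemma q2_eq980 (hi0 : i0 ∉ S) (K : Finset (Co n LB LF)) (y : Co n LB LF → ℝ) :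
    H498.q2 (muA (Xs n) lam η c) 1 (Sm b cB cF s η) x K (tA b cB cF s η i0 S BL FL) y =
      H980.q2 (muA (Xs n) lam η c) 1 x (Sm b cB cF s η) K (Rw i0 S BL FL) y := by
  unfold tA
  rw [← Rw_eq hi0]
  rfl

lemma q4_eq980 (hi0 : i0 ∉ S) (K : Finset (Co n LB LF)) (y : Co n LB LF → ℝ) :
    H498.q4 (muA (Xs n) lam η c) 1 (Sm b cB cF s η) x K (tA b cB cF s η i0 S BL FL) y =
      H980.q4 (muA (Xs n) lam η c) 1 x (Sm b cB cF s η) K (Rw i0 S BL FL) y := by
  unfold tA
  rw [← Rw_eq hi0]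
  unfold H498.q4 H980.q4
  refine Finset.sum_congr rfl fun e _ => Finset.sum_congr rfl fun f _ =>
    Finset.sum_congr rfl fun g _ => Finset.sum_congr rfl fun h _ => ?_
  unfold H498.E1
  have e1 : (fun w => H498.SA (Rw i0 S BL FL) 1 (Sm b cB cF s η) e w *
      H498.SA (Rw i0 S BL FL) 1 (Sm b cB cF s η) f w *
      (H498.SA (Rw i0 S BL FL) 1 (Sm b cB cF s η) g w *
      H498.SA (Rw i0 S BL FL) 1 (Sm b cB cF s η) h w)) =
      fun w => H980.Sr (Rw i0 S BL FL) 1 (Sm b cB cF s η) e w *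
        H980.Sr (Rw i0 S BL FL) 1 (Sm b cB cF s η) f w *
        H980.Sr (Rw i0 S BL FL) 1 (Sm b cB cF s η) g w *
        H980.Sr (Rw i0 S BL FL) 1 (Sm b cB cF s η) h w := by
    funext w
    rw [← mul_assoc]
    rfl
  rw [e1]

end mom

end Vale.Agent.P146.C3Amp
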