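import Vale.Agent.P146.H498.Amp9

/-!
# P146: the third order term for the modulated SK system, part 10

`hc3_num`: the hypothesis `hC3` of `H694.e1_sk` with all the numbers explicit.
-/

open MeasureTheory ProbabilityTheory

namespace Vale.Agent.P146.C3Amp

open Vale.Agent.P157.Lv Vale.Agent.P146.H196 Vale.Agent.P146.H646 Vale.Agent.P146.H615
  Vale.Agent.P146.H347 Vale.Agent.P146.H475 Vale.Agent.P146.H161 Vale.Agent.P146.H816
  Vale.Agent.P146.H325 Vale.Agent.P146.H317 Vale.Agent.P146.H694 Vale.Agent.P146.H412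

set_option linter.unusedSectionVars false

variable {n : ℕ} {LB LF : Type} [Fintype LB] [DecidableEq LB] [Fintype LF] [DecidableEq LF]

variable {b s η lam c x r0 : ℝ} {cB : LB → ℝ} {cF : LF → ℝ} {BL : Finset LB} {FL : Finset LF}
  {i0 : Fin n} {S S1 : Finset (Fin n)}

section law

variable (hl : 0 < lam) (hη : 0 ≤ η)
include hl hη

/-- the square of the increment. -/
lemma ex_Dv_sq (hn : 0 < n) {U pQ pC inc : ℝ} (hU : 0 ≤ U)
    (hpQ : exS n b cB cF s η lam c x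
      (H317.ind U (Qk n b cB cF s η lam c x S (Kset S BL FL))) ≤ pQ)
    (hpC : exS n b cB cF s η lam c x
      (H317.ind (U ^ 2) (CCv n b cB cF s η lam c x S (Kset (insert i0 S) BL FL))) ≤ pC)
    (hinc : exS n b cB cF s η lam c x
      (Qk n b cB cF s η lam c x S (Kset (insert i0 S) BL FL)) -
        exS n b cB cF s η lam c x (Qk n b cB cF s η lam c x S (Kset S BL FL)) ≤ inc) :
    exS n b cB cF s η lam c x (fun z => Dv n b cB cF s η lam c x S BL FL i0 z ^ 2) ≤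
      4 * (1 + η) ^ 2 * U * inc + (4 * (1 + η) ^ 2) ^ 2 * (pC + pQ) := by
  have hw := wt_sk (n := n) (LB := LB) (LF := LF) (b := b) (cB := cB) (cF := cF) (s := s)
    (c := c) (x := x) hl hη
  have bC := bm_CCv (n := n) (b := b) (s := s) (c := c) (x := x) (cB := cB) (cF := cF) hl hη S
    (Kset (insert i0 S) BL FL)
  have bD := bm_Dv (n := n) (b := b) (s := s) (c := c) (x := x) (cB := cB) (cF := cF)
    (BL := BL) (FL := FL) (i0 := i0) (S := S) hl hη
  have bQ : BM (Qs n b cB cF s η lam c x S BL FL) := bm_Qs hl hη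
  have hpQ' : exS n b cB cF s η lam c x (H317.ind U (Qs n b cB cF s η lam c x S BL FL)) ≤ pQ :=
    hpQ
  have h1 : (1 : ℝ) ≤ (1 + η) ^ 2 := by nlinarith
  refine tr_sq hw bD bQ bC Dv_nonneg (by positivity) hU (fun z hz hc => ?_) (fun z => ?_) hpQ'
    hpC ((ex_Dv hl hη).le.trans hinc)
  · have k1 := Dv_le (n := n) (b := b) (cB := cB) (cF := cF) (s := s) (c := c) (x := x)
      (S := S) (BL := BL) (FL := FL) (i0 := i0) hl hη z
    have k2 := Qk_le_CC (n := n) (b := b) (cB := cB) (cF := cF) (s := s) (c := c) (x := x)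
      (S := S) hl hη hn (Kset (insert i0 S) BL FL) z
    have k3 : √(CCv n b cB cF s η lam c x S (Kset (insert i0 S) BL FL) z) ≤ U := by
      rw [← Real.sqrt_sq hU]; exact Real.sqrt_le_sqrt hc
    have k4 : (1 + η) ^ 2 * √(CCv n b cB cF s η lam c x S (Kset (insert i0 S) BL FL) z) ≤
        (1 + η) ^ 2 * U := mul_le_mul_of_nonneg_left k3 (by positivity)
    have k5 : 1 * U ≤ (1 + η) ^ 2 * U := mul_le_mul_of_nonneg_right h1 hU
    linarith
  · have k1 := Dv_le (n := n) (b := b) (cB := cB) (cF := cF) (s := s) (c := c) (x := x)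
      (S := S) (BL := BL) (FL := FL) (i0 := i0) hl hη z
    have k2 := Qk_le_CC (n := n) (b := b) (cB := cB) (cF := cF) (s := s) (c := c) (x := x)
      (S := S) hl hη hn (Kset (insert i0 S) BL FL) z
    have k3 : √(CCv n b cB cF s η lam c x S (Kset (insert i0 S) BL FL) z) ≤ 1 := by
      have h := Real.sqrt_le_sqrt (CCv_le_one (n := n) (b := b) (cB := cB) (cF := cF) (s := s)
        (c := c) (x := x) hl hη hn S (Kset (insert i0 S) BL FL) z)
      rwa [Real.sqrt_one] at h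
    have k4 : (1 + η) ^ 2 * √(CCv n b cB cF s η lam c x S (Kset (insert i0 S) BL FL) z) ≤
        (1 + η) ^ 2 * 1 := mul_le_mul_of_nonneg_left k3 (by positivity)
    have k5 := Qs_le (n := n) (b := b) (cB := cB) (cF := cF) (s := s) (c := c) (x := x) (S := S)
      (BL := BL) (FL := FL) hl hη z
    linarith

/-- the fourth moment. -/
lemma ex_M4 (hn : 0 < n) {K : Finset (Co n LB LF)} {U pC k4 : ℝ}
    (hpC : exS n b cB cF s η lam c x
      (H317.ind (U ^ 2) (CCv n b cB cF s η lam c x S K)) ≤ pC)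
    (hk4 : exS n b cB cF s η lam c x (K4v n b cB cF s η lam c x S K) ≤ k4) :
    exS n b cB cF s η lam c x (M4v n b cB cF s η lam c x S K) ≤
      2 * (U ^ 4 + pC) + 8 * k4 := by
  have hw := wt_sk (n := n) (LB := LB) (LF := LF) (b := b) (cB := cB) (cF := cF) (s := s)
    (c := c) (x := x) hl hη
  have bC := bm_CCv (n := n) (b := b) (s := s) (c := c) (x := x) (cB := cB) (cF := cF) hl hη S K
  have bM := bm_M4v (n := n) (b := b) (s := s) (c := c) (x := x) (cB := cB) (cF := cF) hl hη S K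
  have bK := bm_K4v (n := n) (b := b) (s := s) (c := c) (x := x) (cB := cB) (cF := cF) hl hη S K
  have h1 := ex_mono hw bM ((bcm 2 (bm_pow bC 2)).add (bcm 8 bK)) fun z =>
    M4v_le hl hη hn S K z
  rw [ex_add hw (bcm _ (bm_pow bC 2)) (bcm _ bK), ex_cmul, ex_cmul] at h1
  have h2 := tr_pow hw bC (CCv_nonneg S K) (B := 1) (CCv_le_one hl hη hn S K) (sq_nonneg U)
    hpC 2
  have e1 : (U ^ 2) ^ 2 = U ^ 4 := by ring
  rw [e1, one_pow, one_mul] at h2
  have h3 : ex (g1 (Co n LB LF)) (wS n b cB cF s η lam c x)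
      (K4v n b cB cF s η lam c x S K) ≤ k4 := hk4
  linarith

/-- **The third order term with explicit numbers.** -/
theorem hc3_num (hs : s ≠ 0) (hn : 0 < n) (hx0 : 0 < x) (hx1 : x < 1)
    (hc : c = s ^ 2 * n * (1 - (1 - x) * r0)) (hS : S ⊆ S1) (hi0 : i0 ∉ S) {i1 : Fin n}
    (hi1 : i1 ∉ S) (hne : (S1 \ S).Nonempty) {t wf : ℝ} (hwf0 : 0 ≤ wf)
    (ht : ∑ l ∈ BL, cB l ^ 2 = t) (ht1 : t ≤ 1) (hwf : ∑ l ∈ FL, cF l ^ 2 = b ^ 2 * wf)
    {b0 : ℝ} (hb0 : 0 < b0) (hb : b ^ 2 * (t + wf) ≤ b0 ^ 2) (h1 : x * b0 ≤ 1 / 2)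
    (h2 : x * b0 ^ 2 ≤ 1) {e e1 e2 : ℝ} (he : 0 < e) (he' : e ≤ 1) (he1 : 0 < e1)
    (he2 : 0 < e2) {U pQ pC inc k2 k4 : ℝ} (hU : 0 ≤ U)
    (hpQ : exS n b cB cF s η lam c x
      (H317.ind U (Qk n b cB cF s η lam c x S (Kset S BL FL))) ≤ pQ)
    (hpC : exS n b cB cF s η lam c x
      (H317.ind (U ^ 2) (CCv n b cB cF s η lam c x S (Kset (insert i0 S) BL FL))) ≤ pC)
    (hinc : exS n b cB cF s η lam c x
      (Qk n b cB cF s η lam c x S (Kset (insert i0 S) BL FL)) -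
        exS n b cB cF s η lam c x (Qk n b cB cF s η lam c x S (Kset S BL FL)) ≤ inc)
    (hk2 : exS n b cB cF s η lam c x
      (RKk n b cB cF s η lam c x S (Kset (insert i0 S) BL FL)) ≤ k2)
    (hk4 : exS n b cB cF s η lam c x
      (K4v n b cB cF s η lam c x S (Kset (insert i0 S) BL FL)) ≤ k4) :
    exS n b cB cF s η lam c x (fun z =>
      |Ts n b cB cF s η lam c x S BL FL (1 - (1 - x) * r0) i0 z -
        ks n b cB cF s η lam c x S BL FL (Th3 n b cB cF s η lam c x) i1 z ^ 2 *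
          Qs n b cB cF s η lam c x S BL FL z ^ 3|) ≤
    RB b η x (1 - (1 - x) * r0) wf t e e1 e2 k2 (U ^ 2 + pC)
      (4 * (1 + η) ^ 2 * U * inc + (4 * (1 + η) ^ 2) ^ 2 * (pC + pQ))
      (2 * (U ^ 4 + pC) + 8 * k4) (U ^ 3 + (1 + η) ^ 6 * pQ) (U ^ 4 + (1 + η) ^ 8 * pQ)
      (U ^ 5 + (1 + η) ^ 6 * (pC + pQ))
      (b ^ 2 / n * t * d0 n b cB cF s η lam c x r0 (Kset S BL FL) (Kset S1 BL FL)
        (S1 \ S).card ^ 2 + b ^ 2 * wf * d0f n b cB cF s η lam c x r0 (S1 \ S).card ^ 2) := by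
  have hw := wt_sk (n := n) (LB := LB) (LF := LF) (b := b) (cB := cB) (cF := cF) (s := s)
    (c := c) (x := x) hl hη
  have bC := bm_CCv (n := n) (b := b) (s := s) (c := c) (x := x) (cB := cB) (cF := cF) hl hη S
    (Kset (insert i0 S) BL FL)
  have bQ : BM (Qs n b cB cF s η lam c x S BL FL) := bm_Qs hl hη
  have hpQ' : exS n b cB cF s η lam c x (H317.ind U (Qs n b cB cF s η lam c x S BL FL)) ≤ pQ :=
    hpQ
  have q0 : ∀ z, 0 ≤ Qs n b cB cF s η lam c x S BL FL z := Qs_nonneg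
  have q1 : ∀ z, Qs n b cB cF s η lam c x S BL FL z ≤ (1 + η) ^ 2 := Qs_le hl hη
  have c1 : ∀ z, CCv n b cB cF s η lam c x S (Kset (insert i0 S) BL FL) z ≤ 1 :=
    CCv_le_one hl hη hn _ _
  have t3 := tr_pow hw bQ q0 q1 hU hpQ' 3
  have t4 := tr_pow hw bQ q0 q1 hU hpQ' 4
  have t2 := tr_pow hw bC (CCv_nonneg _ _) c1 (sq_nonneg U) hpC 1
  have tc := tr_mul hw bQ bC q0 (CCv_nonneg _ _) c1 q1 hU hpQ' hpC 3
  have r3 : ((1 + η) ^ 2) ^ 3 = (1 + η) ^ 6 := by ring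
  have r4 : ((1 + η) ^ 2) ^ 4 = (1 + η) ^ 8 := by ring
  rw [r3] at t3 tc
  rw [r4] at t4
  simp only [pow_one, one_mul] at t2
  exact hc3_sk hl hη hn hx0 hx1.le hi0 hi1 hwf0 ht ht1 hwf hb0 hb h1 h2 _ he he' he1 he2
    hk2 t2 (ex_Dv_sq hl hη hn hU hpQ hpC hinc) (ex_M4 hl hη hn hpC hk4) t3 t4 tc
    (ex_DU_le hl hη hs hx0.le hx1 hc hS hi0 hne ht hwf)

end law

end Vale.Agent.P146.C3Amp
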