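import Vale.Agent.P146.H498.Amp1

/-!
# P146: the third order term for the modulated SK system, part 2

The second moment of the row minus its mean direction, through the rank one defect.
-/

open MeasureTheory ProbabilityTheory

namespace Vale.Agent.P146.C3Amp

open Vale.Agent.P157.Lv Vale.Agent.P146.H196 Vale.Agent.P146.H646 Vale.Agent.P146.H615
  Vale.Agent.P146.H347 Vale.Agent.P146.H475 Vale.Agent.P146.H161 Vale.Agent.P146.H816
  Vale.Agent.P146.H325 Vale.Agent.P146.H317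

set_option linter.unusedSectionVars false

variable {n : ℕ} {LB LF : Type} [Fintype LB] [DecidableEq LB] [Fintype LF] [DecidableEq LF]

/-- the mean direction of the row. -/
noncomputable def dA (b : ℝ) (cB : LB → ℝ) (i0 : Fin n) (S : Finset (Fin n)) (BL : Finset LB)
    (FL : Finset LF) (M : Fin n → ℝ) (e : Co n LB LF) : ℝ :=
  if e ∈ Rw i0 S BL FL then
    Sum.elim (Sum.elim (fun p : Pair n × LB => b / √n * cB p.2 * M (oth i0 p.1)) fun _ => 0)
      (fun _ => 0) e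
  else 0

/-- the row minus its mean direction, as a function of the spins. -/
noncomputable def aR (b : ℝ) (cB : LB → ℝ) (cF : LF → ℝ) (i0 : Fin n) (S : Finset (Fin n))
    (BL : Finset LB) (FL : Finset LF) (M : Fin n → ℝ) (e : Co n LB LF) (σ : Xs n) : ℝ :=
  if e ∈ Rw i0 S BL FL then Ro b cB cF e σ - dA b cB i0 S BL FL M e * sp σ i0 else 0

variable {b s η lam c x : ℝ} {cB : LB → ℝ} {cF : LF → ℝ} {BL : Finset LB} {FL : Finset LF}
  {i0 : Fin n} {S : Finset (Fin n)}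

lemma dA_off {M : Fin n → ℝ} {e : Co n LB LF} (he : e ∉ Rw i0 S BL FL) :
    dA b cB i0 S BL FL M e = 0 := by
  unfold dA
  rw [if_neg he]

lemma dA_bd {M : Fin n → ℝ} {p : Pair n} {l : LB} (hp : p ∈ row i0) (ho : oth i0 p ∈ S)
    (hl : l ∈ BL) : dA (LF := LF) b cB i0 S BL FL M (bd LF p l) = b / √n * cB l * M (oth i0 p) := by
  unfold dA
  rw [if_pos ((bd_memR p l).2 ⟨⟨hp, ho⟩, hl⟩)]
  rfl

lemma dA_fd {M : Fin n → ℝ} {l : LF} (hl : l ∈ FL) :
    dA b cB i0 S BL FL M (fd LB i0 l) = 0 := by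
  unfold dA
  rw [if_pos ((fd_memR i0 l).2 ⟨rfl, hl⟩)]
  rfl

lemma sum_dA_sq (hi0 : i0 ∉ S) (M : Fin n → ℝ) :
    ∑ e : Co n LB LF, dA b cB i0 S BL FL M e ^ 2 =
      b ^ 2 / n * (∑ l ∈ BL, cB l ^ 2) * ∑ j ∈ S, M j ^ 2 := by
  rw [← Finset.sum_subset (Finset.subset_univ (Rw i0 S BL FL))
    (fun e _ he => by rw [dA_off he]; norm_num)]
  rw [sum_Rw' hi0 _ (fun j l => b ^ 2 / n * cB l ^ 2 * M j ^ 2)]
  · rw [Finset.sum_eq_zero (s := FL) fun l hl => by rw [dA_fd hl]; norm_num, add_zero,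
      Finset.mul_sum]
    refine Finset.sum_congr rfl fun j _ => ?_
    rw [Finset.mul_sum, Finset.sum_mul]
  · intro p hp ho l hl
    rw [dA_bd hp ho hl, ← div_sqrt_sq]
    ring

lemma aR_bd {M : Fin n → ℝ} {p : Pair n} {l : LB} (hp : p ∈ row i0) (ho : oth i0 p ∈ S)
    (hl : l ∈ BL) (σ : Xs n) : aR (LF := LF) b cB cF i0 S BL FL M (bd LF p l) σ =
      b / √n * cB l * (sp σ i0 * (sp σ (oth i0 p) - M (oth i0 p))) := by
  unfold aR
  rw [if_pos ((bd_memR p l).2 ⟨⟨hp, ho⟩, hl⟩), dA_bd hp ho hl]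
  have h := Sm_bd (LF := LF) b cB cF 0 0 hp l ((0 : ℝ), σ)
  unfold Ro
  rw [h]
  ring

lemma aR_fd {M : Fin n → ℝ} {l : LF} (hl : l ∈ FL) (σ : Xs n) :
    aR (LB := LB) b cB cF i0 S BL FL M (fd LB i0 l) σ = cF l * sp σ i0 := by
  unfold aR
  rw [if_pos ((fd_memR i0 l).2 ⟨rfl, hl⟩), dA_fd hl]
  have h := Sm_fd (LB := LB) b cB cF 0 0 i0 l ((0 : ℝ), σ)
  unfold Ro
  rw [h]
  ring

/-- the covariance of the row minus its mean direction. -/
lemma sum_aR (hi0 : i0 ∉ S) (M : Fin n → ℝ) (σ σ' : Xs n) :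
    ∑ e : Co n LB LF, aR b cB cF i0 S BL FL M e σ * aR b cB cF i0 S BL FL M e σ' =
      sp σ i0 * sp σ' i0 * (b ^ 2 / n * (∑ l ∈ BL, cB l ^ 2) *
        ∑ j ∈ S, (sp σ j - M j) * (sp σ' j - M j) + ∑ l ∈ FL, cF l ^ 2) := by
  rw [← Finset.sum_subset (Finset.subset_univ (Rw i0 S BL FL))
    (fun e _ he => by unfold aR; rw [if_neg he]; ring)]
  rw [sum_Rw' hi0 _ (fun j l => sp σ i0 * sp σ' i0 * (b ^ 2 / n * cB l ^ 2 *
    ((sp σ j - M j) * (sp σ' j - M j))))]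
  · rw [mul_add]
    congr 1
    · rw [Finset.mul_sum, Finset.mul_sum]
      refine Finset.sum_congr rfl fun j _ => ?_
      rw [Finset.mul_sum, Finset.sum_mul, Finset.mul_sum]
    · rw [Finset.mul_sum]
      refine Finset.sum_congr rfl fun l hl => ?_
      rw [aR_fd hl, aR_fd hl]
      ring
  · intro p hp ho l hl
    rw [aR_bd hp ho hl, aR_bd hp ho hl, ← div_sqrt_sq]
    ring

lemma df_eq (hi0 : i0 ∉ S) {M : Fin n → ℝ} {g : ℝ} {v : Co n LB LF → ℝ}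
    (hv : ∀ e, g * v e = dA b cB i0 S BL FL M e) (e : Co n LB LF) (w : ℝ × Xs n) :
    H498.df (tA b cB cF s η i0 S BL FL) (fun w => sp w.2 i0) g v e w =
      aR b cB cF i0 S BL FL M e w.2 := by
  unfold H498.df aR tA
  rw [← Rw_eq hi0]
  unfold H498.SA
  have h1 : g * sp w.2 i0 * v e = dA b cB i0 S BL FL M e * sp w.2 i0 := by
    rw [← hv e]; ring
  rw [h1]
  split_ifs with he
  · rw [one_mul, Ro_eq b cB cF s he]
  · rw [dA_off he]
    ring

section law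

variable (hl : 0 < lam) (hη : 0 ≤ η)
include hl hη

/-- the second moment of the row minus its mean direction, two copies. -/
theorem q2d_eq (hi0 : i0 ∉ S) {M : Fin n → ℝ} {g : ℝ} {v : Co n LB LF → ℝ}
    (hv : ∀ e, g * v e = dA b cB i0 S BL FL M e) (K : Finset (Co n LB LF))
    (y : Co n LB LF → ℝ) :
    H498.q2 (muA (Xs n) lam η c) 1 (Sm b cB cF s η) x K
      (H498.df (tA b cB cF s η i0 S BL FL) (fun w => sp w.2 i0) g v) y =
    E2 (rA b cB cF s η lam c x K y) (fun σ σ' =>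
      (b ^ 2 / n * (∑ l ∈ BL, cB l ^ 2) * ∑ j ∈ S, (sp σ j - M j) * (sp σ' j - M j) +
        ∑ l ∈ FL, cF l ^ 2) ^ 2) := by
  unfold H498.q2 H498.E1
  have h1 : ∀ e f : Co n LB LF, cx (H498.gs (Co n LB LF)) K
      (Zxm (muA (Xs n) lam η c) 1 (Sm b cB cF s η) x)
      (avm (muA (Xs n) lam η c) 1 (Sm b cB cF s η) (fun w =>
        H498.df (tA b cB cF s η i0 S BL FL) (fun w => sp w.2 i0) g v e w *
        H498.df (tA b cB cF s η i0 S BL FL) (fun w => sp w.2 i0) g v f w)) y =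
      ∑ σ, rA b cB cF s η lam c x K y σ *
        (aR b cB cF i0 S BL FL M e σ * aR b cB cF i0 S BL FL M f σ) := by
    intro e f
    rw [← cx_rA b cB cF s hl hη c x K
      (fun σ => aR b cB cF i0 S BL FL M e σ * aR b cB cF i0 S BL FL M f σ)]
    simp only [df_eq hi0 hv]
  simp only [h1]
  have h2 := sum_sq_mean ((Finset.univ : Finset (Co n LB LF)) ×ˢ Finset.univ)
    (rA b cB cF s η lam c x K y)
    (fun a σ => aR b cB cF i0 S BL FL M a.1 σ * aR b cB cF i0 S BL FL M a.2 σ)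
  rw [Finset.sum_product] at h2
  rw [h2]
  congr 1
  funext σ σ'
  have h3 : ∑ a ∈ (Finset.univ : Finset (Co n LB LF)) ×ˢ Finset.univ,
      aR b cB cF i0 S BL FL M a.1 σ * aR b cB cF i0 S BL FL M a.2 σ *
      (aR b cB cF i0 S BL FL M a.1 σ' * aR b cB cF i0 S BL FL M a.2 σ') =
      (∑ e, aR b cB cF i0 S BL FL M e σ * aR b cB cF i0 S BL FL M e σ') ^ 2 := by
    rw [sq, Finset.sum_mul_sum, Finset.sum_product]
    refine Finset.sum_congr rfl fun e _ => Finset.sum_congr rfl fun f _ => ?_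
    ring
  rw [h3, sum_aR hi0, mul_pow, sq_sp_mul, one_mul]

end law

/-- the second moment of a centred overlap. -/
lemma E2_cen {p : Xs n → ℝ} (h1 : ∑ σ, p σ = 1) (S : Finset (Fin n)) (M : Fin n → ℝ) :
    E2 p (fun σ σ' => (∑ j ∈ S, (sp σ j - M j) * (sp σ' j - M j)) ^ 2) ≤
      2 * ∑ j ∈ S, ∑ l ∈ S, (∑ σ, p σ * (sp σ j * sp σ l) -
        (∑ σ, p σ * sp σ j) * ∑ σ, p σ * sp σ l) ^ 2 +
      2 * (∑ j ∈ S, (∑ σ, p σ * sp σ j - M j) ^ 2) ^ 2 := by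
  have h2 := sum_sq_mean (S ×ˢ S) p (fun a σ => (sp σ a.1 - M a.1) * (sp σ a.2 - M a.2))
  rw [Finset.sum_product] at h2
  have h3 : E2 p (fun σ σ' => (∑ j ∈ S, (sp σ j - M j) * (sp σ' j - M j)) ^ 2) =
      E2 p (fun σ σ' => ∑ a ∈ S ×ˢ S, (sp σ a.1 - M a.1) * (sp σ a.2 - M a.2) *
        ((sp σ' a.1 - M a.1) * (sp σ' a.2 - M a.2))) := by
    congr 1
    funext σ σ'
    rw [sq, Finset.sum_mul_sum, Finset.sum_product]
    refine Finset.sum_congr rfl fun e _ => Finset.sum_congr rfl fun f _ => ?_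
    ring
  rw [h3, ← h2]
  have h4 : ∀ j l, ∑ σ, p σ * ((sp σ j - M j) * (sp σ l - M l)) =
      (∑ σ, p σ * (sp σ j * sp σ l) - (∑ σ, p σ * sp σ j) * ∑ σ, p σ * sp σ l) +
      (∑ σ, p σ * sp σ j - M j) * (∑ σ, p σ * sp σ l - M l) := by
    intro j l
    have e1 : ∑ σ, p σ * ((sp σ j - M j) * (sp σ l - M l)) =
        ∑ σ, p σ * (sp σ j * sp σ l) - M l * ∑ σ, p σ * sp σ j - M j * ∑ σ, p σ * sp σ l +
          M j * M l * ∑ σ, p σ := by
      rw [Finset.mul_sum, Finset.mul_sum, Finset.mul_sum, ← Finset.sum_sub_distrib,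
        ← Finset.sum_sub_distrib, ← Finset.sum_add_distrib]
      refine Finset.sum_congr rfl fun σ _ => ?_
      ring
    rw [e1, h1]
    ring
  simp only [h4]
  have h5 : (∑ j ∈ S, (∑ σ, p σ * sp σ j - M j) ^ 2) ^ 2 =
      ∑ j ∈ S, ∑ l ∈ S, ((∑ σ, p σ * sp σ j - M j) * (∑ σ, p σ * sp σ l - M l)) ^ 2 := by
    rw [sq (∑ j ∈ S, (∑ σ, p σ * sp σ j - M j) ^ 2), Finset.sum_mul_sum]
    refine Finset.sum_congr rfl fun j _ => Finset.sum_congr rfl fun l _ => ?_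
    ring
  rw [h5, Finset.mul_sum, Finset.mul_sum, ← Finset.sum_add_distrib]
  refine Finset.sum_le_sum fun j _ => ?_
  rw [Finset.mul_sum, Finset.mul_sum, ← Finset.sum_add_distrib]
  refine Finset.sum_le_sum fun l _ => ?_
  obtain ⟨A, hA⟩ : ∃ A, A = ∑ σ, p σ * (sp σ j * sp σ l) -
    (∑ σ, p σ * sp σ j) * ∑ σ, p σ * sp σ l := ⟨_, rfl⟩
  obtain ⟨B, hB⟩ : ∃ B, B = (∑ σ, p σ * sp σ j - M j) * (∑ σ, p σ * sp σ l - M l) := ⟨_, rfl⟩
  rw [← hA, ← hB]
  nlinarith [sq_nonneg (A - B)]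

end Vale.Agent.P146.C3Amp
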