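import Vale.Agent.P146.H498.Amp2
import Vale.Agent.P146.H694.E1Sk

/-!
# P146: the third order term for the modulated SK system, part 3

The moments of the row in terms of the numbers of the system, and the third cumulant as an
equivariant family.
-/

open MeasureTheory ProbabilityTheory

namespace Vale.Agent.P146.C3Amp

open Vale.Agent.P157.Lv Vale.Agent.P146.H196 Vale.Agent.P146.H646 Vale.Agent.P146.H615
  Vale.Agent.P146.H347 Vale.Agent.P146.H475 Vale.Agent.P146.H161 Vale.Agent.P146.H816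
  Vale.Agent.P146.H325 Vale.Agent.P146.H317 Vale.Agent.P146.H694

set_option linter.unusedSectionVars false

variable {n : ℕ} {LB LF : Type} [Fintype LB] [DecidableEq LB] [Fintype LF] [DecidableEq LF]

section defs

variable (n) (b : ℝ) (cB : LB → ℝ) (cF : LF → ℝ) (s η lam c x : ℝ)
  (S : Finset (Fin n)) (BL : Finset LB) (FL : Finset LF) (i0 : Fin n)

/-- the rank one defect on `S` given the coordinates of `insert i0 S`, normalised. -/
noncomputable def RKc (y : Co n LB LF → ℝ) : ℝ :=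
  RKg (muA (Xs n) lam η c) (Sm b cB cF s η) x (Kset (insert i0 S) BL FL)
    (fun (j : Fin n) w => sp w.2 j) S y / (n : ℝ) ^ 2

/-- the squared distance of the new and of the old mean magnetisation, normalised. -/
noncomputable def Dv (y : Co n LB LF → ℝ) : ℝ :=
  (∑ j ∈ S, (cxS n b cB cF s η lam c x (Kset (insert i0 S) BL FL)
      (avS b cB cF s η lam c (fun w => al η w.1 * sp w.2 j)) y -
    Mj n b cB cF s η lam c x S BL FL j y) ^ 2) / n

/-- the third cumulant of the spin in its own direction. -/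
noncomputable def Th3 (i : Fin n) : (Co n LB LF → ℝ) → ℝ := fun z => b ^ 3 / √6 *
  avR (muA (Xs n) lam η c) 1 (Sm b cB cF s η) H498.R4
    (H498.Th x (fun w => al η w.1 * sp w.2 i) fun w => sp w.2 i) z

end defs

variable {b s η lam c x : ℝ} {cB : LB → ℝ} {cF : LF → ℝ} {BL : Finset LB} {FL : Finset LF}
  {i0 : Fin n} {S : Finset (Fin n)}

section law

variable (hl : 0 < lam) (hη : 0 ≤ η)
include hl hη

/-- the effect of the amplitude on the mean magnetisation. -/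
lemma sum_am_le (K : Finset (Co n LB LF)) (S : Finset (Fin n)) (y : Co n LB LF → ℝ) :
    ∑ j ∈ S, (cxS n b cB cF s η lam c x K (avS b cB cF s η lam c (fun w => sp w.2 j)) y -
      cxS n b cB cF s η lam c x K (avS b cB cF s η lam c
        (fun w => al η w.1 * sp w.2 j)) y) ^ 2 ≤
      η ^ 2 * √(mo S 2 (rA b cB cF s η lam c x K y)) := by
  have hG := gmA (n := n) b cB cF s hl hη c
  have hw := H347.wt hG 1 x
  have b1 : ∀ j : Fin n, Bm fun w : ℝ × Xs n => sp w.2 j := fun j => bm_sp j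
  have b2 : Bm fun w : ℝ × Xs n => al η w.1 := bm_of_al (n := n) hη
  have h1 := amp_sq_le b cB cF s hl hη c x K S (h := fun w => al η w.1 - 1)
    (b2.sub (Bm.const 1)) (C := η) (fun w => abs_al_sub hη w.1) hη y
  refine le_trans (le_of_eq ?_) h1
  refine Finset.sum_congr rfl fun j _ => ?_
  have e1 : avS b cB cF s η lam c (fun w : ℝ × Xs n => (al η w.1 - 1) * sp w.2 j) =
      fun u : Co n LB LF → ℝ => avS b cB cF s η lam c (fun w => al η w.1 * sp w.2 j) u -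
        avS b cB cF s η lam c (fun w => sp w.2 j) u := by
    funext u
    have e2 : (fun w : ℝ × Xs n => (al η w.1 - 1) * sp w.2 j) =
        fun w => al η w.1 * sp w.2 j - sp w.2 j := by
      funext w; ring
    rw [e2]
    exact hG.av_sub 1 (b2.mul (b1 j)) (b1 j) u
  have e3 : cx (g1 (Co n LB LF)) K (Zxm (muA (Xs n) lam η c) 1 (Sm b cB cF s η) x)
      (avm (muA (Xs n) lam η c) 1 (Sm b cB cF s η)
        (fun w : ℝ × Xs n => (al η w.1 - 1) * sp w.2 j)) y =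
      cxS n b cB cF s η lam c x K (avS b cB cF s η lam c (fun w => al η w.1 * sp w.2 j)) y -
      cxS n b cB cF s η lam c x K (avS b cB cF s η lam c (fun w => sp w.2 j)) y := by
    rw [← H646.cx_sub hw (H347.bm hG 1 (b2.mul (b1 j))) (H347.bm hG 1 (b1 j)), ← e1]
  rw [e3]
  ring

/-- the second moment of the row minus its mean direction. -/
theorem q2d_le (hn : 0 < n) (hi0 : i0 ∉ S) {t wf : ℝ}
    (ht : ∑ l ∈ BL, cB l ^ 2 = t) (hwf : ∑ l ∈ FL, cF l ^ 2 = b ^ 2 * wf)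
    {M : Fin n → ℝ} {g : ℝ} {v : Co n LB LF → ℝ}
    (hv : ∀ e, g * v e = dA b cB i0 S BL FL M e) (y : Co n LB LF → ℝ) :
    H498.q2 (muA (Xs n) lam η c) 1 (Sm b cB cF s η) x (Kset (insert i0 S) BL FL)
      (H498.df (tA b cB cF s η i0 S BL FL) (fun w => sp w.2 i0) g v) y ≤
    b ^ 4 * t ^ 2 * (4 * RKc n b cB cF s η lam c x S BL FL i0 y +
      32 * η ^ 4 * CCv n b cB cF s η lam c x S (Kset (insert i0 S) BL FL) y +
      32 * ((∑ j ∈ S, (cxS n b cB cF s η lam c x (Kset (insert i0 S) BL FL)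
        (avS b cB cF s η lam c (fun w => al η w.1 * sp w.2 j)) y - M j) ^ 2) / n) ^ 2) +
      2 * b ^ 4 * wf ^ 2 := by
  have hn' : (0 : ℝ) < n := Nat.cast_pos.2 hn
  set K := Kset (LB := LB) (LF := LF) (insert i0 S) BL FL with hK
  set p := rA b cB cF s η lam c x K y with hp
  have hp0 : ∀ σ, 0 ≤ p σ := rA_nonneg b cB cF s hl hη c x K y
  have hp1 : ∑ σ, p σ = 1 := rA_sum b cB cF s hl hη c x K y
  rw [q2d_eq hl hη hi0 hv, ht, hwf]
  -- linear part
  have h1 : E2 p (fun σ σ' => (b ^ 2 / n * t * ∑ j ∈ S, (sp σ j - M j) * (sp σ' j - M j) +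
      b ^ 2 * wf) ^ 2) ≤ 2 * (b ^ 2 / n * t) ^ 2 *
      E2 p (fun σ σ' => (∑ j ∈ S, (sp σ j - M j) * (sp σ' j - M j)) ^ 2) +
      2 * (b ^ 2 * wf) ^ 2 := by
    have e : 2 * (b ^ 2 / n * t) ^ 2 *
        E2 p (fun σ σ' => (∑ j ∈ S, (sp σ j - M j) * (sp σ' j - M j)) ^ 2) +
        2 * (b ^ 2 * wf) ^ 2 = E2 p (fun σ σ' => 2 * (b ^ 2 / n * t) ^ 2 *
          (∑ j ∈ S, (sp σ j - M j) * (sp σ' j - M j)) ^ 2 + 2 * (b ^ 2 * wf) ^ 2 * 1) := by
      rw [E2_add, E2_cmul, E2_cmul, E2_one hp1, mul_one]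
    rw [e]
    refine E2_mono hp0 fun σ σ' => ?_
    nlinarith [sq_nonneg (b ^ 2 / n * t * ∑ j ∈ S, (sp σ j - M j) * (sp σ' j - M j) -
      b ^ 2 * wf)]
  refine h1.trans ?_
  have h2 := E2_cen hp1 S M
  -- the mean
  have hm : ∀ j, ∑ σ, p σ * sp σ j =
      cxS n b cB cF s η lam c x K (avS b cB cF s η lam c (fun w => sp w.2 j)) y := fun j =>
    (cx_rA b cB cF s hl hη c x K (fun σ => sp σ j) y).symm
  have hm2 : ∀ j l, ∑ σ, p σ * (sp σ j * sp σ l) =
      cxS n b cB cF s η lam c x K (avS b cB cF s η lam c (fun w => sp w.2 j * sp w.2 l)) y :=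
    fun j l => (cx_rA b cB cF s hl hη c x K (fun σ => sp σ j * sp σ l) y).symm
  have hRK : ∑ j ∈ S, ∑ l ∈ S, (∑ σ, p σ * (sp σ j * sp σ l) -
      (∑ σ, p σ * sp σ j) * ∑ σ, p σ * sp σ l) ^ 2 =
      (n : ℝ) ^ 2 * RKc n b cB cF s η lam c x S BL FL i0 y := by
    unfold RKc RKg Cg
    simp only [hm, hm2]
    rw [mul_div_cancel₀ _ (by positivity)]
  have h3 := sum_am_le (n := n) (b := b) (s := s) (c := c) (x := x) (cB := cB) (cF := cF)
    hl hη K S y
  obtain ⟨D, hD⟩ : ∃ D, D = ∑ j ∈ S, (cxS n b cB cF s η lam c x K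
    (avS b cB cF s η lam c (fun w => al η w.1 * sp w.2 j)) y - M j) ^ 2 := ⟨_, rfl⟩
  have hD0 : 0 ≤ D := by rw [hD]; exact Finset.sum_nonneg fun _ _ => sq_nonneg _
  have h4 : ∑ j ∈ S, (∑ σ, p σ * sp σ j - M j) ^ 2 ≤ 2 * (η ^ 2 * √(mo S 2 p)) + 2 * D := by
    rw [hD]
    refine le_trans ?_ (add_le_add (mul_le_mul_of_nonneg_left h3 zero_le_two) le_rfl)
    rw [Finset.mul_sum, Finset.mul_sum, ← Finset.sum_add_distrib]
    refine Finset.sum_le_sum fun j _ => ?_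
    rw [hm]
    obtain ⟨A, hA⟩ : ∃ A, A = cxS n b cB cF s η lam c x K
      (avS b cB cF s η lam c (fun w => sp w.2 j)) y := ⟨_, rfl⟩
    obtain ⟨B, hB⟩ : ∃ B, B = cxS n b cB cF s η lam c x K
      (avS b cB cF s η lam c (fun w => al η w.1 * sp w.2 j)) y := ⟨_, rfl⟩
    rw [← hA, ← hB]
    nlinarith [sq_nonneg (A - B - (B - M j))]
  have h5 : (∑ j ∈ S, (∑ σ, p σ * sp σ j - M j) ^ 2) ^ 2 ≤
      8 * η ^ 4 * mo S 2 p + 8 * D ^ 2 := by
    have h6 : 0 ≤ ∑ j ∈ S, (∑ σ, p σ * sp σ j - M j) ^ 2 :=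
      Finset.sum_nonneg fun _ _ => sq_nonneg _
    have h7 := pow_le_pow_left₀ h6 h4 2
    have h8 : √(mo S 2 p) ^ 2 = mo S 2 p := Real.sq_sqrt (mo_two_nonneg hp0)
    have h9 : (2 * (η ^ 2 * √(mo S 2 p)) + 2 * D) ^ 2 ≤
        8 * (η ^ 2 * √(mo S 2 p)) ^ 2 + 8 * D ^ 2 := by
      nlinarith [sq_nonneg (η ^ 2 * √(mo S 2 p) - D)]
    have h10 : 8 * (η ^ 2 * √(mo S 2 p)) ^ 2 = 8 * η ^ 4 * mo S 2 p := by
      rw [mul_pow, h8]; ring
    linarith
  have h11 : mo S 2 p = (n : ℝ) ^ 2 * CCv n b cB cF s η lam c x S K y := by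
    unfold CCv
    rw [m2_eq hl hη, mul_div_cancel₀ _ (by positivity)]
  rw [← hD]
  have h12 : E2 p (fun σ σ' => (∑ j ∈ S, (sp σ j - M j) * (sp σ' j - M j)) ^ 2) ≤
      2 * ((n : ℝ) ^ 2 * RKc n b cB cF s η lam c x S BL FL i0 y) +
      2 * (8 * η ^ 4 * ((n : ℝ) ^ 2 * CCv n b cB cF s η lam c x S K y) + 8 * D ^ 2) := by
    rw [hRK] at h2
    rw [h11] at h5
    linarith
  have h13 := mul_le_mul_of_nonneg_left h12 (by positivity : 0 ≤ 2 * (b ^ 2 / n * t) ^ 2)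
  have e1 : 2 * (b ^ 2 / n * t) ^ 2 *
      (2 * ((n : ℝ) ^ 2 * RKc n b cB cF s η lam c x S BL FL i0 y) +
      2 * (8 * η ^ 4 * ((n : ℝ) ^ 2 * CCv n b cB cF s η lam c x S K y) + 8 * D ^ 2)) +
      2 * (b ^ 2 * wf) ^ 2 =
      b ^ 4 * t ^ 2 * (4 * RKc n b cB cF s η lam c x S BL FL i0 y +
      32 * η ^ 4 * CCv n b cB cF s η lam c x S K y + 32 * (D / n) ^ 2) + 2 * b ^ 4 * wf ^ 2 := by
    field_simp
    ring
  linarith

end law

/-! ### the third cumulant -/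

section th

variable (hl : 0 < lam) (hη : 0 ≤ η)
include hl hη

lemma abs_P_le (i : Fin n) (w : ℝ × Xs n) : |al η w.1 * sp w.2 i| ≤ 1 + η := by
  have h1 := al_mem hη w.1
  have h2 := H646.abs_sp_le w.2 i
  have h3 : |al η w.1| ≤ 1 + η := by rw [abs_le]; constructor <;> linarith [h1.1, h1.2]
  rw [abs_mul]
  calc |al η w.1| * |sp w.2 i| ≤ (1 + η) * 1 := mul_le_mul h3 h2 (abs_nonneg _) (by linarith)
    _ = 1 + η := mul_one _

lemma bm_P (i : Fin n) : Bm fun w : ℝ × Xs n => al η w.1 * sp w.2 i :=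
  (bm_of_al (n := n) hη).mul (bm_sp i)

lemma bm_Thc (i : Fin n) : Bm (H498.Th x (fun w : ℝ × Xs n => al η w.1 * sp w.2 i)
    fun w => sp w.2 i) := H498.bm_Th x (bm_P hl hη i) (bm_sp i)

theorem bm_Th3 (i : Fin n) : BM (Th3 n b cB cF s η lam c x i) :=
  bcm _ ((gmA (n := n) b cB cF s hl hη c).bm_avR 1 (bm_Thc (lam := lam) hl hη i))

theorem eq1_Th3 : Eq1 (Th3 n b cB cF s η lam c x) := by
  intro π j z
  have h := eq1_avR (n := n) (LB := LB) (LF := LF) b cB cF s η hl hη c 1 (R := H498.R4)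
    (f := fun i => H498.Th x (fun w : ℝ × Xs n => al η w.1 * sp w.2 i) fun w => sp w.2 i)
    (fun π j w => rfl) π j z
  exact congrArg (fun t => b ^ 3 / √6 * t) h

theorem abs_Th3_le (hx0 : 0 ≤ x) (hx1 : x ≤ 1) (i : Fin n) (z : Co n LB LF → ℝ) :
    |Th3 n b cB cF s η lam c x i z| ≤ 20 * |b| ^ 3 * (1 + η) := by
  have h1 : |avR (muA (Xs n) lam η c) 1 (Sm b cB cF s η) H498.R4
      (H498.Th x (fun w => al η w.1 * sp w.2 i) fun w => sp w.2 i) z| ≤
      48 * (1 + η) * 1 ^ 3 :=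
    (gmA (n := n) b cB cF s hl hη c).abs_avR_le 1 (bm_Thc (lam := lam) hl hη i).meas
      (H498.abs_Th_le hx0 hx1 (abs_P_le hl hη i) fun w => H646.abs_sp_le w.2 i) z
  have h6 : 0 < √(6 : ℝ) := Real.sqrt_pos.2 (by norm_num)
  have h7 : 48 / √6 ≤ 20 := by
    rw [div_le_iff₀ h6]
    have h8 := Real.sq_sqrt (show (0 : ℝ) ≤ 6 by norm_num)
    nlinarith
  unfold Th3
  rw [abs_mul, abs_div, abs_of_pos h6, abs_pow]
  calc |b| ^ 3 / √6 * |avR (muA (Xs n) lam η c) 1 (Sm b cB cF s η) H498.R4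
        (H498.Th x (fun w => al η w.1 * sp w.2 i) fun w => sp w.2 i) z|
      ≤ |b| ^ 3 / √6 * (48 * (1 + η) * 1 ^ 3) :=
        mul_le_mul_of_nonneg_left h1 (by positivity)
    _ = 48 / √6 * (|b| ^ 3 * (1 + η)) := by ring
    _ ≤ 20 * (|b| ^ 3 * (1 + η)) := mul_le_mul_of_nonneg_right h7 (by positivity)
    _ = _ := by ring

end th

section ks

variable (hl : 0 < lam) (hη : 0 ≤ η)
include hl hη

/-- the conditional mean of the third cumulant. -/
noncomputable def kA (n : ℕ) (b : ℝ) (cB : LB → ℝ) (cF : LF → ℝ) (s η lam c x : ℝ)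
    (S : Finset (Fin n)) (BL : Finset LB) (FL : Finset LF) (i0 : Fin n)
    (z : Co n LB LF → ℝ) : ℝ :=
  H498.Ey (muA (Xs n) lam η c) 1 (Sm b cB cF s η) x (Kset S BL FL)
    (H498.Th x (fun w => al η w.1 * sp w.2 i0) fun w => sp w.2 i0) z

theorem ks_sq (hi0 : i0 ∉ S) {i1 : Fin n} (hi1 : i1 ∉ S) (z : Co n LB LF → ℝ) :
    ks n b cB cF s η lam c x S BL FL (Th3 n b cB cF s η lam c x) i1 z ^ 2 =
      b ^ 6 * kA n b cB cF s η lam c x S BL FL i0 z ^ 2 / 6 := by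
  have h1 : ks n b cB cF s η lam c x S BL FL (Th3 n b cB cF s η lam c x) i1 z =
      ks n b cB cF s η lam c x S BL FL (Th3 n b cB cF s η lam c x) i0 z :=
    (eq1_Th3 hl hη).cx_hid (invP_Z b cB cF s η hl c 1 x) hi0 hi1 z
  have h2 : ks n b cB cF s η lam c x S BL FL (Th3 n b cB cF s η lam c x) i0 z =
      b ^ 3 / √6 * kA n b cB cF s η lam c x S BL FL i0 z :=
    H646.cx_const_mul (H347.wt (gmA (n := n) b cB cF s hl hη c) 1 x) _ z
  rw [h1, h2, mul_pow, div_pow, Real.sq_sqrt (by norm_num)]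
  ring

theorem abs_kA_le (hx0 : 0 ≤ x) (hx1 : x ≤ 1) (z : Co n LB LF → ℝ) :
    |kA n b cB cF s η lam c x S BL FL i0 z| ≤ 48 * (1 + η) := by
  have hG := gmA (n := n) b cB cF s hl hη c
  have hw := wtA (n := n) b cB cF s hl hη c x
  refine hw.abs_cx_le _ (hG.bm_avR 1 (bm_Thc (lam := lam) hl hη i0)) (fun u => ?_) z
  have h1 := hG.abs_avR_le 1 (bm_Thc (x := x) (lam := lam) hl hη i0).meas
      (H498.abs_Th_le hx0 hx1 (abs_P_le hl hη i0) fun w => H646.abs_sp_le w.2 i0) u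
  rw [one_pow, mul_one] at h1
  exact h1

end ks

end Vale.Agent.P146.C3Amp
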