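import Vale.Agent.P146.H498.Amp3

/-!
# P146: the third order term for the modulated SK system, part 4

The pointwise form: `Blk.c3_main` at `Kset S BL FL`, `Kset (insert i0 S) BL FL`.
-/

open MeasureTheory ProbabilityTheory

namespace Vale.Agent.P146.C3Amp

open Vale.Agent.P157.Lv Vale.Agent.P146.H196 Vale.Agent.P146.H646 Vale.Agent.P146.H615
  Vale.Agent.P146.H347 Vale.Agent.P146.H475 Vale.Agent.P146.H161 Vale.Agent.P146.H816
  Vale.Agent.P146.H325 Vale.Agent.P146.H317 Vale.Agent.P146.H694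

set_option linter.unusedSectionVars false

variable {n : ℕ} {LB LF : Type} [Fintype LB] [DecidableEq LB] [Fintype LF] [DecidableEq LF]

/-- the squared error of the linear coefficients. -/
noncomputable def DU (n : ℕ) (b : ℝ) (cB : LB → ℝ) (cF : LF → ℝ) (s η lam c x : ℝ)
    (S : Finset (Fin n)) (BL : Finset LB) (FL : Finset LF) (i0 : Fin n) (kp : ℝ)
    (z : Co n LB LF → ℝ) : ℝ :=
  ∑ e ∈ Rw i0 S BL FL, (cxS n b cB cF s η lam c x (Kset S BL FL) (fun y =>
        cxS n b cB cF s η lam c x (Kset (insert i0 S) BL FL)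
          (avS b cB cF s η lam c (fun w => al η w.1 * sp w.2 i0)) y * y e) z -
        cfr i0 b cB cF kp (fun j => cxS n b cB cF s η lam c x (Kset S BL FL)
          (avS b cB cF s η lam c (fun w => al η w.1 * sp w.2 j))) z e) ^ 2

variable {b s η lam c x : ℝ} {cB : LB → ℝ} {cF : LF → ℝ} {BL : Finset LB} {FL : Finset LF}
  {i0 : Fin n} {S : Finset (Fin n)}

/-- the direction of the row, extended by zero. -/
noncomputable def uA (b : ℝ) (cB : LB → ℝ) (cF : LF → ℝ) (i0 : Fin n) (S : Finset (Fin n))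
    (BL : Finset LB) (FL : Finset LF) (kp : ℝ) (M : Fin n → (Co n LB LF → ℝ) → ℝ)
    (z : Co n LB LF → ℝ) (e : Co n LB LF) : ℝ :=
  if e ∈ Rw i0 S BL FL then cfr i0 b cB cF kp M z e else 0

lemma uA_off (kp : ℝ) (M : Fin n → (Co n LB LF → ℝ) → ℝ) (z : Co n LB LF → ℝ)
    {e : Co n LB LF} (he : e ∉ Rw i0 S BL FL) : uA b cB cF i0 S BL FL kp M z e = 0 := by
  unfold uA
  rw [if_neg he]

lemma sum_uA (f : Co n LB LF → ℝ → ℝ) (h0 : ∀ e, f e 0 = 0) (kp : ℝ)
    (M : Fin n → (Co n LB LF → ℝ) → ℝ) (z : Co n LB LF → ℝ) :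
    ∑ e, f e (uA b cB cF i0 S BL FL kp M z e) =
      ∑ e ∈ Rw i0 S BL FL, f e (cfr i0 b cB cF kp M z e) := by
  rw [← Finset.sum_subset (Finset.subset_univ (Rw i0 S BL FL))
    (fun e _ he => by rw [uA_off kp M z he, h0])]
  refine Finset.sum_congr rfl fun e he => ?_
  unfold uA
  rw [if_pos he]

lemma lf_uA (kp : ℝ) (M : Fin n → (Co n LB LF → ℝ) → ℝ) (z y : Co n LB LF → ℝ) :
    H498.lf (uA b cB cF i0 S BL FL kp M z) y = lc (Rw i0 S BL FL) (cfr i0 b cB cF kp M z) y := by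
  unfold H498.lf lc
  exact sum_uA (f := fun e t => t * y e) (fun e => zero_mul _) kp M z

section law

variable (hl : 0 < lam) (hη : 0 ≤ η)
include hl hη

/-- the linear coefficients of the numerator. -/
lemma Acf_eq (hi0 : i0 ∉ S) (z : Co n LB LF → ℝ) {e : Co n LB LF} (he : e ∈ Rw i0 S BL FL) :
    H498.Acf (muA (Xs n) lam η c) 1 (Sm b cB cF s η) x (Kset S BL FL)
      (Kset (insert i0 S) BL FL) (fun w => al η w.1 * sp w.2 i0) z e =
    cxS n b cB cF s η lam c x (Kset S BL FL) (fun y =>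
        cxS n b cB cF s η lam c x (Kset (insert i0 S) BL FL)
          (avS b cB cF s η lam c (fun w => al η w.1 * sp w.2 i0)) y * y e) z := by
  have hG := gmA (n := n) b cB cF s hl hη c
  have bh : Bm (fun w : ℝ × Xs n => al η w.1 * sp w.2 i0) := bm_P hl hη i0
  have heK : e ∉ Kset S BL FL := Finset.disjoint_right.1 (Rw_disj hi0) he
  have he2 : e ∈ Kset (insert i0 S) BL FL \ Kset S BL FL := by rw [← Rw_eq hi0]; exact he
  rw [H498.Acf_ibp hG 1 x (Kset S BL FL) (Kset (insert i0 S) BL FL) bh z he2]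
  have hR : Rw i0 S BL FL ⊆ Kset (insert i0 S) BL FL := by
    rw [← Rw_union hi0]
    exact Finset.subset_union_right
  have hKK : Kset S BL FL ⊆ Kset (LB := LB) (LF := LF) (insert i0 S) BL FL :=
    Kset_mono (Finset.subset_insert i0 S) (Finset.Subset.refl _) (Finset.Subset.refl _)
  have hsub : ({e} : Finset (Co n LB LF)) ⊆ Rw i0 S BL FL := Finset.singleton_subset_iff.2 he
  have h1 := cx_N_lin hG 1 x (R := {e}) (Finset.disjoint_of_subset_right hsub (Rw_disj hi0)) hKK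
    (hsub.trans hR) bh (fun _ => 1) z
  have e1 : lc {e} (fun _ => (1 : ℝ)) = fun y : Co n LB LF → ℝ => y e := by
    funext y; unfold lc; simp
  have e2 : YS {e} (fun _ => (1 : ℝ)) (Sm b cB cF s η) = Sm b cB cF s η e := by
    funext w; unfold YS; simp
  rw [e1, e2, ← cx_coord hG 1 x heK bh z] at h1
  have e3 : (fun y : Co n LB LF → ℝ => y e * avm (muA (Xs n) lam η c) 1 (Sm b cB cF s η)
      (fun w => al η w.1 * sp w.2 i0) y) = fun y => avm (muA (Xs n) lam η c) 1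
      (Sm b cB cF s η) (fun w => al η w.1 * sp w.2 i0) y * y e := by
    funext y; exact mul_comm _ _
  rw [e3]
  exact h1.symm

lemma sum_Acf (hi0 : i0 ∉ S) (kp : ℝ) (z : Co n LB LF → ℝ) :
    ∑ e, (H498.Acf (muA (Xs n) lam η c) 1 (Sm b cB cF s η) x (Kset S BL FL)
      (Kset (insert i0 S) BL FL) (fun w => al η w.1 * sp w.2 i0) z e -
      uA b cB cF i0 S BL FL kp (Mj n b cB cF s η lam c x S BL FL) z e) ^ 2 =
      DU n b cB cF s η lam c x S BL FL i0 kp z := by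
  rw [← Finset.sum_subset (Finset.subset_univ (Rw i0 S BL FL)) (fun e _ he => by
    rw [uA_off kp _ z he, H498.Acf_off x _ _ _ z (by rw [← Rw_eq hi0]; exact he)]
    norm_num)]
  unfold DU
  refine Finset.sum_congr rfl fun e he => ?_
  rw [Acf_eq hl hη hi0 z he]
  unfold uA
  rw [if_pos he]
  rfl

lemma sum_uA_sq (hi0 : i0 ∉ S) (kp : ℝ) (z : Co n LB LF → ℝ) :
    ∑ e, uA b cB cF i0 S BL FL kp (Mj n b cB cF s η lam c x S BL FL) z e ^ 2 =
      kp ^ 2 * Ys n b cB cF s η lam c x S BL FL z := by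
  rw [sum_uA (f := fun _ t => t ^ 2) (fun _ => by norm_num), sq_cfr b cB cF BL FL hi0 kp _ z]
  rfl

/-- `g² = b² t Q`. -/
lemma sum_dA_Qs (hn : 0 < n) (hi0 : i0 ∉ S) (z : Co n LB LF → ℝ) :
    ∑ e : Co n LB LF, dA b cB i0 S BL FL
      (fun j => Mj n b cB cF s η lam c x S BL FL j z) e ^ 2 =
      b ^ 2 * (∑ l ∈ BL, cB l ^ 2) * Qs n b cB cF s η lam c x S BL FL z := by
  have hn' : (0 : ℝ) < n := Nat.cast_pos.2 hn
  rw [sum_dA_sq hi0]
  unfold Qs m2
  field_simp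

end law

/-- monotonicity of the remainder. -/
lemma DL_mono {P0 g e1 e2 A A' B B' C C' : ℝ} (he1 : 0 < e1) (he2 : 0 < e2) (hA : A ≤ A')
    (hB : B ≤ B') (hC : C ≤ C') (hg : 0 ≤ g ^ 6) :
    H498.Blk.DL P0 1 g e1 e2 A B C ≤ H498.Blk.DL P0 1 g e1 e2 A' B' C' := by
  unfold H498.Blk.DL H498.cbd
  have h1 : 2352 / e1 * A ≤ 2352 / e1 * A' := mul_le_mul_of_nonneg_left hA (by positivity)
  have h2 : e1 * (2568576 * B + 49536 * (g ^ 8 * 1 ^ 8)) ≤
      e1 * (2568576 * B' + 49536 * (g ^ 8 * 1 ^ 8)) :=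
    mul_le_mul_of_nonneg_left (by linarith) he1.le
  have h3 : 2048 / e2 * C ≤ 2048 / e2 * C' := mul_le_mul_of_nonneg_left hC (by positivity)
  have h4 := mul_le_mul_of_nonneg_left (add_le_add h1 h2) (by positivity : 0 ≤ P0 ^ 2)
  have h5 := mul_le_mul_of_nonneg_left (add_le_add (le_refl (e2 / 2)) h3)
    (by positivity : 0 ≤ (48 * P0 * 1 ^ 3) ^ 2)
  have h6 := mul_le_mul_of_nonneg_left h5 (by positivity : 0 ≤ 4 * g ^ 6)
  linarith

/-- the remainder with `g² = G`. -/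
lemma DL_eq {P0 g e1 e2 A B C G : ℝ} (hg : g ^ 2 = G) :
    H498.Blk.DL P0 1 g e1 e2 A B C = 2 * P0 ^ 2 * (2352 / e1 * A + e1 * (2568576 * B +
      49536 * G ^ 4)) + 9216 * P0 ^ 2 * G ^ 3 * (e2 / 2 + 2048 / e2 * C) := by
  unfold H498.Blk.DL H498.cbd
  have h8 : g ^ 8 = G ^ 4 := by rw [← hg]; ring
  have h6 : g ^ 6 = G ^ 3 := by rw [← hg]; ring
  rw [h8, h6]
  ring

end Vale.Agent.P146.C3Amp
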