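import Vale.Agent.P146.H498.Amp5

/-!
# P146: the third order term for the modulated SK system, part 6

The pointwise bound.
-/

open MeasureTheory ProbabilityTheory

namespace Vale.Agent.P146.C3Amp

open Vale.Agent.P157.Lv Vale.Agent.P146.H196 Vale.Agent.P146.H646 Vale.Agent.P146.H615
  Vale.Agent.P146.H347 Vale.Agent.P146.H475 Vale.Agent.P146.H161 Vale.Agent.P146.H816
  Vale.Agent.P146.H325 Vale.Agent.P146.H317 Vale.Agent.P146.H694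

set_option linter.unusedSectionVars false

variable {n : ℕ} {LB LF : Type} [Fintype LB] [DecidableEq LB] [Fintype LF] [DecidableEq LF]

variable {b s η lam c x : ℝ} {cB : LB → ℝ} {cF : LF → ℝ} {BL : Finset LB} {FL : Finset LF}
  {i0 : Fin n} {S : Finset (Fin n)}

/-- the numbers of the final bound. -/
lemma arith_pt {T A k2 Q t e D E SU q X2 b η kp wf x Ys K6 : ℝ} (hQ : 0 ≤ Q)
    (hQ1 : Q ≤ (1 + η) ^ 2) (hwf : 0 ≤ wf)
    (ht0 : 0 ≤ t) (ht1 : t ≤ 1) (he : 0 < e)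
    (hA : A = t ^ 3 * (k2 * Q ^ 3)) (hk0 : 0 ≤ k2) (hk : k2 ≤ 384 * b ^ 6 * (1 + η) ^ 2)
    (hSU : SU = kp ^ 2 * Ys) (hY : Ys ≤ b ^ 2 * ((1 + η) ^ 2 + wf)) (hK6 : K6 = A / 6)
    (hq0 : 0 ≤ q) (hq : q ≤ B2 b wf X2)
    (h : |T - A| ≤ 3 * e * A + 2232 / e * (D + E + (SU + K6) * (17 / 2 * x ^ 2 * q))) :
    |T - k2 * Q ^ 3| ≤ (3 * (1 - t) + 3 * e) * (384 * b ^ 6 * (1 + η) ^ 2 * Q ^ 3) +
      2232 / e * (D + E + (kp ^ 2 * (b ^ 2 * ((1 + η) ^ 2 + wf)) + 64 * b ^ 6 * (1 + η) ^ 8) *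
        (17 / 2 * x ^ 2 * B2 b wf X2)) := by
  obtain ⟨P, hP⟩ : ∃ P, P = k2 * Q ^ 3 := ⟨_, rfl⟩
  obtain ⟨P1, hP1⟩ : ∃ P1, P1 = 384 * b ^ 6 * (1 + η) ^ 2 * Q ^ 3 := ⟨_, rfl⟩
  obtain ⟨B, hB⟩ : ∃ B, B = kp ^ 2 * (b ^ 2 * ((1 + η) ^ 2 + wf)) + 64 * b ^ 6 * (1 + η) ^ 8 :=
    ⟨_, rfl⟩
  have hQ3 : 0 ≤ Q ^ 3 := pow_nonneg hQ 3
  have hP0 : 0 ≤ P := by rw [hP]; exact mul_nonneg hk0 hQ3
  have hPP : P ≤ P1 := by rw [hP, hP1]; exact mul_le_mul_of_nonneg_right hk hQ3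
  have t3 : t ^ 3 ≤ 1 := pow_le_one₀ ht0 ht1
  have t3' : 1 - t ^ 3 ≤ 3 * (1 - t) := by
    nlinarith [mul_nonneg ht0 (sub_nonneg.2 ht1), mul_nonneg (sub_nonneg.2 ht1) (sub_nonneg.2 ht1),
      mul_nonneg (mul_nonneg ht0 (sub_nonneg.2 ht1)) (sub_nonneg.2 ht1)]
  have hAP : A = t ^ 3 * P := by rw [hA, hP]
  have hAP1 : A ≤ P := by
    rw [hAP]
    calc t ^ 3 * P ≤ 1 * P := mul_le_mul_of_nonneg_right t3 hP0
      _ = P := one_mul P
  have hPA : P - A ≤ 3 * (1 - t) * P := by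
    have := mul_le_mul_of_nonneg_right t3' hP0
    rw [hAP]; linarith
  have hQ6 : Q ^ 3 ≤ (1 + η) ^ 6 := by
    calc Q ^ 3 ≤ ((1 + η) ^ 2) ^ 3 := pow_le_pow_left₀ hQ hQ1 3
      _ = _ := by ring
  have hA6 : K6 ≤ 64 * b ^ 6 * (1 + η) ^ 8 := by
    have h1 : P1 ≤ 384 * b ^ 6 * (1 + η) ^ 2 * (1 + η) ^ 6 := by
      rw [hP1]; exact mul_le_mul_of_nonneg_left hQ6 (by positivity)
    have h2 : 384 * b ^ 6 * (1 + η) ^ 2 * (1 + η) ^ 6 = 6 * (64 * b ^ 6 * (1 + η) ^ 8) := by ring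
    rw [hK6]
    linarith
  have hS1 : SU + K6 ≤ B := by
    have := mul_le_mul_of_nonneg_left hY (sq_nonneg kp)
    rw [hSU, hB]
    linarith
  have hB0 : 0 ≤ B := by rw [hB]; positivity
  have hBB : (SU + K6) * (17 / 2 * x ^ 2 * q) ≤ B * (17 / 2 * x ^ 2 * B2 b wf X2) := by
    have h1 : 0 ≤ 17 / 2 * x ^ 2 * q := by positivity
    have h2 : 17 / 2 * x ^ 2 * q ≤ 17 / 2 * x ^ 2 * B2 b wf X2 :=
      mul_le_mul_of_nonneg_left hq (by positivity)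
    exact (mul_le_mul_of_nonneg_right hS1 h1).trans (mul_le_mul_of_nonneg_left h2 hB0)
  have h3 : 2232 / e * (D + E + (SU + K6) * (17 / 2 * x ^ 2 * q)) ≤
      2232 / e * (D + E + B * (17 / 2 * x ^ 2 * B2 b wf X2)) :=
    mul_le_mul_of_nonneg_left (by linarith) (by positivity)
  have h4 : 3 * e * A ≤ 3 * e * P := mul_le_mul_of_nonneg_left hAP1 (by positivity)
  have h5 : (3 * (1 - t) + 3 * e) * P ≤ (3 * (1 - t) + 3 * e) * P1 :=
    mul_le_mul_of_nonneg_left hPP (by nlinarith)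
  have h6 : |T - P| ≤ |T - A| + |A - P| := abs_sub_le T A P
  have h7 : |A - P| = P - A := by rw [abs_sub_comm, abs_of_nonneg (by linarith)]
  rw [← hP, ← hP1, ← hB]
  linarith

section law

variable (hl : 0 < lam) (hη : 0 ≤ η)
include hl hη

/-- `Y ≤ b² ((1+η)² + wf)`. -/
lemma Ys_le (hn : 0 < n) {t wf : ℝ} (ht : ∑ l ∈ BL, cB l ^ 2 = t) (ht1 : t ≤ 1)
    (hwf : ∑ l ∈ FL, cF l ^ 2 = b ^ 2 * wf) (z : Co n LB LF → ℝ) :
    Ys n b cB cF s η lam c x S BL FL z ≤ b ^ 2 * ((1 + η) ^ 2 + wf) := by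
  rw [Ys_eq hn, ht]
  have h1 := Qs_le (n := n) (b := b) (cB := cB) (cF := cF) (s := s) (c := c) (x := x) (S := S)
    (BL := BL) (FL := FL) hl hη z
  have h0 := Qs_nonneg (n := n) (b := b) (cB := cB) (cF := cF) (s := s) (η := η) (lam := lam)
    (c := c) (x := x) (S := S) (BL := BL) (FL := FL) z
  have h2 : vf cF FL = b ^ 2 * wf := hwf
  have h3 : b ^ 2 * t * Qs n b cB cF s η lam c x S BL FL z ≤
      b ^ 2 * 1 * Qs n b cB cF s η lam c x S BL FL z :=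
    mul_le_mul_of_nonneg_right (mul_le_mul_of_nonneg_left ht1 (sq_nonneg b)) h0
  have h4 := mul_le_mul_of_nonneg_left h1 (sq_nonneg b)
  rw [h2]
  linarith

lemma kA_sq_le (hx0 : 0 ≤ x) (hx1 : x ≤ 1) (z : Co n LB LF → ℝ) :
    b ^ 6 * kA n b cB cF s η lam c x S BL FL i0 z ^ 2 / 6 ≤ 384 * b ^ 6 * (1 + η) ^ 2 := by
  have h1 := abs_kA_le (n := n) (b := b) (cB := cB) (cF := cF) (s := s) (c := c) (x := x)
    (S := S) (BL := BL) (FL := FL) (i0 := i0) hl hη hx0 hx1 z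
  have h2 : kA n b cB cF s η lam c x S BL FL i0 z ^ 2 ≤ (48 * (1 + η)) ^ 2 := by
    rw [← sq_abs]
    exact pow_le_pow_left₀ (abs_nonneg _) h1 2
  have h3 := mul_le_mul_of_nonneg_left h2 (by positivity : 0 ≤ b ^ 6)
  have h4 : b ^ 6 * (48 * (1 + η)) ^ 2 = 6 * (384 * b ^ 6 * (1 + η) ^ 2) := by ring
  linarith

omit hl hη in
lemma raw_arith {T k G e D' D E SU q x : ℝ} (he : 0 < e)
    (key : |T - G ^ 3 * k ^ 2 / 6| ≤ e * (G ^ 3 * k ^ 2 / 2) +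
      2232 / e * (D' + E + (SU + G ^ 3 * k ^ 2 / 36) * (17 / 2 * x ^ 2 * q))) (hm : D' ≤ D) :
    |T - G ^ 3 * k ^ 2 / 6| ≤ 3 * e * (G ^ 3 * k ^ 2 / 6) +
      2232 / e * (D + E + (SU + G ^ 3 * k ^ 2 / 6 / 6) * (17 / 2 * x ^ 2 * q)) := by
  have h1 : 2232 / e * (D' + E + (SU + G ^ 3 * k ^ 2 / 36) * (17 / 2 * x ^ 2 * q)) ≤
      2232 / e * (D + E + (SU + G ^ 3 * k ^ 2 / 36) * (17 / 2 * x ^ 2 * q)) :=
    mul_le_mul_of_nonneg_left (by linarith) (by positivity)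
  have e1 : G ^ 3 * k ^ 2 / 6 / 6 = G ^ 3 * k ^ 2 / 36 := by ring
  have e2 : 3 * e * (G ^ 3 * k ^ 2 / 6) = e * (G ^ 3 * k ^ 2 / 2) := by ring
  rw [e1, e2]
  linarith

omit hl hη in
lemma Ts_eq498 (kp : ℝ) (z : Co n LB LF → ℝ) : cx (H498.gs (Co n LB LF)) (Kset S BL FL)
      (Zxm (muA (Xs n) lam η c) 1 (Sm b cB cF s η) x) (fun y =>
      (H498.E1 (muA (Xs n) lam η c) 1 (Sm b cB cF s η) x (Kset (insert i0 S) BL FL)
        (fun w => al η w.1 * sp w.2 i0) y -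
      H498.lf (uA b cB cF i0 S BL FL kp (Mj n b cB cF s η lam c x S BL FL) z) y) ^ 2) z =
      Ts n b cB cF s η lam c x S BL FL kp i0 z := by
  simp only [lf_uA]
  rfl

lemma q2_nn (K : Finset (Co n LB LF)) (τ : Co n LB LF → ℝ × Xs n → ℝ) (z : Co n LB LF → ℝ) :
    0 ≤ cxS n b cB cF s η lam c x (Kset S BL FL)
      (H498.q2 (muA (Xs n) lam η c) 1 (Sm b cB cF s η) x K τ) z := by
  show 0 ≤ cx _ _ _ _ _
  unfold cx
  refine div_nonneg (integral_nonneg fun y => mul_nonneg (Zxm_pos x _).le ?_) ?_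
  · unfold H498.q2
    exact Finset.sum_nonneg fun _ _ => Finset.sum_nonneg fun _ _ => sq_nonneg _
  · exact ((gmA (n := n) b cB cF s hl hη c).wt 1 x).wn_pos _ z |>.le

/-- `Blk.c3_main` in the coordinates of the modulated system. -/
theorem c3_raw (hn : 0 < n) (hx0 : 0 < x) (hx1 : x ≤ 1) (hi0 : i0 ∉ S) {t wf : ℝ}
    (ht : ∑ l ∈ BL, cB l ^ 2 = t) (ht1 : t ≤ 1) (hwf : ∑ l ∈ FL, cF l ^ 2 = b ^ 2 * wf)
    {b0 : ℝ} (hb0 : 0 < b0) (hb : b ^ 2 * (t + wf) ≤ b0 ^ 2) (h1 : x * b0 ≤ 1 / 2)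
    (h2 : x * b0 ^ 2 ≤ 1) (kp : ℝ) {e e1 e2 : ℝ} (he : 0 < e) (he' : e ≤ 1) (he1 : 0 < e1)
    (he2 : 0 < e2) (z : Co n LB LF → ℝ) :
    ∃ q, 0 ≤ q ∧ q ≤ B2 b wf (cxS n b cB cF s η lam c x (Kset S BL FL)
      (CCv n b cB cF s η lam c x S (Kset (insert i0 S) BL FL)) z) ∧
    |Ts n b cB cF s η lam c x S BL FL kp i0 z - (b ^ 2 * t * Qs n b cB cF s η lam c x S BL FL z)
        ^ 3 * kA n b cB cF s η lam c x S BL FL i0 z ^ 2 / 6| ≤
      3 * e * ((b ^ 2 * t * Qs n b cB cF s η lam c x S BL FL z)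
        ^ 3 * kA n b cB cF s η lam c x S BL FL i0 z ^ 2 / 6) + 2232 / e *
        ((2 * (1 + η) ^ 2 * (2352 / e1 * Bd2 b η wf (cxS n b cB cF s η lam c x (Kset S BL FL)
        (RKc n b cB cF s η lam c x S BL FL i0) z)
      (cxS n b cB cF s η lam c x (Kset S BL FL)
        (CCv n b cB cF s η lam c x S (Kset (insert i0 S) BL FL)) z)
      (cxS n b cB cF s η lam c x (Kset S BL FL)
        (fun y => Dv n b cB cF s η lam c x S BL FL i0 y ^ 2) z) +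
        e1 * (2568576 * B4 b wf (cxS n b cB cF s η lam c x (Kset S BL FL)
          (M4v n b cB cF s η lam c x S (Kset (insert i0 S) BL FL)) z) +
          49536 * (b ^ 2 * t * Qs n b cB cF s η lam c x S BL FL z) ^ 4)) +
        9216 * (1 + η) ^ 2 * (b ^ 2 * t * Qs n b cB cF s η lam c x S BL FL z) ^ 3 *
          (e2 / 2 + 2048 / e2 * B2 b wf (cxS n b cB cF s η lam c x (Kset S BL FL)
            (CCv n b cB cF s η lam c x S (Kset (insert i0 S) BL FL)) z))) +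
        DU n b cB cF s η lam c x S BL FL i0 kp z +
        (kp ^ 2 * Ys n b cB cF s η lam c x S BL FL z +
          (b ^ 2 * t * Qs n b cB cF s η lam c x S BL FL z)
        ^ 3 * kA n b cB cF s η lam c x S BL FL i0 z ^ 2 / 6 / 6) * (17 / 2 * x ^ 2 * q)) := by
  have : Nonempty (Co n LB LF) := ⟨gd LB LF i0⟩
  have hB := blk_amp b cB cF s hl c hη hx0 hx1 hi0 BL FL hb0 (by
    rw [ht, hwf]; linarith) h1 h2
  obtain ⟨v, hv1, hv⟩ := exists_unit (dA b cB i0 S BL FL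
    (fun j => Mj n b cB cF s η lam c x S BL FL j z))
  set g := √(∑ e : Co n LB LF, dA b cB i0 S BL FL
    (fun j => Mj n b cB cF s η lam c x S BL FL j z) e ^ 2) with hg
  have hg2 : g ^ 2 = b ^ 2 * t * Qs n b cB cF s η lam c x S BL FL z := by
    rw [hg, Real.sq_sqrt (Finset.sum_nonneg fun _ _ => sq_nonneg _), sum_dA_Qs hl hη hn hi0, ht]
  have hP := bm_P (n := n) hl hη i0
  have key := hB.c3_main z hP (fun w => by
      show al η w.1 * sp (fun j => w.2 j * fl i0 j) i0 = -(al η w.1 * sp w.2 i0)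
      rw [sp_mul, sp_fl_self]; ring) (P0 := 1 + η) (abs_P_le hl hη i0)
    (σ := fun w : ℝ × Xs n => sp w.2 i0) (bm_sp i0) (σ0 := 1)
    (fun w => H646.abs_sp_le w.2 i0) hv1 g
    (u := uA b cB cF i0 S BL FL kp (Mj n b cB cF s η lam c x S BL FL) z)
    (fun e he => uA_off kp _ z (by rw [Rw_eq hi0]; exact he)) he he' he1 he2
  rw [Ts_eq498, sum_Acf hl hη hi0, sum_uA_sq hl hη hi0] at key
  have g6 : g ^ 6 = (b ^ 2 * t * Qs n b cB cF s η lam c x S BL FL z) ^ 3 := by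
    rw [← hg2]; ring
  have hG0 : 0 ≤ g ^ 6 := pow_nonneg (Real.sqrt_nonneg _) 6
  have hm := DL_mono (P0 := 1 + η) (g := g) he1 he2
    (cx_q2d_le (n := n) (b := b) (cB := cB) (cF := cF) (s := s) (c := c) (x := x) hl hη hn
      hi0 ht ht1 hwf z hv)
    (cx_q4_le (n := n) (b := b) (cB := cB) (cF := cF) (s := s) (c := c) (x := x) hl hη hn
      hi0 ht ht1 hwf z)
    (cx_q2_le (n := n) (b := b) (cB := cB) (cF := cF) (s := s) (c := c) (x := x) hl hη hn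
      hi0 ht ht1 hwf z) hG0
  rw [DL_eq (P0 := 1 + η) (A := Bd2 b η wf _ _ _) (B := B4 b wf _) (C := B2 b wf _) hg2] at hm
  rw [g6] at key
  exact ⟨_, q2_nn hl hη _ _ z, cx_q2_le hl hη hn hi0 ht ht1 hwf z, raw_arith he key hm⟩

end law

end Vale.Agent.P146.C3Amp
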