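import Vale.Agent.P146.H498.Amp6

/-!
# P146: the third order term for the modulated SK system, part 7

`c3_pt`: the pointwise bound; `hc3_sk`: its mean, the hypothesis `hC3` of `H694.e1_sk`.
-/

open MeasureTheory ProbabilityTheory

namespace Vale.Agent.P146.C3Amp

open Vale.Agent.P157.Lv Vale.Agent.P146.H196 Vale.Agent.P146.H646 Vale.Agent.P146.H615
  Vale.Agent.P146.H347 Vale.Agent.P146.H475 Vale.Agent.P146.H161 Vale.Agent.P146.H816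
  Vale.Agent.P146.H325 Vale.Agent.P146.H317 Vale.Agent.P146.H694

set_option linter.unusedSectionVars false

variable {n : ℕ} {LB LF : Type} [Fintype LB] [DecidableEq LB] [Fintype LF] [DecidableEq LF]

variable {b s η lam c x : ℝ} {cB : LB → ℝ} {cF : LF → ℝ} {BL : Finset LB} {FL : Finset LF}
  {i0 : Fin n} {S : Finset (Fin n)}

/-- the remainder with the shares dropped. -/
lemma arith_D {b η t Q e1 e2 wf X1 X2 X3 X4 : ℝ} (hQ : 0 ≤ Q) (ht0 : 0 ≤ t) (ht1 : t ≤ 1)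
    (he1 : 0 < e1) (he2 : 0 < e2) (hX2 : 0 ≤ B2 b wf X2) :
    2 * (1 + η) ^ 2 * (2352 / e1 * Bd2 b η wf X1 X2 X3 +
        e1 * (2568576 * B4 b wf X4 + 49536 * (b ^ 2 * t * Q) ^ 4)) +
        9216 * (1 + η) ^ 2 * (b ^ 2 * t * Q) ^ 3 * (e2 / 2 + 2048 / e2 * B2 b wf X2) ≤
    2 * (1 + η) ^ 2 * (2352 / e1 * Bd2 b η wf X1 X2 X3 + e1 * (2568576 * B4 b wf X4 +
      49536 * (b ^ 8 * Q ^ 4))) +
    9216 * (1 + η) ^ 2 * b ^ 6 * (e2 / 2 * Q ^ 3 + 2048 / e2 * (2 * b ^ 4 * (Q ^ 3 * X2) +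
      2 * b ^ 4 * wf ^ 2 * Q ^ 3)) := by
  have hG : b ^ 2 * t * Q ≤ b ^ 2 * Q := by
    have h1 : b ^ 2 * t ≤ b ^ 2 * 1 := mul_le_mul_of_nonneg_left ht1 (sq_nonneg b)
    calc b ^ 2 * t * Q ≤ b ^ 2 * 1 * Q := mul_le_mul_of_nonneg_right h1 hQ
      _ = b ^ 2 * Q := by ring
  have hG0 : 0 ≤ b ^ 2 * t * Q := by positivity
  have h3 : (b ^ 2 * t * Q) ^ 3 ≤ b ^ 6 * Q ^ 3 := by
    calc (b ^ 2 * t * Q) ^ 3 ≤ (b ^ 2 * Q) ^ 3 := pow_le_pow_left₀ hG0 hG 3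
      _ = _ := by ring
  have h4 : (b ^ 2 * t * Q) ^ 4 ≤ b ^ 8 * Q ^ 4 := by
    calc (b ^ 2 * t * Q) ^ 4 ≤ (b ^ 2 * Q) ^ 4 := pow_le_pow_left₀ hG0 hG 4
      _ = _ := by ring
  obtain ⟨G3, hG3⟩ : ∃ G3, G3 = (b ^ 2 * t * Q) ^ 3 := ⟨_, rfl⟩
  obtain ⟨G4, hG4⟩ : ∃ G4, G4 = (b ^ 2 * t * Q) ^ 4 := ⟨_, rfl⟩
  rw [← hG3] at h3 ⊢
  rw [← hG4] at h4 ⊢
  obtain ⟨Z, hZ⟩ : ∃ Z, Z = e2 / 2 + 2048 / e2 * B2 b wf X2 := ⟨_, rfl⟩
  have hZ0 : 0 ≤ Z := by rw [hZ]; positivity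
  have k1 : e1 * (2568576 * B4 b wf X4 + 49536 * G4) ≤
      e1 * (2568576 * B4 b wf X4 + 49536 * (b ^ 8 * Q ^ 4)) :=
    mul_le_mul_of_nonneg_left (by linarith) he1.le
  have k2 : 2 * (1 + η) ^ 2 * (2352 / e1 * Bd2 b η wf X1 X2 X3 +
        e1 * (2568576 * B4 b wf X4 + 49536 * G4)) ≤ 2 * (1 + η) ^ 2 * (2352 / e1 *
        Bd2 b η wf X1 X2 X3 + e1 * (2568576 * B4 b wf X4 + 49536 * (b ^ 8 * Q ^ 4))) :=
    mul_le_mul_of_nonneg_left (by linarith) (by positivity)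
  have k3 : 9216 * (1 + η) ^ 2 * G3 * Z ≤ 9216 * (1 + η) ^ 2 * (b ^ 6 * Q ^ 3) * Z :=
    mul_le_mul_of_nonneg_right (mul_le_mul_of_nonneg_left h3 (by positivity)) hZ0
  have k4 : 9216 * (1 + η) ^ 2 * (b ^ 6 * Q ^ 3) * Z = 9216 * (1 + η) ^ 2 * b ^ 6 *
      (e2 / 2 * Q ^ 3 + 2048 / e2 * (2 * b ^ 4 * (Q ^ 3 * X2) + 2 * b ^ 4 * wf ^ 2 * Q ^ 3)) := by
    rw [hZ]
    unfold B2
    ring
  rw [← hZ]
  linarith

/-- monotonicity of the bound. -/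
lemma RB_mono {b η x kp wf t e e1 e2 X1 X2 X3 X4 Q3 Q4 QC DU Y1 Y2 Y3 Y4 R3 R4 RC DV : ℝ}
    (ht1 : t ≤ 1) (he : 0 < e) (he1 : 0 < e1) (he2 : 0 < e2) (hη : 0 ≤ η) (hwf : 0 ≤ wf)
    (h1 : X1 ≤ Y1) (h2 : X2 ≤ Y2) (h3 : X3 ≤ Y3) (h4 : X4 ≤ Y4) (h5 : Q3 ≤ R3) (h6 : Q4 ≤ R4)
    (h7 : QC ≤ RC) (h8 : DU ≤ DV) :
    RB b η x kp wf t e e1 e2 X1 X2 X3 X4 Q3 Q4 QC DU ≤
      RB b η x kp wf t e e1 e2 Y1 Y2 Y3 Y4 R3 R4 RC DV := by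
  have a1 : Bd2 b η wf X1 X2 X3 ≤ Bd2 b η wf Y1 Y2 Y3 := by
    unfold Bd2
    have k1 : 32 * η ^ 4 * X2 ≤ 32 * η ^ 4 * Y2 := mul_le_mul_of_nonneg_left h2 (by positivity)
    have k2 : b ^ 4 * (4 * X1 + 32 * η ^ 4 * X2 + 32 * X3) ≤
        b ^ 4 * (4 * Y1 + 32 * η ^ 4 * Y2 + 32 * Y3) :=
      mul_le_mul_of_nonneg_left (by linarith) (by positivity)
    linarith
  have a2 : B4 b wf X4 ≤ B4 b wf Y4 := by
    unfold B4
    have := mul_le_mul_of_nonneg_left h4 (by positivity : 0 ≤ 8 * b ^ 8)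
    linarith
  have a3 : B2 b wf X2 ≤ B2 b wf Y2 := by
    unfold B2
    have := mul_le_mul_of_nonneg_left h2 (by positivity : 0 ≤ 2 * b ^ 4)
    linarith
  have a4 : 2352 / e1 * Bd2 b η wf X1 X2 X3 ≤ 2352 / e1 * Bd2 b η wf Y1 Y2 Y3 :=
    mul_le_mul_of_nonneg_left a1 (by positivity)
  have a5 : b ^ 8 * Q4 ≤ b ^ 8 * R4 := mul_le_mul_of_nonneg_left h6 (by positivity)
  have a6 : e1 * (2568576 * B4 b wf X4 + 49536 * (b ^ 8 * Q4)) ≤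
      e1 * (2568576 * B4 b wf Y4 + 49536 * (b ^ 8 * R4)) :=
    mul_le_mul_of_nonneg_left (by linarith) he1.le
  have a7 : 2 * (1 + η) ^ 2 * (2352 / e1 * Bd2 b η wf X1 X2 X3 +
      e1 * (2568576 * B4 b wf X4 + 49536 * (b ^ 8 * Q4))) ≤ 2 * (1 + η) ^ 2 *
      (2352 / e1 * Bd2 b η wf Y1 Y2 Y3 + e1 * (2568576 * B4 b wf Y4 + 49536 * (b ^ 8 * R4))) :=
    mul_le_mul_of_nonneg_left (by linarith) (by positivity)
  have a8 : e2 / 2 * Q3 ≤ e2 / 2 * R3 := mul_le_mul_of_nonneg_left h5 (by positivity)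
  have a9 : 2 * b ^ 4 * QC ≤ 2 * b ^ 4 * RC := mul_le_mul_of_nonneg_left h7 (by positivity)
  have a10 : 2 * b ^ 4 * wf ^ 2 * Q3 ≤ 2 * b ^ 4 * wf ^ 2 * R3 :=
    mul_le_mul_of_nonneg_left h5 (by positivity)
  have a11 : 2048 / e2 * (2 * b ^ 4 * QC + 2 * b ^ 4 * wf ^ 2 * Q3) ≤
      2048 / e2 * (2 * b ^ 4 * RC + 2 * b ^ 4 * wf ^ 2 * R3) :=
    mul_le_mul_of_nonneg_left (by linarith) (by positivity)
  have a12 : 9216 * (1 + η) ^ 2 * b ^ 6 * (e2 / 2 * Q3 + 2048 / e2 * (2 * b ^ 4 * QC +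
      2 * b ^ 4 * wf ^ 2 * Q3)) ≤ 9216 * (1 + η) ^ 2 * b ^ 6 * (e2 / 2 * R3 + 2048 / e2 *
      (2 * b ^ 4 * RC + 2 * b ^ 4 * wf ^ 2 * R3)) :=
    mul_le_mul_of_nonneg_left (by linarith) (by positivity)
  have a13 : (kp ^ 2 * (b ^ 2 * ((1 + η) ^ 2 + wf)) + 64 * b ^ 6 * (1 + η) ^ 8) *
      (17 / 2 * x ^ 2 * B2 b wf X2) ≤
      (kp ^ 2 * (b ^ 2 * ((1 + η) ^ 2 + wf)) + 64 * b ^ 6 * (1 + η) ^ 8) *
      (17 / 2 * x ^ 2 * B2 b wf Y2) :=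
    mul_le_mul_of_nonneg_left (mul_le_mul_of_nonneg_left a3 (by positivity)) (by positivity)
  have a14 : 384 * b ^ 6 * (1 + η) ^ 2 * Q3 ≤ 384 * b ^ 6 * (1 + η) ^ 2 * R3 :=
    mul_le_mul_of_nonneg_left h5 (by positivity)
  have a15 : (3 * (1 - t) + 3 * e) * (384 * b ^ 6 * (1 + η) ^ 2 * Q3) ≤
      (3 * (1 - t) + 3 * e) * (384 * b ^ 6 * (1 + η) ^ 2 * R3) :=
    mul_le_mul_of_nonneg_left a14 (by linarith)
  unfold RB
  refine add_le_add a15 (mul_le_mul_of_nonneg_left ?_ (by positivity))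
  linarith

section law

variable (hl : 0 < lam) (hη : 0 ≤ η)
include hl hη

/-- **The third order term, pointwise.** -/
theorem c3_pt (hn : 0 < n) (hx0 : 0 < x) (hx1 : x ≤ 1) (hi0 : i0 ∉ S) {i1 : Fin n}
    (hi1 : i1 ∉ S) {t wf : ℝ} (hwf0 : 0 ≤ wf)
    (ht : ∑ l ∈ BL, cB l ^ 2 = t) (ht1 : t ≤ 1) (hwf : ∑ l ∈ FL, cF l ^ 2 = b ^ 2 * wf)
    {b0 : ℝ} (hb0 : 0 < b0) (hb : b ^ 2 * (t + wf) ≤ b0 ^ 2) (h1 : x * b0 ≤ 1 / 2)
    (h2 : x * b0 ^ 2 ≤ 1) (kp : ℝ) {e e1 e2 : ℝ} (he : 0 < e) (he' : e ≤ 1) (he1 : 0 < e1)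
    (he2 : 0 < e2) (z : Co n LB LF → ℝ) :
    |Ts n b cB cF s η lam c x S BL FL kp i0 z -
      ks n b cB cF s η lam c x S BL FL (Th3 n b cB cF s η lam c x) i1 z ^ 2 *
        Qs n b cB cF s η lam c x S BL FL z ^ 3| ≤
    RB b η x kp wf t e e1 e2
      (cxS n b cB cF s η lam c x (Kset S BL FL) (RKc n b cB cF s η lam c x S BL FL i0) z)
      (cxS n b cB cF s η lam c x (Kset S BL FL)
        (CCv n b cB cF s η lam c x S (Kset (insert i0 S) BL FL)) z)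
      (cxS n b cB cF s η lam c x (Kset S BL FL)
        (fun y => Dv n b cB cF s η lam c x S BL FL i0 y ^ 2) z)
      (cxS n b cB cF s η lam c x (Kset S BL FL)
        (M4v n b cB cF s η lam c x S (Kset (insert i0 S) BL FL)) z)
      (Qs n b cB cF s η lam c x S BL FL z ^ 3) (Qs n b cB cF s η lam c x S BL FL z ^ 4)
      (Qs n b cB cF s η lam c x S BL FL z ^ 3 *
        cxS n b cB cF s η lam c x (Kset S BL FL)
          (CCv n b cB cF s η lam c x S (Kset (insert i0 S) BL FL)) z)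
      (DU n b cB cF s η lam c x S BL FL i0 kp z) := by
  obtain ⟨q, hq0, hq, h⟩ := c3_raw (n := n) (b := b) (cB := cB) (cF := cF) (s := s) (c := c)
    (x := x) hl hη hn hx0 hx1 hi0 ht ht1 hwf hb0 hb h1 h2 kp he he' he1 he2 z
  have ht0 : 0 ≤ t := by rw [← ht]; exact Finset.sum_nonneg fun _ _ => sq_nonneg _
  have hQ0 := Qs_nonneg (n := n) (b := b) (cB := cB) (cF := cF) (s := s) (η := η) (lam := lam)
    (c := c) (x := x) (S := S) (BL := BL) (FL := FL) z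
  have hQ1 := Qs_le (n := n) (b := b) (cB := cB) (cF := cF) (s := s) (c := c) (x := x) (S := S)
    (BL := BL) (FL := FL) hl hη z
  have hY := Ys_le (n := n) (b := b) (cB := cB) (cF := cF) (s := s) (c := c) (x := x) (S := S)
    hl hη hn ht ht1 hwf z
  have hk := kA_sq_le (n := n) (b := b) (cB := cB) (cF := cF) (s := s) (c := c) (x := x)
    (S := S) (BL := BL) (FL := FL) (i0 := i0) hl hη hx0.le hx1 z
  have hks := ks_sq (n := n) (b := b) (cB := cB) (cF := cF) (s := s) (c := c) (x := x)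
    (S := S) (BL := BL) (FL := FL) hl hη hi0 hi1 z
  have m := arith_pt (k2 := b ^ 6 * kA n b cB cF s η lam c x S BL FL i0 z ^ 2 / 6) (t := t)
    hQ0 hQ1 hwf0 ht0 ht1 he (by ring) (by positivity) hk rfl hY rfl hq0 hq h
  rw [hks]
  refine m.trans ?_
  have hD := arith_D (b := b) (η := η) (wf := wf)
    (X1 := cxS n b cB cF s η lam c x (Kset S BL FL) (RKc n b cB cF s η lam c x S BL FL i0) z)
    (X3 := cxS n b cB cF s η lam c x (Kset S BL FL)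
        (fun y => Dv n b cB cF s η lam c x S BL FL i0 y ^ 2) z)
    (X4 := cxS n b cB cF s η lam c x (Kset S BL FL)
        (M4v n b cB cF s η lam c x S (Kset (insert i0 S) BL FL)) z)
    hQ0 ht0 ht1 he1 he2 (hq0.trans hq)
  unfold RB
  refine add_le_add le_rfl (mul_le_mul_of_nonneg_left ?_ (by positivity))
  linarith

end law

end Vale.Agent.P146.C3Amp
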