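import Vale.Agent.P146.H498.Amp7

/-!
# P146: the third order term for the modulated SK system, part 8

`hc3_sk`: the hypothesis `hC3` of `H694.e1_sk`.
-/

open MeasureTheory ProbabilityTheory

namespace Vale.Agent.P146.C3Amp

open Vale.Agent.P157.Lv Vale.Agent.P146.H196 Vale.Agent.P146.H646 Vale.Agent.P146.H615
  Vale.Agent.P146.H347 Vale.Agent.P146.H475 Vale.Agent.P146.H161 Vale.Agent.P146.H816
  Vale.Agent.P146.H325 Vale.Agent.P146.H317 Vale.Agent.P146.H694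

set_option linter.unusedSectionVars false

/-- the bound is affine. -/
lemma RB_lin (b η x kp wf t e e1 e2 : ℝ) : ∃ c0 c1 c2 c3 c4 c5 c6 c7 c8 : ℝ,
    ∀ X1 X2 X3 X4 Q3 Q4 QC DU, RB b η x kp wf t e e1 e2 X1 X2 X3 X4 Q3 Q4 QC DU =
      c0 + c1 * X1 + c2 * X2 + c3 * X3 + c4 * X4 + c5 * Q3 + c6 * Q4 + c7 * QC + c8 * DU := by
  refine ⟨RB b η x kp wf t e e1 e2 0 0 0 0 0 0 0 0,
    2232 / e * (2 * (1 + η) ^ 2 * (2352 / e1 * (b ^ 4 * 4))),
    2232 / e * (2 * (1 + η) ^ 2 * (2352 / e1 * (b ^ 4 * (32 * η ^ 4))) +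
      (kp ^ 2 * (b ^ 2 * ((1 + η) ^ 2 + wf)) + 64 * b ^ 6 * (1 + η) ^ 8) *
      (17 / 2 * x ^ 2 * (2 * b ^ 4))),
    2232 / e * (2 * (1 + η) ^ 2 * (2352 / e1 * (b ^ 4 * 32))),
    2232 / e * (2 * (1 + η) ^ 2 * (e1 * (2568576 * (8 * b ^ 8)))),
    (3 * (1 - t) + 3 * e) * (384 * b ^ 6 * (1 + η) ^ 2) + 2232 / e * (9216 * (1 + η) ^ 2 * b ^ 6 *
      (e2 / 2 + 2048 / e2 * (2 * b ^ 4 * wf ^ 2))),
    2232 / e * (2 * (1 + η) ^ 2 * (e1 * (49536 * b ^ 8))),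
    2232 / e * (9216 * (1 + η) ^ 2 * b ^ 6 * (2048 / e2 * (2 * b ^ 4))), 2232 / e, ?_⟩
  intro X1 X2 X3 X4 Q3 Q4 QC DU
  unfold RB Bd2 B4 B2
  generalize 2232 / e = A1
  generalize 2352 / e1 = A2
  generalize 2048 / e2 = A3
  ring

section abs

variable {κ : Type*} [Fintype κ] [DecidableEq κ] {μ : κ → Measure ℝ}
  [∀ e, IsProbabilityMeasure (μ e)] {w : (κ → ℝ) → ℝ}

/-- the mean of the bound. -/
lemma ex_RB (hw : Wt μ w) (b η x kp wf t e e1 e2 : ℝ) {X1 X2 X3 X4 Q3 Q4 QC DU : (κ → ℝ) → ℝ}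
    (h1 : BM X1) (h2 : BM X2) (h3 : BM X3) (h4 : BM X4) (h5 : BM Q3) (h6 : BM Q4) (h7 : BM QC)
    (h8 : BM DU) :
    BM (fun z => RB b η x kp wf t e e1 e2 (X1 z) (X2 z) (X3 z) (X4 z) (Q3 z) (Q4 z) (QC z)
      (DU z)) ∧
    ex μ w (fun z => RB b η x kp wf t e e1 e2 (X1 z) (X2 z) (X3 z) (X4 z) (Q3 z) (Q4 z) (QC z)
      (DU z)) = RB b η x kp wf t e e1 e2 (ex μ w X1) (ex μ w X2) (ex μ w X3) (ex μ w X4)
      (ex μ w Q3) (ex μ w Q4) (ex μ w QC) (ex μ w DU) := by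
  obtain ⟨c0, c1, c2, c3, c4, c5, c6, c7, c8, hc⟩ := RB_lin b η x kp wf t e e1 e2
  simp only [hc]
  have g0 : BM (fun _ : κ → ℝ => c0) := BM.const c0
  have g1 := g0.add (bcm c1 h1)
  have g2 := g1.add (bcm c2 h2)
  have g3 := g2.add (bcm c3 h3)
  have g4 := g3.add (bcm c4 h4)
  have g5 := g4.add (bcm c5 h5)
  have g6 := g5.add (bcm c6 h6)
  have g7 := g6.add (bcm c7 h7)
  have g8 := g7.add (bcm c8 h8)
  refine ⟨g8, ?_⟩
  rw [ex_add hw g7 (bcm c8 h8), ex_add hw g6 (bcm c7 h7), ex_add hw g5 (bcm c6 h6),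
    ex_add hw g4 (bcm c5 h5), ex_add hw g3 (bcm c4 h4), ex_add hw g2 (bcm c3 h3),
    ex_add hw g1 (bcm c2 h2), ex_add hw g0 (bcm c1 h1), ex_const hw, ex_cmul, ex_cmul, ex_cmul,
    ex_cmul, ex_cmul, ex_cmul, ex_cmul, ex_cmul]

lemma bm_pow {f : (κ → ℝ) → ℝ} (hf : BM f) : ∀ k : ℕ, BM fun z => f z ^ k
  | 0 => by simpa only [pow_zero] using (BM.const (κ := κ) 1)
  | k + 1 => by
    have h := (bm_pow hf k).mul hf
    simpa only [pow_succ] using h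

end abs

variable {n : ℕ} {LB LF : Type} [Fintype LB] [DecidableEq LB] [Fintype LF] [DecidableEq LF]

variable {b s η lam c x : ℝ} {cB : LB → ℝ} {cF : LF → ℝ} {BL : Finset LB} {FL : Finset LF}
  {i0 : Fin n} {S : Finset (Fin n)}

section law

variable (hl : 0 < lam) (hη : 0 ≤ η)
include hl hη

lemma bm_DU (hi0 : i0 ∉ S) (kp : ℝ) : BM (DU n b cB cF s η lam c x S BL FL i0 kp) := by
  have hG := gmA (n := n) b cB cF s hl hη c
  have hw := wt_sk (n := n) (LB := LB) (LF := LF) (b := b) (cB := cB) (cF := cF) (s := s)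
    (c := c) (x := x) hl hη
  have hA := av_avm hG 1
  have bT : ∀ j, BM (H615.Th (avS b cB cF s η lam c) x (fun w : ℝ × Xs n => al η w.1)
      (fun w => sp w.2 i0) (fun j w => sp w.2 j) j) := fun j =>
    (hA.bm ((bm_of_al (n := n) hη).mul (bm_sp j))).sub (bcm _
      ((hA.bm ((bm_of_al (n := n) hη).mul (bm_sp i0))).mul (hA.bm ((bm_sp i0).mul (bm_sp j)))))
  have bTf : BM (H615.Tf (avS b cB cF s η lam c) x (fun w : ℝ × Xs n => al η w.1)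
      (fun w => sp w.2 i0)) :=
    (hA.bm (bm_of_al (n := n) hη)).sub (bcm _
      ((hA.bm ((bm_of_al (n := n) hη).mul (bm_sp i0))).mul (hA.bm (bm_sp i0))))
  have e : DU n b cB cF s η lam c x S BL FL i0 kp = fun z =>
      b ^ 2 / n * (∑ l ∈ BL, cB l ^ 2) * ∑ j ∈ S, (cxS n b cB cF s η lam c x (Kset S BL FL)
        (H615.Th (avS b cB cF s η lam c) x (fun w => al η w.1) (fun w => sp w.2 i0)
          (fun j w => sp w.2 j) j) z - kp * cxS n b cB cF s η lam c x (Kset S BL FL)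
          (avS b cB cF s η lam c (fun w => al η w.1 * sp w.2 j)) z) ^ 2 +
      (∑ l ∈ FL, cF l ^ 2) * (cxS n b cB cF s η lam c x (Kset S BL FL)
        (H615.Tf (avS b cB cF s η lam c) x (fun w => al η w.1) (fun w => sp w.2 i0)) z - kp) ^ 2 :=
    funext fun z => dvec_id hl hη hi0 kp z
  rw [e]
  exact (bcm _ (BM.sum S fun j _ => bsq ((hw.bm_cx _ (bT j)).sub
    (bcm kp (hw.bm_cx _ (bm_aj hl hη j)))))).add
    (bcm _ (bsq ((hw.bm_cx _ bTf).sub (BM.const kp))))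

/-- **The third order term in mean**, the hypothesis `hC3` of `H694.e1_sk`. -/
theorem hc3_sk (hn : 0 < n) (hx0 : 0 < x) (hx1 : x ≤ 1) (hi0 : i0 ∉ S) {i1 : Fin n}
    (hi1 : i1 ∉ S) {t wf : ℝ} (hwf0 : 0 ≤ wf)
    (ht : ∑ l ∈ BL, cB l ^ 2 = t) (ht1 : t ≤ 1) (hwf : ∑ l ∈ FL, cF l ^ 2 = b ^ 2 * wf)
    {b0 : ℝ} (hb0 : 0 < b0) (hb : b ^ 2 * (t + wf) ≤ b0 ^ 2) (h1 : x * b0 ≤ 1 / 2)
    (h2 : x * b0 ^ 2 ≤ 1) (kp : ℝ) {e e1 e2 : ℝ} (he : 0 < e) (he' : e ≤ 1) (he1 : 0 < e1)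
    (he2 : 0 < e2) {X1 X2 X3 X4 q3 q4 qc dd : ℝ}
    (hX1 : exS n b cB cF s η lam c x (RKc n b cB cF s η lam c x S BL FL i0) ≤ X1)
    (hX2 : exS n b cB cF s η lam c x
      (CCv n b cB cF s η lam c x S (Kset (insert i0 S) BL FL)) ≤ X2)
    (hX3 : exS n b cB cF s η lam c x
      (fun z => Dv n b cB cF s η lam c x S BL FL i0 z ^ 2) ≤ X3)
    (hX4 : exS n b cB cF s η lam c x
      (M4v n b cB cF s η lam c x S (Kset (insert i0 S) BL FL)) ≤ X4)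
    (hq3 : exS n b cB cF s η lam c x (fun z => Qs n b cB cF s η lam c x S BL FL z ^ 3) ≤ q3)
    (hq4 : exS n b cB cF s η lam c x (fun z => Qs n b cB cF s η lam c x S BL FL z ^ 4) ≤ q4)
    (hqc : exS n b cB cF s η lam c x (fun z => Qs n b cB cF s η lam c x S BL FL z ^ 3 *
      CCv n b cB cF s η lam c x S (Kset (insert i0 S) BL FL) z) ≤ qc)
    (hdd : exS n b cB cF s η lam c x (DU n b cB cF s η lam c x S BL FL i0 kp) ≤ dd) :
    exS n b cB cF s η lam c x (fun z =>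
      |Ts n b cB cF s η lam c x S BL FL kp i0 z -
        ks n b cB cF s η lam c x S BL FL (Th3 n b cB cF s η lam c x) i1 z ^ 2 *
          Qs n b cB cF s η lam c x S BL FL z ^ 3|) ≤
    RB b η x kp wf t e e1 e2 X1 X2 X3 X4 q3 q4 qc dd := by
  have hw := wt_sk (n := n) (LB := LB) (LF := LF) (b := b) (cB := cB) (cF := cF) (s := s)
    (c := c) (x := x) hl hη
  have bC := bm_CCv (n := n) (b := b) (s := s) (c := c) (x := x) (cB := cB) (cF := cF) hl hη S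
    (Kset (insert i0 S) BL FL)
  have bM := bm_M4v (n := n) (b := b) (s := s) (c := c) (x := x) (cB := cB) (cF := cF) hl hη S
    (Kset (insert i0 S) BL FL)
  have bR := bm_RKc (n := n) (b := b) (s := s) (c := c) (x := x) (cB := cB) (cF := cF)
    (BL := BL) (FL := FL) (i0 := i0) (S := S) hl hη
  have bD := bsq (bm_Dv (n := n) (b := b) (s := s) (c := c) (x := x) (cB := cB) (cF := cF)
    (BL := BL) (FL := FL) (i0 := i0) (S := S) hl hη)
  have bQ : BM (Qs n b cB cF s η lam c x S BL FL) := bm_Qs hl hη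
  have bU := bm_DU (n := n) (b := b) (cB := cB) (cF := cF) (s := s) (c := c) (x := x)
    (BL := BL) (FL := FL) hl hη hi0 kp
  have bT : BM (Ts n b cB cF s η lam c x S BL FL kp i0) := bm_Ts hl hη hi0 kp
  have bk : BM (ks n b cB cF s η lam c x S BL FL (Th3 n b cB cF s η lam c x) i1) :=
    bm_ks hl hη (bm_Th3 hl hη i1)
  have bL := H694.bm_abs (bT.sub ((bsq bk).mul (bm_pow bQ 3)))
  have hpt := c3_pt (n := n) (b := b) (cB := cB) (cF := cF) (s := s) (c := c) (x := x) hl hη hn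
    hx0 hx1 hi0 hi1 hwf0 ht ht1 hwf hb0 hb h1 h2 kp he he' he1 he2
  obtain ⟨bB, eB⟩ := ex_RB hw b η x kp wf t e e1 e2 (hw.bm_cx (Kset S BL FL) bR)
    (hw.bm_cx (Kset S BL FL) bC) (hw.bm_cx (Kset S BL FL) bD) (hw.bm_cx (Kset S BL FL) bM)
    (bm_pow bQ 3) (bm_pow bQ 4) ((bm_pow bQ 3).mul (hw.bm_cx (Kset S BL FL) bC)) bU
  refine (ex_mono hw bL bB hpt).trans ?_
  rw [eB]
  have dQ : H646.Dep (Kset S BL FL) (fun z => Qs n b cB cF s η lam c x S BL FL z ^ 3) := by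
    intro z z'
    show Qs n b cB cF s η lam c x S BL FL (glue (Kset S BL FL) z z') ^ 3 =
      Qs n b cB cF s η lam c x S BL FL z ^ 3
    rw [dep_Qs z z']
  refine RB_mono ht1 he he1 he2 hη hwf0 ?_ ?_ ?_ ?_ hq3 hq4 ?_ hdd
  · rw [H646.ex_cx' hw bR]; exact hX1
  · rw [H646.ex_cx' hw bC]; exact hX2
  · rw [H646.ex_cx' hw bD]; exact hX3
  · rw [H646.ex_cx' hw bM]; exact hX4
  · rw [H646.ex_cx hw dQ (bm_pow bQ 3) bC]; exact hqc

end law

end Vale.Agent.P146.C3Amp
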