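import Vale.Agent.P146.H498.Amp8
import Vale.Agent.P146.H317.C3v

/-!
# P146: the third order term for the modulated SK system, part 9

`hc3_num`: `hc3_sk` with the moments replaced by a truncation level and tail probabilities.
-/

open MeasureTheory ProbabilityTheory

namespace Vale.Agent.P146.C3Amp

open Vale.Agent.P157.Lv Vale.Agent.P146.H196 Vale.Agent.P146.H646 Vale.Agent.P146.H615
  Vale.Agent.P146.H347 Vale.Agent.P146.H475 Vale.Agent.P146.H161 Vale.Agent.P146.H816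
  Vale.Agent.P146.H325 Vale.Agent.P146.H317 Vale.Agent.P146.H694 Vale.Agent.P146.H412

set_option linter.unusedSectionVars false

/-! ### truncation -/

section trunc

variable {κ : Type*} [Fintype κ] [DecidableEq κ] {μ : κ → Measure ℝ}
  [∀ e, IsProbabilityMeasure (μ e)] {w : (κ → ℝ) → ℝ}

/-- moments of a bounded function. -/
lemma tr_pow (hw : Wt μ w) {Q : (κ → ℝ) → ℝ} (bQ : BM Q) (h0 : ∀ z, 0 ≤ Q z) {B U p : ℝ}
    (hB : ∀ z, Q z ≤ B) (hU : 0 ≤ U) (hp : ex μ w (H317.ind U Q) ≤ p) (k : ℕ) :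
    ex μ w (fun z => Q z ^ k) ≤ U ^ k + B ^ k * p := by
  have hB0 : 0 ≤ B := (h0 0).trans (hB 0)
  have bi := H317.bm_ind bQ.meas U
  have h1 := ex_mono hw (bm_pow bQ k) ((BM.const (U ^ k)).add (bcm (B ^ k) bi)) fun z => by
    unfold H317.ind
    split_ifs with h
    · have := pow_le_pow_left₀ (h0 z) (hB z) k
      have h2 : 0 ≤ U ^ k := pow_nonneg hU k
      linarith
    · have := pow_le_pow_left₀ (h0 z) (not_lt.1 h) k
      linarith
  rw [ex_add hw (BM.const _) (bcm _ bi), ex_const hw, ex_cmul] at h1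
  have h3 := mul_le_mul_of_nonneg_left hp (pow_nonneg hB0 k)
  linarith

/-- the product of a power and of a function bounded by one. -/
lemma tr_mul (hw : Wt μ w) {Q C : (κ → ℝ) → ℝ} (bQ : BM Q) (bC : BM C) (h0 : ∀ z, 0 ≤ Q z)
    (hC0 : ∀ z, 0 ≤ C z) (hC1 : ∀ z, C z ≤ 1) {B U p q : ℝ} (hB : ∀ z, Q z ≤ B) (hU : 0 ≤ U)
    (hp : ex μ w (H317.ind U Q) ≤ p) (hq : ex μ w (H317.ind (U ^ 2) C) ≤ q) (k : ℕ) :
    ex μ w (fun z => Q z ^ k * C z) ≤ U ^ (k + 2) + B ^ k * (q + p) := by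
  have hB0 : 0 ≤ B := (h0 0).trans (hB 0)
  have bi := H317.bm_ind bQ.meas U
  have bj := H317.bm_ind bC.meas (U ^ 2)
  have h1 := ex_mono hw ((bm_pow bQ k).mul bC) ((BM.const (U ^ (k + 2))).add
    ((bcm (B ^ k) bj).add (bcm (B ^ k) bi))) fun z => by
    have k0 : 0 ≤ Q z ^ k := pow_nonneg (h0 z) k
    have k1 : Q z ^ k ≤ B ^ k := pow_le_pow_left₀ (h0 z) (hB z) k
    have k2 : Q z ^ k * C z ≤ B ^ k * 1 := mul_le_mul k1 (hC1 z) (hC0 z) (pow_nonneg hB0 k)
    have k3 : 0 ≤ U ^ (k + 2) := pow_nonneg hU _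
    have k4 : 0 ≤ B ^ k := pow_nonneg hB0 k
    unfold H317.ind
    split_ifs with h h'
    · linarith
    · linarith
    · linarith
    · have m1 : Q z ^ k ≤ U ^ k := pow_le_pow_left₀ (h0 z) (not_lt.1 (by assumption)) k
      have m2 : Q z ^ k * C z ≤ U ^ k * U ^ 2 :=
        mul_le_mul m1 (not_lt.1 (by assumption)) (hC0 z) (pow_nonneg hU k)
      have m3 : U ^ k * U ^ 2 = U ^ (k + 2) := by ring
      linarith
  rw [ex_add hw (BM.const _) ((bcm _ bj).add (bcm _ bi)), ex_add hw (bcm _ bj) (bcm _ bi),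
    ex_const hw, ex_cmul, ex_cmul] at h1
  have h3 := mul_le_mul_of_nonneg_left hp (pow_nonneg hB0 k)
  have h4 := mul_le_mul_of_nonneg_left hq (pow_nonneg hB0 k)
  linarith

/-- the square of a small increment. -/
lemma tr_sq (hw : Wt μ w) {D Q C : (κ → ℝ) → ℝ} (bD : BM D) (bQ : BM Q) (bC : BM C)
    (h0 : ∀ z, 0 ≤ D z) {a A U p q i : ℝ} (ha : 0 ≤ a) (hU : 0 ≤ U)
    (hD : ∀ z, Q z ≤ U → C z ≤ U ^ 2 → D z ≤ a * U) (hA : ∀ z, D z ≤ A)
    (hp : ex μ w (H317.ind U Q) ≤ p) (hq : ex μ w (H317.ind (U ^ 2) C) ≤ q)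
    (hi : ex μ w D ≤ i) :
    ex μ w (fun z => D z ^ 2) ≤ a * U * i + A ^ 2 * (q + p) := by
  have hA0 : 0 ≤ A := (h0 0).trans (hA 0)
  have bi := H317.bm_ind bQ.meas U
  have bj := H317.bm_ind bC.meas (U ^ 2)
  have h1 := ex_mono hw (bm_pow bD 2) ((bcm (a * U) bD).add
    ((bcm (A ^ 2) bj).add (bcm (A ^ 2) bi))) fun z => by
    have k1 : D z ^ 2 ≤ A ^ 2 := pow_le_pow_left₀ (h0 z) (hA z) 2
    have k2 : 0 ≤ a * U * D z := mul_nonneg (mul_nonneg ha hU) (h0 z)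
    have k4 : 0 ≤ A ^ 2 := sq_nonneg A
    unfold H317.ind
    split_ifs with h h'
    · linarith
    · linarith
    · linarith
    · have m1 := hD z (not_lt.1 (by assumption)) (not_lt.1 (by assumption))
      have m2 : D z ^ 2 ≤ a * U * D z := by
        rw [sq]
        exact mul_le_mul_of_nonneg_right m1 (h0 z)
      linarith
  rw [ex_add hw (bcm _ bD) ((bcm _ bj).add (bcm _ bi)), ex_add hw (bcm _ bj) (bcm _ bi),
    ex_cmul, ex_cmul, ex_cmul] at h1
  have h3 := mul_le_mul_of_nonneg_left hp (sq_nonneg A)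
  have h4 := mul_le_mul_of_nonneg_left hq (sq_nonneg A)
  have h5 := mul_le_mul_of_nonneg_left hi (mul_nonneg ha hU)
  linarith

end trunc

variable {n : ℕ} {LB LF : Type} [Fintype LB] [DecidableEq LB] [Fintype LF] [DecidableEq LF]

variable {b s η lam c x r0 : ℝ} {cB : LB → ℝ} {cF : LF → ℝ} {BL : Finset LB} {FL : Finset LF}
  {i0 : Fin n} {S S1 : Finset (Fin n)}

lemma RKc_eq : RKc n b cB cF s η lam c x S BL FL i0 =
    RKk n b cB cF s η lam c x S (Kset (insert i0 S) BL FL) := rfl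

lemma Qs_eq : Qs n b cB cF s η lam c x S BL FL =
    Qk n b cB cF s η lam c x S (Kset S BL FL) := rfl

section law

variable (hl : 0 < lam) (hη : 0 ≤ η)
include hl hη

/-- `|M'|² / n ≤ (1+η)² CC^(1/2)`. -/
lemma Qk_le_CC (hn : 0 < n) (K : Finset (Co n LB LF)) (z : Co n LB LF → ℝ) :
    Qk n b cB cF s η lam c x S K z ≤ (1 + η) ^ 2 * √(CCv n b cB cF s η lam c x S K z) := by
  have hn' : (0 : ℝ) < n := Nat.cast_pos.2 hn
  have h1 := amp_sq_le b cB cF s hl hη c x K S (h := fun w : ℝ × Xs n => al η w.1)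
    (bm_of_al (n := n) hη) (C := 1 + η) (fun w => by
      have h1 := al_mem hη w.1
      rw [abs_le]; constructor <;> linarith [h1.1, h1.2]) (by linarith) z
  unfold Qk CCv
  rw [m2_eq hl hη, Real.sqrt_div (mo_two_nonneg (rA_nonneg b cB cF s hl hη c x K z)),
    Real.sqrt_sq hn'.le, ← mul_div_assoc]
  exact div_le_div_of_nonneg_right h1 hn'.le

/-- the increment through the two overlaps. -/
lemma Dv_le (z : Co n LB LF → ℝ) : Dv n b cB cF s η lam c x S BL FL i0 z ≤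
    2 * Qk n b cB cF s η lam c x S (Kset (insert i0 S) BL FL) z +
      2 * Qs n b cB cF s η lam c x S BL FL z := by
  have h : ∀ a d : ℝ, (a - d) ^ 2 ≤ 2 * a ^ 2 + 2 * d ^ 2 := fun a d => by
    nlinarith [sq_nonneg (a + d)]
  unfold Dv Qk Qs m2
  rw [← mul_div_assoc, ← mul_div_assoc, ← add_div]
  refine div_le_div_of_nonneg_right ?_ (Nat.cast_nonneg n)
  rw [Finset.mul_sum, Finset.mul_sum, ← Finset.sum_add_distrib]
  exact Finset.sum_le_sum fun j _ => h _ _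

omit hl hη in
lemma Dv_nonneg (z : Co n LB LF → ℝ) : 0 ≤ Dv n b cB cF s η lam c x S BL FL i0 z := by
  unfold Dv
  exact div_nonneg (Finset.sum_nonneg fun _ _ => sq_nonneg _) (Nat.cast_nonneg n)

/-- the mean of the increment. -/
lemma ex_Dv : exS n b cB cF s η lam c x (Dv n b cB cF s η lam c x S BL FL i0) =
    exS n b cB cF s η lam c x (Qk n b cB cF s η lam c x S (Kset (insert i0 S) BL FL)) -
      exS n b cB cF s η lam c x (Qs n b cB cF s η lam c x S BL FL) := by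
  have hw := wt_sk (n := n) (LB := LB) (LF := LF) (b := b) (cB := cB) (cF := cF) (s := s)
    (c := c) (x := x) hl hη
  have hKK : Kset S BL FL ⊆ Kset (LB := LB) (LF := LF) (insert i0 S) BL FL :=
    Kset_mono (Finset.subset_insert i0 S) (Finset.Subset.refl _) (Finset.Subset.refl _)
  set G := g1 (Co n LB LF) with hG
  set W := wS n b cB cF s η lam c x with hW
  set A : Fin n → (Co n LB LF → ℝ) → ℝ := fun j =>
    cx G (Kset (insert i0 S) BL FL) W (avS b cB cF s η lam c (fun w => al η w.1 * sp w.2 j))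
    with hA
  set M : Fin n → (Co n LB LF → ℝ) → ℝ := fun j =>
    cx G (Kset S BL FL) W (avS b cB cF s η lam c (fun w => al η w.1 * sp w.2 j)) with hM
  have bA : ∀ j, BM (A j) := fun j => hw.bm_cx _ (bm_aj hl hη j)
  have bM : ∀ j, BM (M j) := fun j => hw.bm_cx _ (bm_aj hl hη j)
  have e1 : Dv n b cB cF s η lam c x S BL FL i0 =
      fun z => (n : ℝ)⁻¹ * ∑ j ∈ S, (A j z - M j z) ^ 2 := by
    funext z; unfold Dv; rw [div_eq_inv_mul]; rfl
  have e2 : Qk n b cB cF s η lam c x S (Kset (insert i0 S) BL FL) =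
      fun z => (n : ℝ)⁻¹ * ∑ j ∈ S, A j z ^ 2 := by
    funext z; unfold Qk; rw [div_eq_inv_mul]
  have e3 : Qs n b cB cF s η lam c x S BL FL = fun z => (n : ℝ)⁻¹ * ∑ j ∈ S, M j z ^ 2 := by
    funext z; unfold Qs m2; rw [div_eq_inv_mul]; rfl
  show ex G W _ = ex G W _ - ex G W _
  rw [e1, e2, e3, ex_cmul, ex_cmul, ex_cmul, hw.ex_sum S fun j _ => bsq ((bA j).sub (bM j)),
    hw.ex_sum S fun j _ => bsq (bA j), hw.ex_sum S fun j _ => bsq (bM j), ← mul_sub,
    ← Finset.sum_sub_distrib]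
  congr 1
  refine Finset.sum_congr rfl fun j _ => ?_
  exact ex_sub_sq hw hKK (bm_aj hl hη j)

/-- the sum of the squares of the errors of the coefficients. -/
lemma ex_DU_le (hs : s ≠ 0) (hx0 : 0 ≤ x) (hx1 : x < 1)
    (hc : c = s ^ 2 * n * (1 - (1 - x) * r0)) (hS : S ⊆ S1) (hi0 : i0 ∉ S)
    (hne : (S1 \ S).Nonempty) {t wf : ℝ} (ht : ∑ l ∈ BL, cB l ^ 2 = t)
    (hwf : ∑ l ∈ FL, cF l ^ 2 = b ^ 2 * wf) :
    exS n b cB cF s η lam c x (DU n b cB cF s η lam c x S BL FL i0 (1 - (1 - x) * r0)) ≤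
      b ^ 2 / n * t * d0 n b cB cF s η lam c x r0 (Kset S BL FL) (Kset S1 BL FL)
        (S1 \ S).card ^ 2 + b ^ 2 * wf * d0f n b cB cF s η lam c x r0 (S1 \ S).card ^ 2 := by
  have h := dvec_sk (r0 := r0) hl hη hs hx0 hx1 hc b cB cF BL FL hS hi0 hne
    (φ := fun _ => 1) (fun _ _ => rfl) (BM.const 1) (fun _ => zero_le_one) (P0 := 1)
    (fun _ => le_rfl)
  simp only [one_mul] at h
  rw [ht, hwf] at h
  exact h

end law

end Vale.Agent.P146.C3Amp
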