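import Vale.Agent.P146.H196.Gib2

/-!
Numerators of conditional means as functions of the free coordinates, their partial derivatives, and
the annealed law of replicas given a set of coordinates.
-/

open MeasureTheory ProbabilityTheory

namespace Vale.Agent.P146.H498

open Vale.Agent.P157.Lv Vale.Agent.P146.H425 Vale.Agent.P146.H325 Vale.Agent.P146.H646
  Vale.Agent.P146.H196

set_option linter.unusedSectionVars false

variable {ι : Type} [Fintype ι] [DecidableEq ι] {Ω : Type} [MeasurableSpace Ω]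
  {R R' : Type} [Fintype R] [Fintype R']

variable {μ : Measure Ω} {k : ℝ} {S : ι → Ω → ℝ} {M0 : ℝ}

/-- the Gaussian law of the coordinates. -/
noncomputable abbrev gs (ι : Type) : ι → Measure ℝ := fun _ => gaussianReal 0 1

/-- levels: the coordinates of `K` are below. -/
def lvl (K : Finset ι) (e : ι) : ℕ := if e ∈ K then 0 else 1

lemma mix_lvl (K : Finset ι) (z w : ι → ℝ) : mix (lvl K) 0 z w = glue K z w := by
  funext e
  unfold mix lvl glue
  by_cases h : e ∈ K <;> simp [h]

/-- the numerator. -/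
noncomputable def nm (μ : Measure Ω) (k : ℝ) (S : ι → Ω → ℝ) (x : ℝ) (K : Finset ι)
    (h : (R → Ω) → ℝ) (z : ι → ℝ) : ℝ :=
  ∫ w, Zxm μ k S x (glue K z w) * avR μ k S R h (glue K z w) ∂(gI ι)

lemma nm_eq_J (x : ℝ) (K : Finset ι) (h : (R → Ω) → ℝ) :
    nm μ k S x K h = J (lvl K) 0 (fun u => Zxm μ k S x u * avR μ k S R h u) := by
  funext z
  unfold nm J
  simp only [mix_lvl]

lemma nm_eq_cx (hG : GM μ S M0) (k x : ℝ) (K : Finset ι) (h : (R → Ω) → ℝ) (z : ι → ℝ) :
    nm μ k S x K h z = wn (gs ι) K (Zxm μ k S x) z *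
      cx (gs ι) K (Zxm μ k S x) (avR μ k S R h) z :=
  (wn_mul_cx (hG.wt k x) K z).symm

lemma eg_nm (hG : GM μ S M0) (k x : ℝ) (K : Finset ι) {h : (R → Ω) → ℝ} (hh : Bm h) :
    EG (nm μ k S x K h) := by
  rw [nm_eq_J]
  exact ((hG.eg_Zx k x).mul (hG.eg_avR k hh)).J _ _

lemma pd_nm (hG : GM μ S M0) (k x : ℝ) {K : Finset ι} {e : ι} (he : e ∈ K) {h : (R → Ω) → ℝ}
    (hh : Bm h) : PD e (nm μ k S x K h) (fun z => k * nm μ k S x K (dR S x e h) z) := by
  obtain ⟨F2, hc⟩ := hG.c2_ZavR k x hh
  have h1 := (hc.pd0 e).J hc.eg (hc.eg1 e) (lev := lvl K) (l := 0) (by unfold lvl; simp [he])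
  rw [nm_eq_J]
  refine h1.congr fun z => ?_
  unfold J nm
  simp only [mix_lvl]
  rw [integral_const_mul]

lemma nm_indep (x : ℝ) {K : Finset ι} {e : ι} (he : e ∉ K) (h : (R → Ω) → ℝ) (z : ι → ℝ)
    (t : ℝ) : nm μ k S x K h (Function.update z e t) = nm μ k S x K h z := by
  have : ∀ w, glue K (Function.update z e t) w = glue K z w := fun w => by
    funext j
    unfold glue
    by_cases hj : j ∈ K
    · have : j ≠ e := fun h => he (h ▸ hj)
      simp [hj, Function.update_of_ne this]
    · simp [hj]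
  unfold nm
  simp only [this]

/-- the energies of the coordinates in `A`. -/
def SA (A : Finset ι) (k : ℝ) (S : ι → Ω → ℝ) (e : ι) (w : Ω) : ℝ := if e ∈ A then k * S e w else 0

lemma bm_SA (hG : GM μ S M0) (A : Finset ι) (k : ℝ) (e : ι) : Bm (SA A k S e) := by
  unfold SA
  by_cases he : e ∈ A
  · simp only [he, if_true]
    exact (hG.bS e).const_mul k
  · simp only [he, if_false]
    exact Bm.const 0

lemma bm_dR {T : ι → Ω → ℝ} (hT : ∀ e, Bm (T e)) (x : ℝ) (e : ι) {h : (R → Ω) → ℝ} (hh : Bm h) :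
    Bm (dR T x e h) := by
  unfold dR
  exact (hh.marg some).mul ((Bm.sum _ fun a _ => (hT e).at (some a)).add
    (((hT e).at none).const_mul _))

/-- the numerator as a function of the coordinates off `K0`. -/
noncomputable def nb (μ : Measure Ω) (k : ℝ) (S : ι → Ω → ℝ) (x : ℝ) (K0 K : Finset ι)
    (z : ι → ℝ) (h : (R → Ω) → ℝ) (B : ι → ℝ) : ℝ := nm μ k S x K h (glue K0 z B)

lemma eg_nb (hG : GM μ S M0) (k x : ℝ) (K0 K : Finset ι) (z : ι → ℝ) {h : (R → Ω) → ℝ}
    (hh : Bm h) : EG (nb μ k S x K0 K z h) := eg_glue (eg_nm hG k x K hh) K0 z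

lemma nm_zero (x : ℝ) (K : Finset ι) (z : ι → ℝ) :
    nm μ k S x K (fun _ : R → Ω => 0) z = 0 := by
  unfold nm avR avm
  simp

/-- **The partial derivatives of the numerator.** -/
lemma pd_nb (hG : GM μ S M0) (k x : ℝ) {K0 K : Finset ι} (z : ι → ℝ) (e : ι)
    {h : (R → Ω) → ℝ} (hh : Bm h) :
    PD e (nb μ k S x K0 K z h) (nb μ k S x K0 K z (dR (SA (K \ K0) k S) x e h)) := by
  by_cases he : e ∈ K \ K0
  · obtain ⟨h1, h2⟩ := Finset.mem_sdiff.1 he
    have e1 : ∀ B, nb μ k S x K0 K z (dR (SA (K \ K0) k S) x e h) B =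
        k * nm μ k S x K (dR S x e h) (glue K0 z B) := fun B => by
      unfold nb nm
      rw [← integral_const_mul]
      refine integral_congr_ae (Filter.Eventually.of_forall fun w => ?_)
      have e2 : dR (SA (K \ K0) k S) x e h = fun w => k * dR S x e h w := by
        funext w
        unfold dR SA
        simp only [he, if_true]
        rw [← Finset.mul_sum]
        ring
      have e3 := av_mul (Measure.pi fun _ : Option R => μ) k (SR (Option R) S) k (dR S x e h)
        (glue K (glue K0 z B) w)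
      simp only [e2]
      unfold avR
      rw [e3]
      ring
    refine PD.congr (H' := fun B => k * nm μ k S x K (dR S x e h) (glue K0 z B)) ?_
      fun B => (e1 B).symm
    intro y t
    have h3 := pd_nm hG k x h1 hh (glue K0 z y) t
    unfold nb
    simp only [glue_update h2]
    exact h3
  · have e1 : ∀ B, nb μ k S x K0 K z (dR (SA (K \ K0) k S) x e h) B = 0 := fun B => by
      have e2 : dR (SA (K \ K0) k S) x e h = fun _ => 0 := by
        funext w
        unfold dR SA
        simp [he]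
      unfold nb
      rw [e2, nm_zero]
    refine PD.congr (H' := fun _ => 0) (PD.of_indep fun y t => ?_) fun B => (e1 B).symm
    unfold nb
    by_cases h2 : e ∈ K0
    · congr 1
      funext j
      unfold glue
      by_cases hj : j ∈ K0
      · simp [hj]
      · have : j ≠ e := fun h => hj (h ▸ h2)
        simp [hj, Function.update_of_ne this]
    · rw [glue_update h2]
      have h1 : e ∉ K := fun h => he (Finset.mem_sdiff.2 ⟨h, h2⟩)
      exact nm_indep x h1 h _ t

/-- tower. -/
lemma int_glue2 {K0 K : Finset ι} (hK : K0 ⊆ K) (z : ι → ℝ) {f : (ι → ℝ) → ℝ}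
    (hf : Integrable (fun B => f (glue K0 z B)) (gI ι)) :
    ∫ B, ∫ w, f (glue K (glue K0 z B) w) ∂(gI ι) ∂(gI ι) = ∫ B, f (glue K0 z B) ∂(gI ι) := by
  have h1 := integral_glue (gs ι) K hf
  simp only [← glue_glue_of_subset hK] at h1
  exact h1

lemma int_nb (hG : GM μ S M0) (k x : ℝ) {K0 K : Finset ι} (hK : K0 ⊆ K) (z : ι → ℝ)
    {h : (R → Ω) → ℝ} (hh : Bm h) :
    ∫ B, nb μ k S x K0 K z h B ∂(gI ι) = nm μ k S x K0 h z := by
  have e := (hG.eg_Zx k x).mul (hG.eg_avR k hh)
  exact int_glue2 hK z (f := fun u => Zxm μ k S x u * avR μ k S R h u)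
    (eg_glue e K0 z).integrable

/-! ### the annealed law -/

section ann

variable {Ω' : Type} [MeasurableSpace Ω'] {μ' : Measure Ω'} {S' : ι → Ω' → ℝ} {M0' : ℝ}

/-- the density of the annealed law. -/
noncomputable def dens (μ : Measure Ω) (k : ℝ) (S : ι → Ω → ℝ) (μ' : Measure Ω')
    (S' : ι → Ω' → ℝ) (x : ℝ) (K : Finset ι) (y : ι → ℝ) (p : (ι → ℝ) × Ω') : ℝ :=
  (wn (gs ι) K (Zxm μ k S x) y)⁻¹ * (Zxm μ k S x (glue K y p.1) *
    (ezm k S' (glue K y p.1) p.2 / Zm μ' k S' (glue K y p.1)))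

variable (hG : GM μ S M0) (hG' : GM μ' S' M0') (k x : ℝ) (K : Finset ι) (y : ι → ℝ)
include hG hG'

lemma dens_nonneg (p : (ι → ℝ) × Ω') : 0 ≤ dens μ k S μ' S' x K y p :=
  mul_nonneg (inv_nonneg.2 ((hG.wt k x).wn_pos K y).le) (mul_nonneg (Zxm_pos x _).le
    (div_nonneg (ezm_pos _ _).le (hG'.Z_pos k _).le))

lemma meas_dens : Measurable (dens μ k S μ' S' x K y) := by
  have m1 : Measurable fun p : (ι → ℝ) × Ω' => glue K y p.1 :=
    (measurable_glue_right K y).comp measurable_fst
  have m2 : Measurable fun p : (ι → ℝ) × Ω' => ezm k S' (glue K y p.1) p.2 := by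
    unfold ezm
    refine Real.measurable_exp.comp ((Finset.measurable_sum _ fun e _ => ?_).const_mul k)
    exact ((hG'.meas e).comp measurable_snd).mul ((measurable_pi_apply e).comp m1)
  have m3 : Measurable (Zm μ' k S') :=
    (continuous_iff_continuousAt.2 fun u => (hG'.fd_Z k u).continuousAt).measurable
  unfold dens
  exact (((hG.meas_Zx k x).comp m1).mul (m2.div (m3.comp m1))).const_mul _

lemma dens_int_one (u : ι → ℝ) {h : Ω' → ℝ} :
    ∫ w, ezm k S' u w / Zm μ' k S' u * h w ∂μ' = avm μ' k S' h u := by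
  unfold avm
  rw [← integral_div]
  exact integral_congr_ae (Filter.Eventually.of_forall fun w => by ring)

lemma dens_integrable : Integrable (dens μ k S μ' S' x K y) ((gI ι).prod μ') := by
  have := hG'.fin
  rw [integrable_prod_iff (meas_dens hG hG' k x K y).aestronglyMeasurable]
  constructor
  · refine Filter.Eventually.of_forall fun w => ?_
    have h1 := (((((hG'.bez k (glue K y w)).integrable (μ := μ')).div_const
      (Zm μ' k S' (glue K y w))).const_mul (Zxm μ k S x (glue K y w))).const_mul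
      ((wn (gs ι) K (Zxm μ k S x) y)⁻¹))
    exact h1
  · have e1 : ∀ w : ι → ℝ, ∫ v, ‖dens μ k S μ' S' x K y (w, v)‖ ∂μ' =
        (wn (gs ι) K (Zxm μ k S x) y)⁻¹ * Zxm μ k S x (glue K y w) := fun w => by
      have e2 : ∀ v, ‖dens μ k S μ' S' x K y (w, v)‖ =
          ((wn (gs ι) K (Zxm μ k S x) y)⁻¹ * Zxm μ k S x (glue K y w)) *
            (ezm k S' (glue K y w) v / Zm μ' k S' (glue K y w) * 1) := fun v => by
        rw [Real.norm_eq_abs, abs_of_nonneg (dens_nonneg hG hG' k x K y _)]
        unfold dens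
        ring
      simp only [e2]
      rw [integral_const_mul, dens_int_one hG hG', hG'.av_one, mul_one]
    simp only [e1]
    exact ((hG.wt k x).sec K y).const_mul _

/-- the annealed law given the coordinates in `K`. -/
noncomputable def ann (μ : Measure Ω) (k : ℝ) (S : ι → Ω → ℝ) (μ' : Measure Ω')
    (S' : ι → Ω' → ℝ) (x : ℝ) (K : Finset ι) (y : ι → ℝ) : Measure ((ι → ℝ) × Ω') :=
  ((gI ι).prod μ').withDensity fun p => ENNReal.ofReal (dens μ k S μ' S' x K y p)

lemma int_dens {h : Ω' → ℝ} (hh : Bm h) :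
    ∫ p, dens μ k S μ' S' x K y p * h p.2 ∂((gI ι).prod μ') =
      cx (gs ι) K (Zxm μ k S x) (avm μ' k S' h) y := by
  have := hG'.fin
  obtain ⟨C, hC, hb⟩ := hh.2
  have hi : Integrable (fun p : (ι → ℝ) × Ω' => dens μ k S μ' S' x K y p * h p.2)
      ((gI ι).prod μ') :=
    (dens_integrable hG hG' k x K y).mul_bdd (c := C)
      (hh.1.comp measurable_snd).aestronglyMeasurable
      (Filter.Eventually.of_forall fun p => by rw [Real.norm_eq_abs]; exact hb _)
  rw [integral_prod _ hi]
  unfold cx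
  rw [div_eq_inv_mul, ← integral_const_mul]
  refine integral_congr_ae (Filter.Eventually.of_forall fun w => ?_)
  have e2 : ∀ v, dens μ k S μ' S' x K y (w, v) * h v =
      ((wn (gs ι) K (Zxm μ k S x) y)⁻¹ * Zxm μ k S x (glue K y w)) *
        (ezm k S' (glue K y w) v / Zm μ' k S' (glue K y w) * h v) := fun v => by
    unfold dens
    ring
  simp only [e2]
  rw [integral_const_mul, dens_int_one hG hG']
  ring

lemma int_ann {h : Ω' → ℝ} (hh : Bm h) :
    ∫ p, h p.2 ∂(ann μ k S μ' S' x K y) = cx (gs ι) K (Zxm μ k S x) (avm μ' k S' h) y := by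
  have hm : Measurable fun p => ENNReal.ofReal (dens μ k S μ' S' x K y p) :=
    ENNReal.measurable_ofReal.comp (meas_dens hG hG' k x K y)
  unfold ann
  rw [integral_withDensity_eq_integral_toReal_smul hm
    (Filter.Eventually.of_forall fun w => ENNReal.ofReal_lt_top), ← int_dens hG hG' k x K y hh]
  refine integral_congr_ae (Filter.Eventually.of_forall fun p => ?_)
  simp only [smul_eq_mul]
  rw [ENNReal.toReal_ofReal (dens_nonneg hG hG' k x K y p)]

lemma ann_prob : IsProbabilityMeasure (ann μ k S μ' S' x K y) := by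
  have := hG'.fin
  constructor
  unfold ann
  rw [withDensity_apply _ MeasurableSet.univ, Measure.restrict_univ,
    ← ofReal_integral_eq_lintegral_ofReal (dens_integrable hG hG' k x K y)
      (Filter.Eventually.of_forall fun p => dens_nonneg hG hG' k x K y p)]
  have h1 := int_dens hG hG' k x K y (h := fun _ => 1) (Bm.const 1)
  simp only [mul_one] at h1
  have h2 : avm μ' k S' (fun _ => (1 : ℝ)) = fun _ => 1 := by
    funext u; exact hG'.av_one k u
  rw [h1, h2, cx_one (hG.wt k x), ENNReal.ofReal_one]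

end ann

end Vale.Agent.P146.H498
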