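import Vale.Agent.P146.H498.Ins4

/-!
**Main statement.** Given the coordinates in `K0`, the mean square of `N - u·z`, where `N` is the
conditional mean given `K` of an odd function `P` of one replica, is `g ^ 6 κ ^ 2 / 6` up to explicit
errors, where `κ` is the conditional mean given `K0` of the third cumulant polynomial `Th`.
-/

open MeasureTheory ProbabilityTheory

namespace Vale.Agent.P146.H498

open Vale.Agent.P157.Lv Vale.Agent.P146.H425 Vale.Agent.P146.H325 Vale.Agent.P146.H646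
  Vale.Agent.P146.H196 Vale.Agent.P146.H946

set_option linter.unusedSectionVars false

variable {ι : Type} [Fintype ι] [DecidableEq ι] {Ω : Type} [MeasurableSpace Ω]

variable {μ : Measure Ω} {k : ℝ} {S : ι → Ω → ℝ} {M0 : ℝ}

/-- the linear coefficients. -/
noncomputable def Acf (μ : Measure Ω) (k : ℝ) (S : ι → Ω → ℝ) (x : ℝ) (K0 K : Finset ι)
    (P : Ω → ℝ) (z : ι → ℝ) (i : ι) : ℝ :=
  Ey μ k S x K0 (dR (SA (K \ K0) k S) x i (fun w : Unit → Ω => P (w ()))) z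

lemma Ey_one (hG : GM μ S M0) (k x : ℝ) (K : Finset ι) (P : Ω → ℝ) (y : ι → ℝ) :
    Ey μ k S x K (fun w : Unit → Ω => P (w ())) y = E1 μ k S x K P y := by
  unfold Ey E1
  congr 1
  funext u
  exact hG.avR_one k () P u

lemma Acf_off (x : ℝ) (K0 K : Finset ι) (P : Ω → ℝ) (z : ι → ℝ) {i : ι} (hi : i ∉ K \ K0) :
    Acf μ k S x K0 K P z i = 0 := by
  unfold Acf Ey
  have : dR (SA (K \ K0) k S) x i (fun w : Unit → Ω => P (w ())) = fun _ => 0 := by
    funext w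
    unfold dR SA
    simp [hi]
  rw [this]
  have h2 : avR μ k S (Option Unit) (fun _ => (0 : ℝ)) = fun _ => 0 := by
    funext u
    unfold avR avm
    simp
  rw [h2]
  unfold cx
  simp

/-- the linear coefficients by integration by parts. -/
lemma Acf_ibp (hG : GM μ S M0) (k x : ℝ) (K0 K : Finset ι) {P : Ω → ℝ} (hP : Bm P) (z : ι → ℝ)
    {i : ι} (hi : i ∈ K \ K0) :
    Acf μ k S x K0 K P z i = cx (gs ι) K0 (Zxm μ k S x) (fun y => y i * avm μ k S P y) z := by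
  obtain ⟨_, h0⟩ := Finset.mem_sdiff.1 hi
  have h1 := hG.ibp_cx k x h0 (h := fun w : Unit → Ω => P (w ())) (hP.at ()) z
  simp only [hG.avR_one k () P] at h1
  unfold Acf Ey
  rw [h1, ← cx_const_mul (hG.wt k x)]
  congr 1
  funext u
  have e2 : dR (SA (K \ K0) k S) x i (fun w : Unit → Ω => P (w ())) = fun w =>
      k * dR S x i (fun w : Unit → Ω => P (w ())) w := by
    funext w
    unfold dR SA
    simp only [hi, if_true]
    rw [← Finset.mul_sum]
    ring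
  rw [e2]
  unfold avR
  exact H196.av_mul _ _ _ _ _ _

namespace Blk

variable {x : ℝ} {K0 K F : Finset ι} {T : Ω → Ω} {b0 : ℝ}
  (h : Blk μ k S M0 x K0 K F T b0)
include h

/-- the square in the space with weight `1 / W` is a conditional mean. -/
lemma sq_eq (z : ι → ℝ) {P : Ω → ℝ} (hP : Bm P) {u : ι → ℝ} (hu : ∀ e, e ∉ K \ K0 → u e = 0) :
    ∫ B, (WB μ k S x K0 K z B)⁻¹ * (nr μ k S x K0 K z (fun w : Unit → Ω => P (w ())) B -
      WB μ k S x K0 K z B * lf u B) ^ 2 ∂(gI ι) =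
      cx (gs ι) K0 (Zxm μ k S x) (fun y => (E1 μ k S x K P y - lf u y) ^ 2) z := by
  have hG := h.hG
  have hlu : ∀ B, lf u (glue K0 z B) = lf u B := fun B => by
    unfold lf
    refine Finset.sum_congr rfl fun e _ => ?_
    by_cases he : e ∈ K0
    · rw [hu e (by simp [he])]; simp
    · rw [glue_not_mem he]
  have hd : H646.Dep K (fun y => (E1 μ k S x K P y - lf u y) ^ 2) := by
    intro y y'
    show (E1 μ k S x K P (glue K y y') - lf u (glue K y y')) ^ 2 =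
      (E1 μ k S x K P y - lf u y) ^ 2
    rw [dep_E1 x K P y y']
    have : lf u (glue K y y') = lf u y := by
      unfold lf
      refine Finset.sum_congr rfl fun e _ => ?_
      by_cases he : e ∈ K
      · rw [glue_mem he]
      · rw [hu e (by simp [he])]; simp
    rw [this]
  have eE : EG (E1 μ k S x K P) := by
    obtain ⟨C, hC⟩ := (bm_E1 hG k x K hP).bd
    exact EG.of_bdd (bm_E1 hG k x K hP).meas hC
  have hi : Integrable (fun B => Zxm μ k S x (glue K0 z B) *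
      (fun y => (E1 μ k S x K P y - lf u y) ^ 2) (glue K0 z B)) (gI ι) :=
    (eg_glue ((hG.eg_Zx k x).mul ((eE.sub (eg_lf u)).pow 2)) K0 z).integrable
  rw [← int_WB hG k x z h.hK hd hi]
  refine integral_congr_ae (Filter.Eventually.of_forall fun B => ?_)
  simp only
  rw [nr_eq hG, Ey_one hG, hlu]
  have := (h.WB_pos z B).ne'
  field_simp

/-- **The third order term with its constant.** -/
theorem c3_main (z : ι → ℝ) {P : Ω → ℝ} (hP : Bm P) (ho : ∀ w, P (T w) = -P w) {P0 : ℝ}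
    (hPb : ∀ w, |P w| ≤ P0) {σ : Ω → ℝ} (hσ : Bm σ) {σ0 : ℝ} (hb : ∀ w, |σ w| ≤ σ0)
    {v : ι → ℝ} (hv : ∑ i, v i ^ 2 = 1) (g : ℝ) {u : ι → ℝ} (hu : ∀ e, e ∉ K \ K0 → u e = 0)
    {η η1 η2 : ℝ} (h0 : 0 < η) (h1 : η ≤ 1) (hη1 : 0 < η1) (hη2 : 0 < η2) :
    |cx (gs ι) K0 (Zxm μ k S x) (fun y => (E1 μ k S x K P y - lf u y) ^ 2) z -
      g ^ 6 * Ey μ k S x K0 (Th x P σ) z ^ 2 / 6| ≤
      η * (g ^ 6 * Ey μ k S x K0 (Th x P σ) z ^ 2 / 2) + 2232 / η *
        (DL P0 σ0 g η1 η2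
          (cx (gs ι) K0 (Zxm μ k S x) (q2 μ k S x K (df (SA (K \ K0) k S) σ g v)) z)
          (cx (gs ι) K0 (Zxm μ k S x) (q4 μ k S x K (SA (K \ K0) k S)) z)
          (cx (gs ι) K0 (Zxm μ k S x) (q2 μ k S x K (SA (K \ K0) k S)) z) +
        ∑ i, (Acf μ k S x K0 K P z i - u i) ^ 2 +
        (∑ i, u i ^ 2 + g ^ 6 * Ey μ k S x K0 (Th x P σ) z ^ 2 / 36) *
          (17 / 2 * x ^ 2 *
            cx (gs ι) K0 (Zxm μ k S x) (q2 μ k S x K (SA (K \ K0) k S)) z)) := by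
  have hG := h.hG
  have ht := h.til z
  have bP : Bm fun w : Unit → Ω => P (w ()) := hP.at ()
  set KF := Ey μ k S x K0 (Th x P σ) z with hKF
  have hodd : ∀ B, nr μ k S x K0 K z (fun w : Unit → Ω => P (w ())) (-B) =
      -nr μ k S x K0 K z (fun w : Unit → Ω => P (w ())) B := fun B => by
    unfold nr
    rw [nb_odd h.sym hG k x h.dj h.sub z hP ho]
    ring
  have c1 := ht.c3_two (d3_nr hG k x K0 K z bP) hodd (A := Acf μ k S x K0 K P z)
    (fun i => int_nr hG k x z h.hK (bdR hG k x K0 K i bP)) hv (g ^ 3 * KF / 6) u h0 h1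
  rw [h.sq_eq z hP hu] at c1
  have e1 : 6 * (g ^ 3 * KF / 6) ^ 2 = g ^ 6 * KF ^ 2 / 6 := by ring
  have e2 : 18 * η * (g ^ 3 * KF / 6) ^ 2 = η * (g ^ 6 * KF ^ 2 / 2) := by ring
  have e3 : (g ^ 3 * KF / 6) ^ 2 = g ^ 6 * KF ^ 2 / 36 := by ring
  rw [e1, e2, e3] at c1
  refine c1.trans ?_
  have d1 := h.dl2_le z hσ hb hP hPb hv g hη1 hη2
  rw [← hKF] at d1
  have d2 := h.w22_le z
  have u0 : 0 ≤ ∑ i, u i ^ 2 + g ^ 6 * KF ^ 2 / 36 :=
    add_nonneg (Finset.sum_nonneg fun i _ => sq_nonneg _) (by positivity)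
  have d3 := mul_le_mul_of_nonneg_left d2 u0
  have d4 := mul_le_mul_of_nonneg_left (add_le_add (add_le_add d1
    (le_refl (∑ i, (Acf μ k S x K0 K P z i - u i) ^ 2))) d3) (by positivity : 0 ≤ 2232 / η)
  linarith

/-- **The upper bound without the constant.** -/
theorem c3_upper (z : ι → ℝ) {P : Ω → ℝ} (hP : Bm P) (ho : ∀ w, P (T w) = -P w) {P0 : ℝ}
    (hPb : ∀ w, |P w| ≤ P0) {u : ι → ℝ} (hu : ∀ e, e ∉ K \ K0 → u e = 0)
    {v : ι → ℝ} (hv : ∑ i, v i ^ 2 = 1) {η1 : ℝ} (hη1 : 0 < η1) :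
    cx (gs ι) K0 (Zxm μ k S x) (fun y => (E1 μ k S x K P y - lf u y) ^ 2) z ≤
      2232 * (2 * P0 ^ 2 * (2352 / η1 *
          cx (gs ι) K0 (Zxm μ k S x) (q2 μ k S x K (SA (K \ K0) k S)) z +
          2568576 * η1 * cx (gs ι) K0 (Zxm μ k S x) (q4 μ k S x K (SA (K \ K0) k S)) z) +
        ∑ i, (Acf μ k S x K0 K P z i - u i) ^ 2 +
        (∑ i, u i ^ 2) * (17 / 2 * x ^ 2 *
            cx (gs ι) K0 (Zxm μ k S x) (q2 μ k S x K (SA (K \ K0) k S)) z)) := by
  have c1 := h.c3_main z hP ho hPb (σ := fun _ => 0) (Bm.const 0) (σ0 := 0)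
    (fun w => by simp) hv 0 hu one_pos le_rfl hη1 one_pos
  have e1 : df (SA (K \ K0) k S) (fun _ => 0) 0 v = SA (K \ K0) k S := by
    funext i w
    unfold df
    ring
  rw [e1] at c1
  have c2 := (abs_le.1 c1).2
  unfold DL cbd at c2
  norm_num at c2
  refine c2.trans (le_of_eq ?_)
  ring

end Blk

end Vale.Agent.P146.H498
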