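import Vale.Agent.P146.H946.Odd

/-!
Third order chaos of a tilted Gaussian vector, with the sharp constant. `W` is an even density and
`M` an odd numerator on `ℝ^ι`; `H` is the third Hermite polynomial of the linear form with unit
vector `v`. The square of `N - u·z` under the law `W γ`, with `N = M / W`, is `6 c²` up to errors
which only use the third derivative of `M` and the second derivative of `W`.
-/

open MeasureTheory ProbabilityTheory

namespace Vale.Agent.P146.H498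

open Vale.Agent.P157.Lv Vale.Agent.P146.H425 Vale.Agent.P146.H946

set_option linter.unusedSectionVars false

variable {ι : Type} [Fintype ι] [DecidableEq ι]

/-- A function with its first two partial derivatives, all of exponential growth. -/
structure D2 (f : (ι → ℝ) → ℝ) (f1 : ι → (ι → ℝ) → ℝ) (f2 : ι → ι → (ι → ℝ) → ℝ) : Prop where
  g0 : EG f
  g1 : ∀ i, EG (f1 i)
  g2 : ∀ i j, EG (f2 i j)
  d0 : ∀ i, PD i f (f1 i)
  d1 : ∀ i j, PD j (f1 i) (f2 i j)

/-- A function with its first three partial derivatives, all of exponential growth. -/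
structure D3 (f : (ι → ℝ) → ℝ) (f1 : ι → (ι → ℝ) → ℝ) (f2 : ι → ι → (ι → ℝ) → ℝ)
    (f3 : ι → ι → ι → (ι → ℝ) → ℝ) : Prop extends D2 f f1 f2 where
  g3 : ∀ i j k, EG (f3 i j k)
  d2 : ∀ i j k, PD k (f2 i j) (f3 i j k)

/-- Poincaré for a centred function. -/
lemma poin0 {F : (ι → ℝ) → ℝ} {F' : ι → (ι → ℝ) → ℝ} (hF : EG F)
    (hd : ∀ e, PD e F (F' e)) (hF' : ∀ e, EG (F' e)) (h0 : ∫ z, F z ∂(gI ι) = 0) :
    ∫ z, F z ^ 2 ∂(gI ι) ≤ ∑ e, ∫ z, F' e z ^ 2 ∂(gI ι) := by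
  have h := cc_var_le_one hF hd hF'
  rw [h0] at h
  simpa using h

/-- two Poincaré inequalities. -/
lemma D2.chain {f : (ι → ℝ) → ℝ} {f1 : ι → (ι → ℝ) → ℝ} {f2 : ι → ι → (ι → ℝ) → ℝ}
    (h : D2 f f1 f2) (h0 : ∫ z, f z ∂(gI ι) = 0) (h1 : ∀ i, ∫ z, f1 i z ∂(gI ι) = 0) :
    ∫ z, f z ^ 2 ∂(gI ι) ≤ ∑ i, ∫ z, f1 i z ^ 2 ∂(gI ι) ∧
      ∑ i, ∫ z, f1 i z ^ 2 ∂(gI ι) ≤ ∑ i, ∑ j, ∫ z, f2 i j z ^ 2 ∂(gI ι) := by
  refine ⟨poin0 h.g0 h.d0 h.g1 h0, Finset.sum_le_sum fun i _ => ?_⟩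
  exact poin0 (h.g1 i) (h.d1 i) (h.g2 i) (h1 i)

/-- three Poincaré inequalities. -/
lemma D3.chain {f : (ι → ℝ) → ℝ} {f1 : ι → (ι → ℝ) → ℝ} {f2 : ι → ι → (ι → ℝ) → ℝ}
    {f3 : ι → ι → ι → (ι → ℝ) → ℝ}
    (h : D3 f f1 f2 f3) (h0 : ∫ z, f z ∂(gI ι) = 0) (h1 : ∀ i, ∫ z, f1 i z ∂(gI ι) = 0)
    (h2 : ∀ i j, ∫ z, f2 i j z ∂(gI ι) = 0) :
    ∫ z, f z ^ 2 ∂(gI ι) ≤ ∑ i, ∑ j, ∑ k, ∫ z, f3 i j k z ^ 2 ∂(gI ι) := by
  obtain ⟨a, b⟩ := h.toD2.chain h0 h1
  refine (a.trans b).trans (Finset.sum_le_sum fun i _ => Finset.sum_le_sum fun j _ => ?_)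
  exact poin0 (h.g2 i j) (h.d2 i j) (h.g3 i j) (h2 i j)

lemma integral_odd {F : (ι → ℝ) → ℝ} (hF : Measurable F) (ho : ∀ z, F (-z) = -F z) :
    ∫ z, F z ∂(gI ι) = 0 := by
  have h := integral_neg_gI hF
  simp only [ho, integral_neg] at h
  linarith

/-- the mean of the second derivative. -/
lemma D2.int2 {f : (ι → ℝ) → ℝ} {f1 : ι → (ι → ℝ) → ℝ} {f2 : ι → ι → (ι → ℝ) → ℝ}
    (h : D2 f f1 f2) (i j : ι) : ∫ z, f2 i j z ∂(gI ι) =
      ∫ z, z i * (z j * f z) ∂(gI ι) - (if j = i then 1 else 0) * ∫ z, f z ∂(gI ι) := by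
  have e1 := (h.d1 i j).stein (h.g1 i) (h.g2 i j)
  have e2 := ((PD.coord (e := i) j).mul (h.d0 i)).stein ((EG.coord j).mul h.g0)
    (((EG.const _).mul h.g0).add ((EG.coord j).mul (h.g1 i)))
  rw [integral_add (((EG.const _).mul h.g0).integrable) (((EG.coord j).mul (h.g1 i)).integrable),
    integral_const_mul, e1] at e2
  linarith

lemma D2.int2_odd {f : (ι → ℝ) → ℝ} {f1 : ι → (ι → ℝ) → ℝ} {f2 : ι → ι → (ι → ℝ) → ℝ}
    (h : D2 f f1 f2) (ho : ∀ z, f (-z) = -f z) (i j : ι) : ∫ z, f2 i j z ∂(gI ι) = 0 := by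
  rw [h.int2, integral_odd h.g0.meas ho,
    integral_odd (F := fun z => z i * (z j * f z)) ((measurable_pi_apply i).mul
      ((measurable_pi_apply j).mul h.g0.meas))]
  · simp
  · intro z
    simp only [Pi.neg_apply, ho]
    ring

/-! ### linear forms -/

/-- the linear form. -/
def lf (v : ι → ℝ) (z : ι → ℝ) : ℝ := ∑ i, v i * z i

lemma lf_neg (v z : ι → ℝ) : lf v (-z) = -lf v z := by
  unfold lf
  simp [Finset.sum_neg_distrib]

lemma eg_lf (v : ι → ℝ) : EG (lf v) := by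
  unfold lf
  exact EG.sum _ fun i _ => (EG.coord i).const_mul _

lemma pd_lf (v : ι → ℝ) (e : ι) : PD e (lf v) (fun _ => v e) := by
  have h := PD.sum (e := e) (Finset.univ : Finset ι) (H := fun i z => v i * z i)
    (H' := fun i _ => v i * (if i = e then 1 else 0)) fun i _ => (PD.coord i).const_mul _
  refine PD.congr h fun y => ?_
  simp

/-- integration by parts against a linear form. -/
lemma stein_lf (v : ι → ℝ) {g : (ι → ℝ) → ℝ} {g1 : ι → (ι → ℝ) → ℝ} (hg : EG g)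
    (hd : ∀ i, PD i g (g1 i)) (hg1 : ∀ i, EG (g1 i)) :
    ∫ z, lf v z * g z ∂(gI ι) = ∫ z, ∑ i, v i * g1 i z ∂(gI ι) := by
  have e1 : ∀ z, lf v z * g z = ∑ i, v i * (z i * g z) := fun z => by
    unfold lf
    rw [Finset.sum_mul]
    exact Finset.sum_congr rfl fun i _ => by ring
  simp only [e1]
  rw [integral_finsetSum _ fun i _ => (((EG.coord i).mul hg).const_mul _).integrable,
    integral_finsetSum _ fun i _ => ((hg1 i).const_mul _).integrable]
  refine Finset.sum_congr rfl fun i _ => ?_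
  rw [integral_const_mul, integral_const_mul, (hd i).stein hg (hg1 i)]

/-- moments of a linear form with unit vector. -/
lemma mom_lf {v : ι → ℝ} (hv : ∑ i, v i ^ 2 = 1) (n : ℕ) :
    ∫ z, lf v z ^ (n + 2) ∂(gI ι) = (n + 1) * ∫ z, lf v z ^ n ∂(gI ι) := by
  have h := stein_lf v (g := fun z => lf v z ^ (n + 1))
    (g1 := fun i z => ((n + 1 : ℕ) * lf v z ^ n) * v i) ((eg_lf v).pow _)
    (fun i => (pd_lf v i).comp (g := fun t => t ^ (n + 1))
      (g' := fun t => (n + 1 : ℕ) * t ^ n) fun t => by simpa using hasDerivAt_pow (n + 1) t)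
    (fun i => (((eg_lf v).pow n).const_mul _).mul (EG.const _))
  have e1 : ∀ z, lf v z * lf v z ^ (n + 1) = lf v z ^ (n + 2) := fun z => by ring
  have e2 : ∀ z, ∑ i, v i * (((n + 1 : ℕ) * lf v z ^ n) * v i) = (n + 1) * lf v z ^ n := fun z => by
    calc ∑ i, v i * (((n + 1 : ℕ) * lf v z ^ n) * v i)
        = ∑ i, ((n + 1 : ℕ) * lf v z ^ n) * v i ^ 2 := Finset.sum_congr rfl fun i _ => by ring
      _ = _ := by rw [← Finset.mul_sum, hv]; push_cast; ring
  simp only [e1, e2] at h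
  rw [h, integral_const_mul]

/-- the third Hermite polynomial of the linear form. -/
def H3 (v : ι → ℝ) (z : ι → ℝ) : ℝ := lf v z ^ 3 - 3 * lf v z

lemma H3_neg (v z : ι → ℝ) : H3 v (-z) = -H3 v z := by
  unfold H3
  rw [lf_neg]
  ring

lemma eg_H3 (v : ι → ℝ) : EG (H3 v) := by
  unfold H3
  exact ((eg_lf v).pow 3).sub ((eg_lf v).const_mul _)

lemma d3_H3 (v : ι → ℝ) : D3 (H3 v) (fun i z => (3 * lf v z ^ 2 - 3) * v i)
    (fun i j z => 6 * lf v z * (v i * v j)) (fun i j k _ => 6 * (v i * v j * v k)) := by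
  refine ⟨⟨eg_H3 v, fun i => ?_, fun i j => ?_, fun i => ?_, fun i j => ?_⟩, fun i j k => EG.const _,
    fun i j k => ?_⟩
  · exact ((((eg_lf v).pow 2).const_mul _).sub (EG.const _)).mul (EG.const _)
  · exact ((eg_lf v).const_mul _).mul (EG.const _)
  · refine ((pd_lf v i).comp (g := fun t => t ^ 3 - 3 * t) (g' := fun t => 3 * t ^ 2 - 3)
      fun t => ?_)
    have := (hasDerivAt_pow 3 t).fun_sub ((hasDerivAt_id' t).const_mul 3)
    refine this.congr_deriv ?_
    norm_num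
  · refine PD.congr ((pd_lf v j).comp (g := fun t => (3 * t ^ 2 - 3) * v i)
      (g' := fun t => 6 * t * v i) fun t => ?_) fun z => by ring
    have := ((((hasDerivAt_pow 2 t).const_mul 3).sub_const 3)).mul_const (v i)
    refine this.congr_deriv ?_
    norm_num
    left
    ring
  · refine PD.congr ((pd_lf v k).comp (g := fun t => 6 * t * (v i * v j))
      (g' := fun _ => 6 * (v i * v j)) fun t => ?_) fun z => by ring
    have := (((hasDerivAt_id t).const_mul 6)).mul_const (v i * v j)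
    simpa using this

section unit

variable {v : ι → ℝ} (hv : ∑ i, v i ^ 2 = 1)
include hv

lemma m2 : ∫ z, lf v z ^ 2 ∂(gI ι) = 1 := by
  have := mom_lf hv 0
  simpa using this

lemma m4 : ∫ z, lf v z ^ 4 ∂(gI ι) = 3 := by
  have := mom_lf hv 2
  rw [m2 hv] at this
  norm_num at this
  linarith

lemma m6 : ∫ z, lf v z ^ 6 ∂(gI ι) = 15 := by
  have := mom_lf hv 4
  rw [m4 hv] at this
  norm_num at this
  linarith

lemma m8 : ∫ z, lf v z ^ 8 ∂(gI ι) = 105 := by
  have := mom_lf hv 6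
  rw [m6 hv] at this
  norm_num at this
  linarith

lemma m10 : ∫ z, lf v z ^ 10 ∂(gI ι) = 945 := by
  have := mom_lf hv 8
  rw [m8 hv] at this
  norm_num at this
  linarith

lemma m12 : ∫ z, lf v z ^ 12 ∂(gI ι) = 10395 := by
  have := mom_lf hv 10
  rw [m10 hv] at this
  norm_num at this
  linarith

lemma H3_sq : ∫ z, H3 v z ^ 2 ∂(gI ι) = 6 := by
  have e : ∀ z, H3 v z ^ 2 = lf v z ^ 6 - 6 * lf v z ^ 4 + 9 * lf v z ^ 2 := fun z => by
    unfold H3; ring
  simp only [e]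
  have g := fun n : ℕ => ((eg_lf v).pow n)
  rw [integral_add (((g 6).sub ((g 4).const_mul 6)).integrable) (((g 2).const_mul 9).integrable),
    integral_sub (g 6).integrable ((g 4).const_mul 6).integrable, integral_const_mul,
    integral_const_mul, m2 hv, m4 hv, m6 hv]
  norm_num

lemma H3_four : ∫ z, H3 v z ^ 4 ∂(gI ι) = 3348 := by
  have e : ∀ z, H3 v z ^ 4 = ((lf v z ^ 12 - 12 * lf v z ^ 10) + (54 * lf v z ^ 8 -
      108 * lf v z ^ 6)) + 81 * lf v z ^ 4 := fun z => by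
    unfold H3; ring
  simp only [e]
  have g := fun n : ℕ => ((eg_lf v).pow n)
  rw [integral_add (((g 12).sub ((g 10).const_mul 12)).add (((g 8).const_mul 54).sub
      ((g 6).const_mul 108))).integrable (((g 4).const_mul 81).integrable),
    integral_add ((g 12).sub ((g 10).const_mul 12)).integrable (((g 8).const_mul 54).sub
      ((g 6).const_mul 108)).integrable,
    integral_sub (g 12).integrable ((g 10).const_mul 12).integrable,
    integral_sub ((g 8).const_mul 54).integrable ((g 6).const_mul 108).integrable,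
    integral_const_mul, integral_const_mul, integral_const_mul, integral_const_mul,
    m4 hv, m6 hv, m8 hv, m10 hv, m12 hv]
  norm_num

lemma lf_H3 (u : ι → ℝ) : ∫ z, lf u z * H3 v z ∂(gI ι) = 0 := by
  have h := stein_lf u (d3_H3 v).g0 (d3_H3 v).d0 (d3_H3 v).g1
  rw [h]
  have e : ∀ z, ∑ i, u i * ((3 * lf v z ^ 2 - 3) * v i) =
      (∑ i, u i * v i) * (3 * lf v z ^ 2 - 3) := fun z => by
    rw [Finset.sum_mul]
    exact Finset.sum_congr rfl fun i _ => by ring
  simp only [e]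
  have g := fun n : ℕ => ((eg_lf v).pow n)
  rw [integral_const_mul, integral_sub ((g 2).const_mul 3).integrable (integrable_const _),
    integral_const_mul, m2 hv]
  simp

end unit

end Vale.Agent.P146.H498
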