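import Vale.Agent.P146.H498.C3t

/-!
The square of an odd numerator in the space with weight `1 / W`: the contribution of the third
chaos with its constant.
-/

open MeasureTheory ProbabilityTheory

namespace Vale.Agent.P146.H498

open Vale.Agent.P157.Lv Vale.Agent.P146.H425 Vale.Agent.P146.H946

set_option linter.unusedSectionVars false

variable {ι : Type} [Fintype ι] [DecidableEq ι]

variable {W : (ι → ℝ) → ℝ} {W1 : ι → (ι → ℝ) → ℝ} {W2 : ι → ι → (ι → ℝ) → ℝ} {L : ℝ}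

/-- the weighted square of the second derivative of `W`. -/
noncomputable def w22 (W : (ι → ℝ) → ℝ) (W2 : ι → ι → (ι → ℝ) → ℝ) : ℝ :=
  ∑ i, ∑ j, ∫ z, (W z)⁻¹ * W2 i j z ^ 2 ∂(gI ι)

lemma lf_sq (u : ι → ℝ) : ∫ z, lf u z ^ 2 ∂(gI ι) = ∑ i, u i ^ 2 := by
  have h := stein_lf u (eg_lf u) (pd_lf u) fun i => EG.const (u i)
  have e : ∀ z, lf u z * lf u z = lf u z ^ 2 := fun z => by ring
  simp only [e] at h
  rw [h, integral_const]
  simp
  exact Finset.sum_congr rfl fun i _ => by ring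

lemma dsum_le (u : ι → ℝ) (A : ι → ι → ℝ) : (∑ j, u j * ∑ i, u i * A i j) ^ 2 ≤
    (∑ i, u i ^ 2) ^ 2 * ∑ i, ∑ j, A i j ^ 2 := by
  have hU0 : 0 ≤ ∑ i, u i ^ 2 := Finset.sum_nonneg fun i _ => sq_nonneg _
  have c1 : (∑ j, u j * ∑ i, u i * A i j) ^ 2 ≤ (∑ j, u j ^ 2) * ∑ j, (∑ i, u i * A i j) ^ 2 :=
    Finset.sum_mul_sq_le_sq_mul_sq _ _ _
  have c2 : ∑ j, (∑ i, u i * A i j) ^ 2 ≤ (∑ i, u i ^ 2) * ∑ i, ∑ j, A i j ^ 2 := by
    rw [Finset.sum_comm (f := fun i j => A i j ^ 2), Finset.mul_sum]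
    exact Finset.sum_le_sum fun j _ => Finset.sum_mul_sq_le_sq_mul_sq _ _ _
  refine c1.trans ((mul_le_mul_of_nonneg_left c2 hU0).trans (le_of_eq (by ring)))

lemma alg_key {w iv a b U S R : ℝ} (hw : 0 < w) (hiv : iv = w⁻¹) (hi2 : iv ≤ 2) (hU0 : 0 ≤ U)
    (hS0 : 0 ≤ S) (_ : 0 ≤ R) (cs1 : a ^ 2 ≤ U ^ 2 * S) (cs2 : b ^ 2 ≤ U * R) :
    a * (1 - iv * iv) + 2 * b ^ 2 * (iv * iv * iv) ≤
      3 / 2 * U * (iv * (w - 1) ^ 2) + 3 / 2 * U * (iv * S) + 8 * U * (iv * R) := by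
  have hi : 0 < iv := by rw [hiv]; exact inv_pos.2 hw
  have t1 : |2 * a * (w - 1)| ≤ U * ((w - 1) ^ 2 + S) := by
    refine abs_le_of_sq_le_sq ?_ (by positivity)
    have t2 : 0 ≤ ((w - 1) ^ 2 - S) ^ 2 * U ^ 2 := by positivity
    have t3 : a ^ 2 * (w - 1) ^ 2 ≤ U ^ 2 * S * (w - 1) ^ 2 :=
      mul_le_mul_of_nonneg_right cs1 (sq_nonneg _)
    nlinarith
  have t4 : a * (1 - iv * iv) = (2 * a * (w - 1)) / 2 * (iv * (1 + iv)) := by
    have : w * iv = 1 := by rw [hiv]; exact mul_inv_cancel₀ hw.ne'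
    have t5 : (w - 1) * (iv * (1 + iv)) = 1 - iv * iv := by
      calc (w - 1) * (iv * (1 + iv)) = (w * iv) * (1 + iv) - iv * (1 + iv) := by ring
        _ = _ := by rw [this]; ring
    rw [← t5]; ring
  have t6 : a * (1 - iv * iv) ≤ 3 / 2 * U * (iv * ((w - 1) ^ 2 + S)) := by
    rw [t4]
    have t7 := (abs_le.1 t1).2
    have t8 : 0 ≤ iv * (1 + iv) := by positivity
    have t9 : iv * (1 + iv) ≤ 3 * iv := by nlinarith
    have t10 : 0 ≤ U * ((w - 1) ^ 2 + S) := by positivity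
    calc (2 * a * (w - 1)) / 2 * (iv * (1 + iv))
        ≤ (U * ((w - 1) ^ 2 + S)) / 2 * (iv * (1 + iv)) :=
          mul_le_mul_of_nonneg_right (by linarith) t8
      _ ≤ (U * ((w - 1) ^ 2 + S)) / 2 * (3 * iv) :=
          mul_le_mul_of_nonneg_left t9 (by positivity)
      _ = _ := by ring
  have t11 : 2 * b ^ 2 * (iv * iv * iv) ≤ 8 * U * (iv * R) := by
    have t12 : iv * iv ≤ 4 := by nlinarith
    calc 2 * b ^ 2 * (iv * iv * iv) = (2 * b ^ 2 * iv) * (iv * iv) := by ring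
      _ ≤ (2 * b ^ 2 * iv) * 4 := mul_le_mul_of_nonneg_left t12 (by positivity)
      _ = (8 * iv) * b ^ 2 := by ring
      _ ≤ (8 * iv) * (U * R) := mul_le_mul_of_nonneg_left cs2 (by positivity)
      _ = _ := by ring
  have t13 : 3 / 2 * U * (iv * ((w - 1) ^ 2 + S)) =
    3 / 2 * U * (iv * (w - 1) ^ 2) + 3 / 2 * U * (iv * S) := by ring
  linarith

lemma alg_sum (u : ι → ℝ) (A : ι → ι → ℝ) (B : ι → ℝ) (p q : ℝ) :
    ∑ j, u j * ∑ i, u i * (A i j * p + 2 * (B i * B j) * q) =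
      (∑ j, u j * ∑ i, u i * A i j) * p + 2 * (∑ i, u i * B i) ^ 2 * q := by
  have e4 : (∑ i, u i * B i) ^ 2 = ∑ j, u j * ∑ i, u i * (B i * B j) := by
    rw [sq, Finset.sum_mul_sum, Finset.sum_comm]
    refine Finset.sum_congr rfl fun j _ => ?_
    rw [Finset.mul_sum]
    exact Finset.sum_congr rfl fun i _ => by ring
  rw [e4, Finset.sum_mul, Finset.mul_sum, Finset.sum_mul, ← Finset.sum_add_distrib]
  refine Finset.sum_congr rfl fun j _ => ?_
  rw [Finset.mul_sum, Finset.mul_sum, Finset.mul_sum, Finset.sum_mul, Finset.mul_sum,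
    Finset.sum_mul, ← Finset.sum_add_distrib]
  exact Finset.sum_congr rfl fun i _ => by ring

namespace Til

variable (h : Til W W1 W2 L)
include h

lemma int_W1 (i : ι) : ∫ z, W1 i z ∂(gI ι) = 0 := by
  rw [← (h.d.d0 i).stein h.d.g0 (h.d.g1 i)]
  refine integral_odd ((measurable_pi_apply i).mul h.d.g0.meas) fun z => ?_
  rw [h.ev]
  simp

lemma d2_hh : D2 (fun z => W z - 1) W1 W2 :=
  ⟨h.d.g0.sub (EG.const 1), h.d.g1, h.d.g2,
    fun i => ((h.d.d0 i).sub (PD.const 1)).congr fun z => by ring, h.d.d1⟩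

lemma int_hh : ∫ z, (W z - 1) ∂(gI ι) = 0 := by
  rw [integral_sub h.d.g0.integrable (integrable_const _), h.one]
  simp

lemma hh_le : ∫ z, (W z)⁻¹ * (W z - 1) ^ 2 ∂(gI ι) ≤ 4 * w22 W W2 := by
  obtain ⟨a, b⟩ := h.chain2 h.d2_hh h.int_hh h.int_W1
  unfold w22
  linarith

lemma W1_le : ∑ i, ∫ z, (W z)⁻¹ * W1 i z ^ 2 ∂(gI ι) ≤ 2 * w22 W W2 :=
  (h.chain2 h.d2_hh h.int_hh h.int_W1).2

lemma w22_nonneg : 0 ≤ w22 W W2 :=
  Finset.sum_nonneg fun _ _ => Finset.sum_nonneg fun _ _ =>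
    integral_nonneg fun z => mul_nonneg (h.inv_pos z).le (sq_nonneg _)

lemma pd_inv (e : ι) : PD e (fun z => (W z)⁻¹) (fun z => -(W1 e z * ((W z)⁻¹ * (W z)⁻¹))) := by
  intro y t
  have h1 := ((h.d.d0 e) y t).inv (h.pos _).ne'
  refine h1.congr_deriv ?_
  have := (h.pos (Function.update y e t)).ne'
  field_simp

/-- two integrations by parts. -/
lemma hu_stein (u : ι → ℝ) : ∫ z, (W z)⁻¹ * ((W z - 1) * lf u z) ^ 2 ∂(gI ι) =
    (∑ i, u i ^ 2) * ∫ z, (W z)⁻¹ * (W z - 1) ^ 2 ∂(gI ι) +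
    ∫ z, ((∑ j, u j * ∑ i, u i * W2 i j z) * (1 - (W z)⁻¹ * (W z)⁻¹) +
      2 * (∑ i, u i * W1 i z) ^ 2 * ((W z)⁻¹ * (W z)⁻¹ * (W z)⁻¹)) ∂(gI ι) := by
  set U := ∑ i, u i ^ 2 with hU
  have ei := h.eg_inv
  set G : (ι → ℝ) → ℝ := fun z => W z + (W z)⁻¹ - 2 with hG
  set G1 : ι → (ι → ℝ) → ℝ := fun i z => W1 i z - W1 i z * ((W z)⁻¹ * (W z)⁻¹) with hG1
  set G2 : ι → ι → (ι → ℝ) → ℝ := fun i j z => W2 i j z * (1 - (W z)⁻¹ * (W z)⁻¹) +
    2 * (W1 i z * W1 j z) * ((W z)⁻¹ * (W z)⁻¹ * (W z)⁻¹) with hG2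
  have eG : EG G := (h.d.g0.add ei).sub (EG.const 2)
  have eG1 : ∀ i, EG (G1 i) := fun i => (h.d.g1 i).sub ((h.d.g1 i).mul (ei.mul ei))
  have eG2 : ∀ i j, EG (G2 i j) := fun i j =>
    ((h.d.g2 i j).mul ((EG.const 1).sub (ei.mul ei))).add
      ((((h.d.g1 i).mul (h.d.g1 j)).const_mul 2).mul ((ei.mul ei).mul ei))
  have pG : ∀ i, PD i G (G1 i) := fun i =>
    PD.congr (((h.d.d0 i).add (h.pd_inv i)).sub (PD.const 2)) fun z => by rw [hG1]; ring
  have pG1 : ∀ i j, PD j (G1 i) (G2 i j) := fun i j =>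
    PD.congr ((h.d.d1 i j).sub ((h.d.d1 i j).mul ((h.pd_inv j).mul (h.pd_inv j)))) fun z => by
      rw [hG2]; ring
  have s1 := stein_lf u (g := fun z => lf u z * G z) (g1 := fun i z => u i * G z + lf u z * G1 i z)
    ((eg_lf u).mul eG) (fun i => (pd_lf u i).mul (pG i))
    (fun i => (((EG.const (u i)).mul eG)).add ((eg_lf u).mul (eG1 i)))
  have eS : EG fun z => ∑ i, u i * G1 i z := EG.sum _ fun i _ => (eG1 i).const_mul _
  have s2 := stein_lf u (g := fun z => ∑ i, u i * G1 i z)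
    (g1 := fun j z => ∑ i, u i * G2 i j z) eS
    (fun j => PD.sum _ fun i _ => (pG1 i j).const_mul _)
    (fun j => EG.sum _ fun i _ => (eG2 i j).const_mul _)
  have e1 : ∀ z, (W z)⁻¹ * ((W z - 1) * lf u z) ^ 2 = lf u z * (lf u z * G z) := fun z => by
    rw [hG]
    have := (h.pos z).ne'
    field_simp
    ring
  have e2 : ∀ z, ∑ i, u i * (u i * G z + lf u z * G1 i z) =
      U * G z + lf u z * ∑ i, u i * G1 i z := fun z => by
    rw [hU, Finset.sum_mul, Finset.mul_sum, ← Finset.sum_add_distrib]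
    exact Finset.sum_congr rfl fun i _ => by ring
  have e3 : ∀ z, G z = (W z)⁻¹ * (W z - 1) ^ 2 := fun z => by
    rw [hG]
    have := (h.pos z).ne'
    field_simp
    ring
  simp only [e1]
  rw [s1]
  simp only [e2]
  rw [integral_add (eG.const_mul _).integrable ((eg_lf u).mul eS).integrable, s2,
    integral_const_mul]
  simp only [e3, hG2, alg_sum]

/-- the weighted square of `(W - 1)` times a linear form. -/
theorem hu_le (u : ι → ℝ) : ∫ z, (W z)⁻¹ * ((W z - 1) * lf u z) ^ 2 ∂(gI ι) ≤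
    28 * ((∑ i, u i ^ 2) * w22 W W2) := by
  rw [h.hu_stein]
  set U := ∑ i, u i ^ 2 with hU
  have hU0 : 0 ≤ U := Finset.sum_nonneg fun i _ => sq_nonneg _
  have ei := h.eg_inv
  have ea : EG fun z => ∑ j, u j * ∑ i, u i * W2 i j z :=
    EG.sum _ fun j _ => (EG.sum _ fun i _ => (h.d.g2 i j).const_mul _).const_mul _
  have eb : EG fun z => ∑ i, u i * W1 i z := EG.sum _ fun i _ => (h.d.g1 i).const_mul _
  have eT : EG fun z => ((∑ j, u j * ∑ i, u i * W2 i j z) * (1 - (W z)⁻¹ * (W z)⁻¹) +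
      2 * (∑ i, u i * W1 i z) ^ 2 * ((W z)⁻¹ * (W z)⁻¹ * (W z)⁻¹)) :=
    (ea.mul ((EG.const 1).sub (ei.mul ei))).add (((eb.pow 2).const_mul 2).mul ((ei.mul ei).mul ei))
  have eB : EG fun z => (W z)⁻¹ * (W z - 1) ^ 2 := ei.mul ((h.d.g0.sub (EG.const 1)).pow 2)
  have eC : EG fun z => (W z)⁻¹ * ∑ i, ∑ j, W2 i j z ^ 2 :=
    ei.mul (EG.sum _ fun i _ => EG.sum _ fun j _ => (h.d.g2 i j).pow 2)
  have eD : EG fun z => (W z)⁻¹ * ∑ i, W1 i z ^ 2 :=
    ei.mul (EG.sum _ fun i _ => (h.d.g1 i).pow 2)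
  have i1 := integral_mono eT.integrable
    ((((eB.const_mul (3 / 2 * U)).add (eC.const_mul (3 / 2 * U))).add
      (eD.const_mul (8 * U))).integrable) fun z => alg_key (h.pos z) rfl (h.inv_le z) hU0
        (Finset.sum_nonneg fun i _ => Finset.sum_nonneg fun j _ => sq_nonneg (W2 i j z))
        (Finset.sum_nonneg fun i _ => sq_nonneg (W1 i z)) (dsum_le u fun i j => W2 i j z)
        (Finset.sum_mul_sq_le_sq_mul_sq _ _ _)
  rw [integral_add ((eB.const_mul _).add (eC.const_mul _)).integrable (eD.const_mul _).integrable,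
    integral_add (eB.const_mul _).integrable (eC.const_mul _).integrable, integral_const_mul,
    integral_const_mul, integral_const_mul] at i1
  have iB := h.hh_le
  have iC : ∫ z, (W z)⁻¹ * ∑ i, ∑ j, W2 i j z ^ 2 ∂(gI ι) = w22 W W2 := by
    unfold w22
    simp only [Finset.mul_sum]
    rw [integral_finsetSum _ fun i _ =>
      (EG.sum _ fun j _ => ei.mul ((h.d.g2 i j).pow 2)).integrable]
    refine Finset.sum_congr rfl fun i _ => ?_
    rw [integral_finsetSum _ fun j _ => (ei.mul ((h.d.g2 i j).pow 2)).integrable]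
  have iD : ∫ z, (W z)⁻¹ * ∑ i, W1 i z ^ 2 ∂(gI ι) ≤ 2 * w22 W W2 := by
    simp only [Finset.mul_sum]
    rw [integral_finsetSum _ fun i _ => (ei.mul ((h.d.g1 i).pow 2)).integrable]
    exact h.W1_le
  have w0 := h.w22_nonneg
  rw [iC] at i1
  have j2 := mul_le_mul_of_nonneg_left iB hU0
  have j3 := mul_le_mul_of_nonneg_left iD hU0
  have j4 : 0 ≤ U * w22 W W2 := mul_nonneg hU0 w0
  nlinarith

end Til

end Vale.Agent.P146.H498
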