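import Vale.Agent.P146.H498.C3m

/-!
The two sided estimate with the constant `6 c²` of the third chaos.
-/

open MeasureTheory ProbabilityTheory

namespace Vale.Agent.P146.H498

open Vale.Agent.P157.Lv Vale.Agent.P146.H425 Vale.Agent.P146.H946

set_option linter.unusedSectionVars false

variable {ι : Type} [Fintype ι] [DecidableEq ι]

variable {W : (ι → ℝ) → ℝ} {W1 : ι → (ι → ℝ) → ℝ} {W2 : ι → ι → (ι → ℝ) → ℝ} {L : ℝ}

/-- the weighted square of the difference of the third derivative and `6 c v ⊗ v ⊗ v`. -/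
noncomputable def dl2 (W : (ι → ℝ) → ℝ) (M3 : ι → ι → ι → (ι → ℝ) → ℝ) (c : ℝ) (v : ι → ℝ) : ℝ :=
  ∑ i, ∑ j, ∑ k, ∫ z, (W z)⁻¹ * (M3 i j k z - c * (6 * (v i * v j * v k))) ^ 2 ∂(gI ι)

lemma sq_up (a b : ℝ) {η : ℝ} (h0 : 0 < η) :
    (a + b) ^ 2 ≤ (1 + η) * a ^ 2 + (1 + 1 / η) * b ^ 2 := by
  have k2 : 0 ≤ (η * a - b) ^ 2 / η := by positivity
  have k3 : (η * a - b) ^ 2 / η = η * a ^ 2 - 2 * (a * b) + 1 / η * b ^ 2 := by
    field_simp
    ring
  nlinarith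

lemma sq_lo (a b : ℝ) {η : ℝ} (h0 : 0 < η) :
    (1 - η) * a ^ 2 - 1 / η * b ^ 2 ≤ (a + b) ^ 2 := by
  have k2 : 0 ≤ (η * a + b) ^ 2 / η := by positivity
  have k3 : (η * a + b) ^ 2 / η = η * a ^ 2 + 2 * (a * b) + 1 / η * b ^ 2 := by
    field_simp
    ring
  nlinarith [sq_nonneg b]

lemma sq3 (p q r : ℝ) : (p + q - r) ^ 2 ≤ 3 * (p ^ 2 + q ^ 2 + r ^ 2) := by
  nlinarith [sq_nonneg (p - q), sq_nonneg (p + r), sq_nonneg (q + r)]

lemma fin_alg {X c NH NY η w a2 U dd : ℝ} (h0 : 0 < η) (h1 : η ≤ 1) (w0 : 0 ≤ w) (ha0 : 0 ≤ a2)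
    (hU0 : 0 ≤ U) (hd0 : 0 ≤ dd) (NY0 : 0 ≤ NY) (hn : |NH - 6| ≤ 6 * η + 1116 / η * w)
    (bY : NY ≤ 3 * (8 * dd + 2 * a2 + 28 * (U * w)))
    (up : X ≤ (1 + η) * (c ^ 2 * NH) + (1 + 1 / η) * NY)
    (lo : (1 - η) * (c ^ 2 * NH) - 1 / η * NY ≤ X) :
    |X - 6 * c ^ 2| ≤ 18 * η * c ^ 2 + 2232 / η * (dd + a2 + (U + c ^ 2) * w) := by
  obtain ⟨n1, n2⟩ := abs_le.1 hn
  set q := 1116 / η * w with hq
  have q0 : 0 ≤ q := by positivity
  have c0 : 0 ≤ c ^ 2 := sq_nonneg c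
  have r3 : 1 / η * NY ≤ 1 / η * (3 * (8 * dd + 2 * a2 + 28 * (U * w))) :=
    mul_le_mul_of_nonneg_left bY (by positivity)
  have r4 : NY ≤ 1 / η * NY := by
    have : 1 ≤ 1 / η := by rw [le_div_iff₀ h0]; linarith
    exact le_mul_of_one_le_left NY0 this
  have r5 : c ^ 2 * NH ≤ c ^ 2 * (6 + 6 * η + q) := mul_le_mul_of_nonneg_left (by linarith) c0
  have r6 : c ^ 2 * (6 - 6 * η - q) ≤ c ^ 2 * NH := mul_le_mul_of_nonneg_left (by linarith) c0
  have r7 : (1 + η) * (c ^ 2 * NH) ≤ (1 + η) * (c ^ 2 * (6 + 6 * η + q)) :=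
    mul_le_mul_of_nonneg_left r5 (by linarith)
  have r8 : (1 - η) * (c ^ 2 * (6 - 6 * η - q)) ≤ (1 - η) * (c ^ 2 * NH) :=
    mul_le_mul_of_nonneg_left r6 (by linarith)
  have p4 : 0 ≤ c ^ 2 * q := by positivity
  have p5 : 0 ≤ η * c ^ 2 := by positivity
  have r9 : (1 + η) * (c ^ 2 * (6 + 6 * η + q)) ≤
      6 * c ^ 2 + 18 * (η * c ^ 2) + 2 * (c ^ 2 * q) := by
    have s1 : 0 ≤ (η * c ^ 2) * (1 - η) := mul_nonneg p5 (by linarith)
    have s2 : 0 ≤ (c ^ 2 * q) * (1 - η) := mul_nonneg p4 (by linarith)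
    have s3 : (1 + η) * (c ^ 2 * (6 + 6 * η + q)) = 6 * c ^ 2 + 12 * (η * c ^ 2) +
      6 * (η * c ^ 2 - (η * c ^ 2) * (1 - η)) + (2 * (c ^ 2 * q) - (c ^ 2 * q) * (1 - η)) := by ring
    rw [s3]
    linarith
  have r10 : 6 * c ^ 2 - 12 * (η * c ^ 2) - c ^ 2 * q ≤
      (1 - η) * (c ^ 2 * (6 - 6 * η - q)) := by
    have s1 : 0 ≤ c ^ 2 * η ^ 2 := by positivity
    have s2 : 0 ≤ (c ^ 2 * q) * η := by positivity
    have s3 : (1 - η) * (c ^ 2 * (6 - 6 * η - q)) = 6 * c ^ 2 - 12 * (η * c ^ 2) - c ^ 2 * q +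
      6 * (c ^ 2 * η ^ 2) + (c ^ 2 * q) * η := by ring
    rw [s3]
    linarith
  have p1 : 0 ≤ 1 / η * dd := by positivity
  have p2 : 0 ≤ 1 / η * a2 := by positivity
  have p3 : 0 ≤ 1 / η * (U * w) := by positivity
  have fin : 18 * η * c ^ 2 + 2232 / η * (dd + a2 + (U + c ^ 2) * w) = 18 * (η * c ^ 2) +
      (2232 * (1 / η * dd) + 2232 * (1 / η * a2) + 2232 * (1 / η * (U * w)) +
        2 * (c ^ 2 * q)) := by
    rw [hq]; ring
  have r12 : 1 / η * (3 * (8 * dd + 2 * a2 + 28 * (U * w))) =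
      24 * (1 / η * dd) + 6 * (1 / η * a2) + 84 * (1 / η * (U * w)) := by ring
  have e9 : (1 + 1 / η) * NY = NY + 1 / η * NY := by ring
  rw [r12] at r3
  rw [e9] at up
  rw [abs_le, fin]
  constructor
  · linarith
  · linarith

namespace Til

variable (h : Til W W1 W2 L)
include h

/-- the norm of the third Hermite polynomial in the weighted space. -/
lemma H3_norm {v : ι → ℝ} (hv : ∑ i, v i ^ 2 = 1) {θ : ℝ} (hθ : 0 < θ) :
    |∫ z, (W z)⁻¹ * H3 v z ^ 2 ∂(gI ι) - 6| ≤ 1674 * θ + 4 / θ * w22 W W2 := by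
  have ei := h.eg_inv
  have eH := eg_H3 v
  have eh : EG fun z => W z - 1 := h.d.g0.sub (EG.const 1)
  have e1 : ∫ z, (W z)⁻¹ * H3 v z ^ 2 ∂(gI ι) - 6 =
      ∫ z, -((W z)⁻¹ * (W z - 1) * H3 v z ^ 2) ∂(gI ι) := by
    rw [← H3_sq hv, ← integral_sub (ei.mul (eH.pow 2)).integrable (eH.pow 2).integrable]
    refine integral_congr_ae (Filter.Eventually.of_forall fun z => ?_)
    have := (h.pos z).ne'
    simp only
    field_simp
    ring
  rw [e1]
  refine (abs_integral_le_integral_abs).trans ?_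
  have e2 : ∫ z, |-((W z)⁻¹ * (W z - 1) * H3 v z ^ 2)| ∂(gI ι) ≤
      ∫ z, (θ / 2 * H3 v z ^ 4 + 1 / θ * ((W z)⁻¹ * (W z - 1) ^ 2)) ∂(gI ι) := by
    refine integral_mono ((ei.mul eh).mul (eH.pow 2)).neg.abs.integrable
      (((eH.pow 4).const_mul _).add ((ei.mul (eh.pow 2)).const_mul _)).integrable fun z => ?_
    show |-((W z)⁻¹ * (W z - 1) * H3 v z ^ 2)| ≤
      θ / 2 * H3 v z ^ 4 + 1 / θ * ((W z)⁻¹ * (W z - 1) ^ 2)
    have hi := h.inv_pos z
    have hi2 := h.inv_le z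
    rw [abs_neg]
    set iv := (W z)⁻¹ with hiv
    set a := W z - 1
    set b := H3 v z
    have k1 : |iv * a * b ^ 2| ≤ θ / 2 * b ^ 4 + 1 / (2 * θ) * (iv * a) ^ 2 := by
      rw [abs_le]
      constructor
      · have k2 : 0 ≤ (θ * b ^ 2 + iv * a) ^ 2 / (2 * θ) := by positivity
        have k3 : (θ * b ^ 2 + iv * a) ^ 2 / (2 * θ) =
            θ / 2 * b ^ 4 + iv * a * b ^ 2 + 1 / (2 * θ) * (iv * a) ^ 2 := by
          field_simp
          ring
        linarith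
      · have k2 : 0 ≤ (θ * b ^ 2 - iv * a) ^ 2 / (2 * θ) := by positivity
        have k3 : (θ * b ^ 2 - iv * a) ^ 2 / (2 * θ) =
            θ / 2 * b ^ 4 - iv * a * b ^ 2 + 1 / (2 * θ) * (iv * a) ^ 2 := by
          field_simp
          ring
        linarith
    have k4 : 1 / (2 * θ) * (iv * a) ^ 2 ≤ 1 / θ * (iv * a ^ 2) := by
      have k5 : (iv * a) ^ 2 ≤ 2 * (iv * a ^ 2) := by
        have : 0 ≤ (iv * a ^ 2) * (2 - iv) := mul_nonneg (by positivity) (by linarith)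
        nlinarith
      calc 1 / (2 * θ) * (iv * a) ^ 2 ≤ 1 / (2 * θ) * (2 * (iv * a ^ 2)) :=
            mul_le_mul_of_nonneg_left k5 (by positivity)
        _ = _ := by field_simp
    linarith
  refine e2.trans ?_
  rw [integral_add ((eH.pow 4).const_mul _).integrable ((ei.mul (eh.pow 2)).const_mul _).integrable,
    integral_const_mul, integral_const_mul, H3_four hv]
  have h1 := mul_le_mul_of_nonneg_left h.hh_le (by positivity : 0 ≤ 1 / θ)
  have h2 : 1 / θ * (4 * w22 W W2) = 4 / θ * w22 W W2 := by ring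
  linarith

variable {M : (ι → ℝ) → ℝ} {M1 : ι → (ι → ℝ) → ℝ} {M2 : ι → ι → (ι → ℝ) → ℝ}
  {M3 : ι → ι → ι → (ι → ℝ) → ℝ}

omit h in
/-- the remainder. -/
lemma d3_rem (hM : D3 M M1 M2 M3) (A v : ι → ℝ) (c : ℝ) :
    D3 (fun z => M z - lf A z - c * H3 v z)
      (fun i z => M1 i z - A i - c * ((3 * lf v z ^ 2 - 3) * v i))
      (fun i j z => M2 i j z - c * (6 * lf v z * (v i * v j)))
      (fun i j k z => M3 i j k z - c * (6 * (v i * v j * v k))) := by
  have hH := d3_H3 v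
  refine ⟨⟨(hM.g0.sub (eg_lf A)).sub (hH.g0.const_mul c),
    fun i => ((hM.g1 i).sub (EG.const _)).sub ((hH.g1 i).const_mul c),
    fun i j => (hM.g2 i j).sub ((hH.g2 i j).const_mul c),
    fun i => ((hM.d0 i).sub (pd_lf A i)).sub ((hH.d0 i).const_mul c),
    fun i j => PD.congr (((hM.d1 i j).sub (PD.const (A i))).sub ((hH.d1 i j).const_mul c))
      fun z => by ring⟩,
    fun i j k => (hM.g3 i j k).sub (EG.const _),
    fun i j k => PD.congr ((hM.d2 i j k).sub ((hH.d2 i j k).const_mul c)) fun z => by ring⟩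

/-- the remainder is small. -/
lemma rem_le (hM : D3 M M1 M2 M3) (ho : ∀ z, M (-z) = -M z) {A : ι → ℝ}
    (hA : ∀ i, ∫ z, M1 i z ∂(gI ι) = A i) {v : ι → ℝ} (hv : ∑ i, v i ^ 2 = 1) (c : ℝ) :
    ∫ z, (W z)⁻¹ * (M z - lf A z - c * H3 v z) ^ 2 ∂(gI ι) ≤ 8 * dl2 W M3 c v := by
  have hr := d3_rem hM A v c
  have hod : ∀ z, (M (-z) - lf A (-z) - c * H3 v (-z)) = -(M z - lf A z - c * H3 v z) := fun z => by
    rw [ho, lf_neg, H3_neg]; ring
  refine h.chain3 hr (integral_odd hr.g0.meas hod) (fun i => ?_) (hr.toD2.int2_odd hod)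
  have g := fun n : ℕ => ((eg_lf v).pow n)
  rw [integral_sub ((hM.g1 i).sub (EG.const _)).integrable
    (((((g 2).const_mul 3).sub (EG.const 3)).mul (EG.const (v i))).const_mul c).integrable,
    integral_sub (hM.g1 i).integrable (integrable_const _), integral_const_mul,
    integral_mul_const, integral_sub ((g 2).const_mul 3).integrable (integrable_const _),
    integral_const_mul, m2 hv, hA]
  simp

/-- the remainder with the linear terms. -/
lemma Y_le (hM : D3 M M1 M2 M3) (ho : ∀ z, M (-z) = -M z) {A : ι → ℝ}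
    (hA : ∀ i, ∫ z, M1 i z ∂(gI ι) = A i) {v : ι → ℝ} (hv : ∑ i, v i ^ 2 = 1) (c : ℝ)
    (u : ι → ℝ) :
    ∫ z, (W z)⁻¹ * ((M z - lf A z - c * H3 v z) + lf (fun i => A i - u i) z -
      (W z - 1) * lf u z) ^ 2 ∂(gI ι) ≤ 3 * (8 * dl2 W M3 c v + 2 * ∑ i, (A i - u i) ^ 2 +
        28 * ((∑ i, u i ^ 2) * w22 W W2)) := by
  have ei := h.eg_inv
  have eR : EG fun z => M z - lf A z - c * H3 v z := (d3_rem hM A v c).g0
  have eh : EG fun z => (W z - 1) * lf u z := (h.d.g0.sub (EG.const 1)).mul (eg_lf u)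
  have b1 := h.rem_le hM ho hA hv c
  have b2 : ∫ z, (W z)⁻¹ * lf (fun i => A i - u i) z ^ 2 ∂(gI ι) ≤ 2 * ∑ i, (A i - u i) ^ 2 := by
    rw [← lf_sq, ← integral_const_mul]
    exact integral_mono (ei.mul ((eg_lf _).pow 2)).integrable (((eg_lf _).pow 2).const_mul 2).integrable
      fun z => mul_le_mul_of_nonneg_right (h.inv_le z) (sq_nonneg _)
  have b3 := h.hu_le u
  have c1 := integral_mono (ei.mul (((eR.add (eg_lf (fun i => A i - u i))).sub eh).pow 2)).integrable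
    ((((ei.mul (eR.pow 2)).add (ei.mul ((eg_lf (fun i => A i - u i)).pow 2))).add
      (ei.mul (eh.pow 2))).const_mul 3).integrable
    fun z => by
      show (W z)⁻¹ * ((M z - lf A z - c * H3 v z) + lf (fun i => A i - u i) z -
        (W z - 1) * lf u z) ^ 2 ≤ 3 * ((W z)⁻¹ * (M z - lf A z - c * H3 v z) ^ 2 +
        (W z)⁻¹ * lf (fun i => A i - u i) z ^ 2 + (W z)⁻¹ * ((W z - 1) * lf u z) ^ 2)
      have c3 := mul_le_mul_of_nonneg_left (sq3 (M z - lf A z - c * H3 v z)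
        (lf (fun i => A i - u i) z) ((W z - 1) * lf u z)) (h.inv_pos z).le
      linarith
  rw [integral_const_mul, integral_add ((ei.mul (eR.pow 2)).add
    (ei.mul ((eg_lf (fun i => A i - u i)).pow 2))).integrable (ei.mul (eh.pow 2)).integrable,
    integral_add (ei.mul (eR.pow 2)).integrable
    (ei.mul ((eg_lf (fun i => A i - u i)).pow 2)).integrable] at c1
  linarith

/-- norms in the weighted space. -/
lemma norm_two {a b : (ι → ℝ) → ℝ} (ea : EG a) (eb : EG b) {η : ℝ} (h0 : 0 < η) :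
    ∫ z, (W z)⁻¹ * (a z + b z) ^ 2 ∂(gI ι) ≤
      (1 + η) * ∫ z, (W z)⁻¹ * a z ^ 2 ∂(gI ι) + (1 + 1 / η) * ∫ z, (W z)⁻¹ * b z ^ 2 ∂(gI ι) ∧
    (1 - η) * ∫ z, (W z)⁻¹ * a z ^ 2 ∂(gI ι) - 1 / η * ∫ z, (W z)⁻¹ * b z ^ 2 ∂(gI ι) ≤
      ∫ z, (W z)⁻¹ * (a z + b z) ^ 2 ∂(gI ι) := by
  have ei := h.eg_inv
  have eA := ei.mul (ea.pow 2)
  have eB := ei.mul (eb.pow 2)
  constructor
  · rw [← integral_const_mul, ← integral_const_mul,
      ← integral_add (eA.const_mul _).integrable (eB.const_mul _).integrable]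
    refine integral_mono (ei.mul ((ea.add eb).pow 2)).integrable
      ((eA.const_mul _).add (eB.const_mul _)).integrable fun z => ?_
    have k4 := mul_le_mul_of_nonneg_left (sq_up (a z) (b z) h0) (h.inv_pos z).le
    simp only
    linarith
  · rw [← integral_const_mul, ← integral_const_mul,
      ← integral_sub (eA.const_mul _).integrable (eB.const_mul _).integrable]
    refine integral_mono ((eA.const_mul _).sub (eB.const_mul _)).integrable
      (ei.mul ((ea.add eb).pow 2)).integrable fun z => ?_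
    have k4 := mul_le_mul_of_nonneg_left (sq_lo (a z) (b z) h0) (h.inv_pos z).le
    simp only
    linarith

/-- **The square of `M - W u·z` in the weighted space**: the contribution of the third chaos
comes with its constant. -/
theorem c3_two (hM : D3 M M1 M2 M3) (ho : ∀ z, M (-z) = -M z) {A : ι → ℝ}
    (hA : ∀ i, ∫ z, M1 i z ∂(gI ι) = A i) {v : ι → ℝ} (hv : ∑ i, v i ^ 2 = 1) (c : ℝ)
    (u : ι → ℝ) {η : ℝ} (h0 : 0 < η) (h1 : η ≤ 1) :
    |∫ z, (W z)⁻¹ * (M z - W z * lf u z) ^ 2 ∂(gI ι) - 6 * c ^ 2| ≤ 18 * η * c ^ 2 +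
      2232 / η * (dl2 W M3 c v + ∑ i, (A i - u i) ^ 2 +
        (∑ i, u i ^ 2 + c ^ 2) * w22 W W2) := by
  have eR : EG fun z => M z - lf A z - c * H3 v z := (d3_rem hM A v c).g0
  have eh : EG fun z => (W z - 1) * lf u z := (h.d.g0.sub (EG.const 1)).mul (eg_lf u)
  have hX : ∀ z, M z - W z * lf u z = c * H3 v z + ((M z - lf A z - c * H3 v z) +
      lf (fun i => A i - u i) z - (W z - 1) * lf u z) := fun z => by
    unfold lf
    simp only [sub_mul, Finset.sum_sub_distrib]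
    ring
  have bY := h.Y_le hM ho hA hv c u
  obtain ⟨up, lo⟩ := h.norm_two ((eg_H3 v).const_mul c) ((eR.add (eg_lf (fun i => A i - u i))).sub
    eh) h0
  simp only [← hX] at up lo
  have hc : ∫ z, (W z)⁻¹ * (c * H3 v z) ^ 2 ∂(gI ι) = c ^ 2 * ∫ z, (W z)⁻¹ * H3 v z ^ 2 ∂(gI ι) := by
    rw [← integral_const_mul]
    exact integral_congr_ae (Filter.Eventually.of_forall fun z => by ring)
  rw [hc] at up lo
  have hn := h.H3_norm hv (θ := η / 279) (by positivity)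
  have hn1 : 1674 * (η / 279) + 4 / (η / 279) * w22 W W2 = 6 * η + 1116 / η * w22 W W2 := by
    field_simp
    ring
  rw [hn1] at hn
  refine fin_alg h0 h1 h.w22_nonneg (Finset.sum_nonneg fun i _ => sq_nonneg _)
    (Finset.sum_nonneg fun i _ => sq_nonneg _) ?_ ?_ hn bY up lo
  · exact Finset.sum_nonneg fun i _ => Finset.sum_nonneg fun j _ =>
      Finset.sum_nonneg fun k _ => integral_nonneg fun z =>
        mul_nonneg (h.inv_pos z).le (sq_nonneg _)
  · exact integral_nonneg fun z => mul_nonneg (h.inv_pos z).le (sq_nonneg _)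

end Til

end Vale.Agent.P146.H498
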