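import Vale.Agent.P146.H498.C3a

/-!
Poincaré inequality with the weight `1 / W` for functions which are centred for the Gaussian
measure, and the square of an odd numerator in the space with this weight.
-/

open MeasureTheory ProbabilityTheory

namespace Vale.Agent.P146.H498

open Vale.Agent.P157.Lv Vale.Agent.P146.H425 Vale.Agent.P146.H946

set_option linter.unusedSectionVars false

variable {ι : Type} [Fintype ι] [DecidableEq ι]

/-- An even density with a small logarithmic gradient. -/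
structure Til (W : (ι → ℝ) → ℝ) (W1 : ι → (ι → ℝ) → ℝ) (W2 : ι → ι → (ι → ℝ) → ℝ) (L : ℝ) :
    Prop where
  d : D2 W W1 W2
  lb : ∀ z, 1 / 2 ≤ W z
  ev : ∀ z, W (-z) = W z
  one : ∫ z, W z ∂(gI ι) = 1
  L0 : 0 < L
  L1 : L ≤ 1 / 2
  grad : ∀ z, ∑ e, W1 e z ^ 2 ≤ L ^ 2 * W z ^ 2

variable {W : (ι → ℝ) → ℝ} {W1 : ι → (ι → ℝ) → ℝ} {W2 : ι → ι → (ι → ℝ) → ℝ} {L : ℝ}

namespace Til

variable (h : Til W W1 W2 L)
include h

lemma pos (z : ι → ℝ) : 0 < W z := lt_of_lt_of_le (by norm_num) (h.lb z)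

lemma inv_pos (z : ι → ℝ) : 0 < (W z)⁻¹ := _root_.inv_pos.2 (h.pos z)

lemma inv_le (z : ι → ℝ) : (W z)⁻¹ ≤ 2 := by
  have := inv_anti₀ (by norm_num : (0 : ℝ) < 1 / 2) (h.lb z)
  simpa using this

lemma eg_inv : EG fun z => (W z)⁻¹ :=
  EG.of_bdd h.d.g0.meas.inv (C := 2) fun z => by
    rw [abs_of_pos (h.inv_pos z)]
    exact h.inv_le z

lemma eg_lgd (e : ι) : EG fun z => W1 e z / W z := by
  refine EG.of_bdd ((h.d.g1 e).meas.div h.d.g0.meas) (C := L) fun z => ?_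
  rw [abs_div, abs_of_pos (h.pos z), div_le_iff₀ (h.pos z)]
  refine abs_le_of_sq_le_sq ?_ (mul_nonneg h.L0.le (h.pos z).le)
  rw [mul_pow]
  exact (Finset.single_le_sum (f := fun e => W1 e z ^ 2) (fun i _ => sq_nonneg _)
    (Finset.mem_univ e)).trans (h.grad z)

lemma lgd (z : ι → ℝ) : ∑ e, (W1 e z / W z) ^ 2 ≤ L ^ 2 := by
  have h1 := h.grad z
  have h2 := h.pos z
  simp only [div_pow]
  rw [← Finset.sum_div, div_le_iff₀ (by positivity)]
  exact h1

lemma pd_log (e : ι) : PD e (fun z => Real.log (W z)) (fun z => W1 e z / W z) :=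
  (h.d.d0 e).log fun z => (h.pos z).ne'

end Til

/-- `W ^ (-1/2)`. -/
noncomputable def rr (W : (ι → ℝ) → ℝ) (z : ι → ℝ) : ℝ := Real.exp (-(1 / 2) * Real.log (W z))

/-- `W ^ (1/2)`. -/
noncomputable def qq (W : (ι → ℝ) → ℝ) (z : ι → ℝ) : ℝ := Real.exp (1 / 2 * Real.log (W z))

namespace Til

variable (h : Til W W1 W2 L)
include h

lemma rr_sq (z : ι → ℝ) : rr W z ^ 2 = (W z)⁻¹ := by
  unfold rr
  rw [← Real.exp_nat_mul, ← Real.exp_log (h.inv_pos z), Real.log_inv]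
  congr 1
  push_cast
  ring

lemma qq_sq (z : ι → ℝ) : qq W z ^ 2 = W z := by
  unfold qq
  rw [← Real.exp_nat_mul]
  conv_rhs => rw [← Real.exp_log (h.pos z)]
  congr 1
  push_cast
  ring

lemma rr_mul_qq (z : ι → ℝ) : rr W z * qq W z = 1 := by
  unfold rr qq
  rw [← Real.exp_add, ← Real.exp_zero]
  congr 1
  ring

lemma meas_log : Measurable fun z => Real.log (W z) := h.d.g0.meas.log

lemma eg_rr : EG (rr W) := by
  refine EG.of_bdd (C := 2) (Real.measurable_exp.comp (h.meas_log.const_mul _)) fun z => ?_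
  refine abs_le_of_sq_le_sq ?_ (by norm_num)
  rw [h.rr_sq]
  exact (h.inv_le z).trans (by norm_num)

lemma eg_qq : EG (qq W) := by
  refine ((EG.const 1).add h.d.g0).mono (Real.measurable_exp.comp (h.meas_log.const_mul _))
    fun z => ?_
  have h1 := h.pos z
  rw [abs_of_pos (by positivity : 0 < 1 + W z)]
  refine abs_le_of_sq_le_sq ?_ (by positivity)
  rw [h.qq_sq]
  nlinarith

lemma pd_rr (e : ι) : PD e (rr W) (fun z => rr W z * (-(1 / 2) * (W1 e z / W z))) :=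
  ((h.pd_log e).const_mul _).exp

lemma pd_qq (e : ι) : PD e (qq W) (fun z => qq W z * (1 / 2 * (W1 e z / W z))) :=
  ((h.pd_log e).const_mul _).exp

/-- the mean of `W ^ (1/2)`. -/
lemma qq_var : 1 - (∫ z, qq W z ∂(gI ι)) ^ 2 ≤ L ^ 2 / 4 := by
  have h1 := cc_var_le_one h.eg_qq h.pd_qq fun e => h.eg_qq.mul ((h.eg_lgd e).const_mul _)
  set a := ∫ z, qq W z ∂(gI ι) with ha
  have h2 : ∫ z, (qq W z - a) ^ 2 ∂(gI ι) = 1 - a ^ 2 := by
    have e : ∀ z, (qq W z - a) ^ 2 = (W z - (2 * a) * qq W z) + a ^ 2 := fun z => by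
      rw [← h.qq_sq]; ring
    simp only [e]
    rw [integral_add ((h.d.g0.sub (h.eg_qq.const_mul _)).integrable) (integrable_const _),
      integral_sub h.d.g0.integrable (h.eg_qq.const_mul _).integrable, integral_const_mul, h.one,
      ← ha]
    simp
    ring
  rw [h2] at h1
  refine h1.trans ?_
  rw [← integral_finsetSum _ fun e _ =>
    ((h.eg_qq.mul ((h.eg_lgd e).const_mul _)).pow 2).integrable]
  have h3 : L ^ 2 / 4 = ∫ z, L ^ 2 / 4 * W z ∂(gI ι) := by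
    rw [integral_const_mul, h.one, mul_one]
  rw [h3]
  refine integral_mono (EG.sum _ fun e _ => (h.eg_qq.mul ((h.eg_lgd e).const_mul _)).pow
    2).integrable (h.d.g0.const_mul _).integrable fun z => ?_
  show ∑ e, (qq W z * (1 / 2 * (W1 e z / W z))) ^ 2 ≤ L ^ 2 / 4 * W z
  have h4 : ∀ e, (qq W z * (1 / 2 * (W1 e z / W z))) ^ 2 = W z / 4 * (W1 e z / W z) ^ 2 :=
    fun e => by
      rw [mul_pow, h.qq_sq]; ring
  simp only [h4]
  rw [← Finset.mul_sum]
  have h5 := mul_le_mul_of_nonneg_left (h.lgd z) (by have := h.pos z; positivity : 0 ≤ W z / 4)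
  linarith

/-- **Tilted Poincaré inequality.** -/
theorem tp {f : (ι → ℝ) → ℝ} {f1 : ι → (ι → ℝ) → ℝ} (hf : EG f) (hd : ∀ e, PD e f (f1 e))
    (hf1 : ∀ e, EG (f1 e)) (h0 : ∫ z, f z ∂(gI ι) = 0) :
    ∫ z, (W z)⁻¹ * f z ^ 2 ∂(gI ι) ≤ 2 * ∑ e, ∫ z, (W z)⁻¹ * f1 e z ^ 2 ∂(gI ι) := by
  have L0 := h.L0
  have L1 := h.L1
  set F : (ι → ℝ) → ℝ := fun z => f z * rr W z with hF
  set F1 : ι → (ι → ℝ) → ℝ := fun e z => f1 e z * rr W z +
    f z * (rr W z * (-(1 / 2) * (W1 e z / W z))) with hF1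
  have eF : EG F := hf.mul h.eg_rr
  have eF1 : ∀ e, EG (F1 e) := fun e => ((hf1 e).mul h.eg_rr).add
    (hf.mul (h.eg_rr.mul ((h.eg_lgd e).const_mul _)))
  have pF : ∀ e, PD e F (F1 e) := fun e => (hd e).mul (h.pd_rr e)
  have h1 := cc_var_le_one eF pF eF1
  set m := ∫ z, F z ∂(gI ι) with hm
  set I := ∫ z, (W z)⁻¹ * f z ^ 2 ∂(gI ι) with hI
  set Kk := ∑ e, ∫ z, (W z)⁻¹ * f1 e z ^ 2 ∂(gI ι) with hK
  have hFI : ∫ z, F z ^ 2 ∂(gI ι) = I := by
    rw [hI]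
    refine integral_congr_ae (Filter.Eventually.of_forall fun z => ?_)
    show (f z * rr W z) ^ 2 = _
    rw [mul_pow, h.rr_sq]; ring
  have h2 : ∫ z, (F z - m) ^ 2 ∂(gI ι) = I - m ^ 2 := by
    have e : ∀ z, (F z - m) ^ 2 = (F z ^ 2 - (2 * m) * F z) + m ^ 2 := fun z => by ring
    simp only [e]
    rw [integral_add (((eF.pow 2).sub (eF.const_mul _)).integrable) (integrable_const _),
      integral_sub (eF.pow 2).integrable (eF.const_mul _).integrable, integral_const_mul, hFI,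
      ← hm]
    simp
    ring
  -- the mean
  have hI0 : 0 ≤ I := integral_nonneg fun z => mul_nonneg (h.inv_pos z).le (sq_nonneg _)
  have hm2 : m ^ 2 ≤ L ^ 2 / 4 * I := by
    set a := ∫ z, qq W z ∂(gI ι) with ha
    have hv := h.qq_var
    rw [← ha] at hv
    have eG : EG fun z => 1 - a * qq W z := (EG.const 1).sub (h.eg_qq.const_mul _)
    have g1 : ∫ z, F z * (1 - a * qq W z) ∂(gI ι) = m := by
      have e : ∀ z, F z * (1 - a * qq W z) = F z - a * f z := fun z => by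
        have := h.rr_mul_qq z
        rw [hF]
        simp only
        calc f z * rr W z * (1 - a * qq W z) = f z * rr W z - a * f z * (rr W z * qq W z) := by
              ring
          _ = _ := by rw [this]; ring
      simp only [e]
      rw [integral_sub eF.integrable (hf.const_mul _).integrable, integral_const_mul, h0, ← hm]
      ring
    have g2 : ∫ z, (1 - a * qq W z) ^ 2 ∂(gI ι) = 1 - a ^ 2 := by
      have e : ∀ z, (1 - a * qq W z) ^ 2 = (a ^ 2 * W z - (2 * a) * qq W z) + 1 := fun z => by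
        rw [← h.qq_sq]; ring
      simp only [e]
      rw [integral_add (((h.d.g0.const_mul _).sub (h.eg_qq.const_mul _)).integrable)
        (integrable_const _), integral_sub (h.d.g0.const_mul _).integrable
        (h.eg_qq.const_mul _).integrable, integral_const_mul, integral_const_mul, h.one, ← ha]
      simp
      ring
    have g3 : ∫ z, (2 * m) * (F z * (1 - a * qq W z)) ∂(gI ι) ≤
        ∫ z, (L ^ 2 / 4 * F z ^ 2 + 4 / L ^ 2 * m ^ 2 * (1 - a * qq W z) ^ 2) ∂(gI ι) := by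
      refine integral_mono ((eF.mul eG).const_mul _).integrable
        (((eF.pow 2).const_mul _).add ((eG.pow 2).const_mul _)).integrable fun z => ?_
      show 2 * m * (F z * (1 - a * qq W z)) ≤
        L ^ 2 / 4 * F z ^ 2 + 4 / L ^ 2 * m ^ 2 * (1 - a * qq W z) ^ 2
      have g4 : 0 ≤ (L / 2 * F z - 2 / L * m * (1 - a * qq W z)) ^ 2 := sq_nonneg _
      have g5 : (L / 2 * F z - 2 / L * m * (1 - a * qq W z)) ^ 2 =
          L ^ 2 / 4 * F z ^ 2 - 2 * m * (F z * (1 - a * qq W z)) +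
            4 / L ^ 2 * m ^ 2 * (1 - a * qq W z) ^ 2 := by
        field_simp
        ring
      linarith
    rw [integral_const_mul, g1, integral_add ((eF.pow 2).const_mul _).integrable
      ((eG.pow 2).const_mul _).integrable, integral_const_mul, integral_const_mul, hFI, g2] at g3
    have g6 : 4 / L ^ 2 * m ^ 2 * (1 - a ^ 2) ≤ 4 / L ^ 2 * m ^ 2 * (L ^ 2 / 4) :=
      mul_le_mul_of_nonneg_left hv (by positivity)
    have g7 : 4 / L ^ 2 * m ^ 2 * (L ^ 2 / 4) = m ^ 2 := by field_simp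
    nlinarith
  -- the gradient
  have h3 : ∑ e, ∫ z, F1 e z ^ 2 ∂(gI ι) ≤ (1 + L) * Kk + (1 + 1 / L) * (L ^ 2 / 4) * I := by
    rw [hK, hI, ← integral_finsetSum _ fun e _ => ((eF1 e).pow 2).integrable,
      ← integral_finsetSum _ fun e _ => (h.eg_inv.mul ((hf1 e).pow 2)).integrable,
      ← integral_const_mul, ← integral_const_mul, ← integral_add]
    · refine integral_mono (EG.sum _ fun e _ => (eF1 e).pow 2).integrable ?_ fun z => ?_
      · exact (((EG.sum _ fun e _ => h.eg_inv.mul ((hf1 e).pow 2)).const_mul _).add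
          ((h.eg_inv.mul (hf.pow 2)).const_mul _)).integrable
      · show ∑ e, F1 e z ^ 2 ≤ (1 + L) * ∑ e, (W z)⁻¹ * f1 e z ^ 2 +
          (1 + 1 / L) * (L ^ 2 / 4) * ((W z)⁻¹ * f z ^ 2)
        have k1 : ∀ e, F1 e z ^ 2 ≤ (1 + L) * ((W z)⁻¹ * f1 e z ^ 2) +
            (1 + 1 / L) * ((W z)⁻¹ * f z ^ 2 / 4) * (W1 e z / W z) ^ 2 := by
          intro e
          rw [hF1, ← h.rr_sq]
          simp only
          set p := f1 e z * rr W z with hp
          set q := f z * (rr W z * (-(1 / 2) * (W1 e z / W z))) with hq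
          have k2 : (p + q) ^ 2 ≤ (1 + L) * p ^ 2 + (1 + 1 / L) * q ^ 2 := by
            have k3 : 0 ≤ (L * p - q) ^ 2 / L := by positivity
            have k4 : (L * p - q) ^ 2 / L = L * p ^ 2 - 2 * (p * q) + 1 / L * q ^ 2 := by
              field_simp
              ring
            nlinarith
          refine k2.trans (le_of_eq ?_)
          rw [hp, hq]
          ring
        refine (Finset.sum_le_sum fun e _ => k1 e).trans ?_
        have k5 := mul_le_mul_of_nonneg_left (h.lgd z)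
          (by have := h.inv_pos z; positivity : 0 ≤ (1 + 1 / L) * ((W z)⁻¹ * f z ^ 2 / 4))
        rw [Finset.mul_sum] at k5
        rw [Finset.sum_add_distrib, ← Finset.mul_sum]
        have k7 : (1 + 1 / L) * ((W z)⁻¹ * f z ^ 2 / 4) * L ^ 2 =
          (1 + 1 / L) * (L ^ 2 / 4) * ((W z)⁻¹ * f z ^ 2) := by ring
        linarith
    · exact ((EG.sum _ fun e _ => h.eg_inv.mul ((hf1 e).pow 2)).const_mul _).integrable
    · exact ((h.eg_inv.mul (hf.pow 2)).const_mul _).integrable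
  rw [h2] at h1
  have hK0 : 0 ≤ Kk := Finset.sum_nonneg fun e _ =>
    integral_nonneg fun z => mul_nonneg (h.inv_pos z).le (sq_nonneg _)
  have e1 : (1 + 1 / L) * (L ^ 2 / 4) = (L ^ 2 + L) / 4 := by field_simp
  rw [e1] at h3
  have e2 : I * (3 / 4) ≤ I * (1 - L / 4 - L ^ 2 / 2) :=
    mul_le_mul_of_nonneg_left (by nlinarith) hI0
  have e3 : (1 + L) * Kk ≤ 3 / 2 * Kk := mul_le_mul_of_nonneg_right (by linarith) hK0
  nlinarith

/-- two tilted Poincaré inequalities. -/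
lemma chain2 {f : (ι → ℝ) → ℝ} {f1 : ι → (ι → ℝ) → ℝ} {f2 : ι → ι → (ι → ℝ) → ℝ}
    (hf : D2 f f1 f2) (h0 : ∫ z, f z ∂(gI ι) = 0) (h1 : ∀ i, ∫ z, f1 i z ∂(gI ι) = 0) :
    ∫ z, (W z)⁻¹ * f z ^ 2 ∂(gI ι) ≤ 2 * ∑ i, ∫ z, (W z)⁻¹ * f1 i z ^ 2 ∂(gI ι) ∧
      ∑ i, ∫ z, (W z)⁻¹ * f1 i z ^ 2 ∂(gI ι) ≤
        2 * ∑ i, ∑ j, ∫ z, (W z)⁻¹ * f2 i j z ^ 2 ∂(gI ι) := by
  refine ⟨h.tp hf.g0 hf.d0 hf.g1 h0, ?_⟩
  rw [Finset.mul_sum]
  exact Finset.sum_le_sum fun i _ => h.tp (hf.g1 i) (hf.d1 i) (hf.g2 i) (h1 i)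

/-- three tilted Poincaré inequalities. -/
lemma chain3 {f : (ι → ℝ) → ℝ} {f1 : ι → (ι → ℝ) → ℝ} {f2 : ι → ι → (ι → ℝ) → ℝ}
    {f3 : ι → ι → ι → (ι → ℝ) → ℝ}
    (hf : D3 f f1 f2 f3) (h0 : ∫ z, f z ∂(gI ι) = 0) (h1 : ∀ i, ∫ z, f1 i z ∂(gI ι) = 0)
    (h2 : ∀ i j, ∫ z, f2 i j z ∂(gI ι) = 0) :
    ∫ z, (W z)⁻¹ * f z ^ 2 ∂(gI ι) ≤
      8 * ∑ i, ∑ j, ∑ k, ∫ z, (W z)⁻¹ * f3 i j k z ^ 2 ∂(gI ι) := by
  obtain ⟨a, b⟩ := h.chain2 hf.toD2 h0 h1
  have c : ∑ i, ∑ j, ∫ z, (W z)⁻¹ * f2 i j z ^ 2 ∂(gI ι) ≤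
      2 * ∑ i, ∑ j, ∑ k, ∫ z, (W z)⁻¹ * f3 i j k z ^ 2 ∂(gI ι) := by
    rw [Finset.mul_sum]
    refine Finset.sum_le_sum fun i _ => ?_
    rw [Finset.mul_sum]
    exact Finset.sum_le_sum fun j _ => h.tp (hf.g2 i j) (hf.d2 i j) (hf.g3 i j) (h2 i j)
  linarith

end Til

end Vale.Agent.P146.H498
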