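import Vale.Agent.P146.H498.D3c
import Vale.Agent.P146.H694.K6d

/-!
# P146: the third order term of a typical system

`d3_can`: any levels. `hc3_n`: the hypothesis `hC3` of `H694.br_n` for
`Θ t2 t1 u = Th3 n b (c3 t2 t1) (cf vp u) s η lam c x`, with the closed number `R3n`.
-/

open MeasureTheory ProbabilityTheory

namespace Vale.Agent.P146.C3Amp

open Vale.Agent.P157.Lv hiding Dep
open Vale.Agent.P146.H425 Vale.Agent.P146.H646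
open Vale.Agent.P146.H325 hiding cb cf
open Vale.Agent.P146.H196 Vale.Agent.P146.H246 Vale.Agent.P146.H347
  Vale.Agent.P146.H816 Vale.Agent.P146.H119 Vale.Agent.P146.H475 Vale.Agent.P146.H418
  Vale.Agent.P146.H615 Vale.Agent.P146.H320 Vale.Agent.P146.H161 Vale.Agent.P146.H317
  Vale.Agent.P146.H694 Vale.Agent.P146.H412

set_option linter.all false

/-- the number of the covariances of the pairs -/
noncomputable def k4N (L : Law) (U dt : ℝ) : ℝ := 14 * U ^ 2 / (L.n * L.x ^ 2 * L.b ^ 2 * dt)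

/-- the tail of the second moment of the overlap at all the shares `t ≤ tm` -/
def TailC (L : Law) (tm U pC : ℝ) : Prop :=
  ∀ (S : Finset (Fin L.n)) (t u : ℝ), 0 ≤ t → t ≤ tm → 0 ≤ u → u ≤ 1 →
    L.ex' t u (H317.ind (U ^ 2) (H412.CC L S t u)) ≤ pC

section num

variable {L : Law}

lemma rb_k4N (h : Adm L) (hx0 : 0 < L.x) {U dt da rb pp : ℝ} (hdt : 0 < dt)
    (hda : dt ≤ da) (hpp : pp ≤ (L.n : ℝ) ^ 2 * U ^ 2) (hrb0 : 0 ≤ rb)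
    (hrb : L.x ^ 2 * (L.b ^ 2 / L.n) * da * rb ≤ 14 * pp) :
    rb ≤ (L.n : ℝ) ^ 4 * k4N L U dt := by
  have hn : (0 : ℝ) < L.n := by exact_mod_cast h.n0
  have hb := h.b0
  have hp : 0 < L.x ^ 2 * (L.b ^ 2 / L.n) * dt := by positivity
  have h1 : L.x ^ 2 * (L.b ^ 2 / L.n) * dt * rb ≤ L.x ^ 2 * (L.b ^ 2 / L.n) * da * rb := by
    gcongr
  have h2 : rb ≤ 14 * ((L.n : ℝ) ^ 2 * U ^ 2) / (L.x ^ 2 * (L.b ^ 2 / L.n) * dt) := by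
    rw [le_div_iff₀ hp]
    linarith
  refine h2.trans (le_of_eq ?_)
  unfold k4N
  field_simp

/-- the two numbers of the direction of the row -/
lemma dd_can {LB LF : Type} [Fintype LB] [DecidableEq LB] [Fintype LF] [DecidableEq LF]
    {cB : LB → ℝ} {cF : LF → ℝ} {BL : Finset LB} {FL : Finset LF} {t u : ℝ}
    (h : Adm L) (hη1 : L.η ≤ 1 / 2) (hs0 : L.s ≠ 0) (hx1 : L.x < 1) {r0 : ℝ}
    (hk0 : 0 ≤ 1 - (1 - L.x) * r0) (hk1 : 1 - (1 - L.x) * r0 ≤ 1) (hr0 : |r0| ≤ 1)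
    (hb : 1 ≤ L.b) (hs : Sh cB cF BL FL 1 (√L.vp) t u) (ht0 : 0 ≤ t) (ht1 : t ≤ 1)
    (hu0 : 0 ≤ u) (hu1 : u ≤ 1) {m : ℕ} (hm : 0 < m) (hmn : m ≤ L.n)
    {U hh g p : ℝ} (hU0 : 0 < U) (hU1 : U ≤ 1) (hvU : L.vp ≤ L.b ^ 2 * U)
    (hh1 : 1 / √(m : ℝ) ≤ hh) (hg : L.lam / (L.s ^ 2 * L.n) ≤ g) (hp : 0 ≤ p)
    (hCC : L.ex' t u (H412.CC L Finset.univ t u) ≤ U ^ 2) (hPst : PstL L t u ≤ p ^ 2) :
    L.b ^ 2 / L.n * t * d0 L.n L.b cB cF L.s L.η L.lam L.c L.x r0 (Kset (Sn L.n m) BL FL)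
        (Kset Finset.univ BL FL) ((Finset.univ : Finset (Fin L.n)) \ Sn L.n m).card ^ 2 +
      L.b ^ 2 * (u * L.vp / L.b ^ 2) * H646.d0f L.n L.b cB cF L.s L.η L.lam L.c L.x r0
        ((Finset.univ : Finset (Fin L.n)) \ Sn L.n m).card ^ 2 ≤
      125 * L.b ^ 2 * (U * (hh + g) ^ 2 + p ^ 2 + L.vp * L.η ^ 2) := by
  have hn : (0 : ℝ) < L.n := by exact_mod_cast h.n0
  have hb0 := h.b0
  have hv0 := h.vp0
  have hl0 := h.lam0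
  have hcard : ((Finset.univ : Finset (Fin L.n)) \ Sn L.n m).card = m := card_hidden hmn
  have hP := Pst_can h hs ht0 ht1 hu0 hu1
  have hP0 : 0 ≤ Pst L.n L.b cB cF L.s L.η L.lam L.c L.x :=
    Pst_nonneg (n := L.n) (b := L.b) (cB := cB) (cF := cF) (s := L.s) (c := L.c) (x := L.x)
      h.lam0 h.η0
  have hP1 : Pst L.n L.b cB cF L.s L.η L.lam L.c L.x ≤ p ^ 2 := by
    rw [hP]
    exact hPst
  have hR1 : R2 L.n L.b cB cF L.s L.η L.lam L.c L.x (Kset Finset.univ BL FL) ≤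
      (L.n * U) ^ 2 := by
    rw [R2_can h hs ht0 ht1 hu0 hu1, mul_pow]
    exact mul_le_mul_of_nonneg_left hCC (by positivity)
  have hR : R2 L.n L.b cB cF L.s L.η L.lam L.c L.x (Kset (Sn L.n m) BL FL) ≤ (L.n * U) ^ 2 :=
    (R2_mono h.lam0 h.η0 (Kset_mono (Finset.subset_univ _) (Finset.Subset.refl _)
      (Finset.Subset.refl _))).trans hR1
  have hh0 : 0 ≤ hh := le_trans (by positivity) hh1
  have hs2 : 0 < L.s ^ 2 := by positivity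
  have hg0 : 0 ≤ g := le_trans (by positivity) hg
  have k1 := d0_num (n := L.n) (b := L.b) (cB := cB) (cF := cF) (c := L.c) (D := m) (h := hh)
    (g := g) (p := p) (U := U) h.n0 hs0 h.lam0 h.η0 hη1 h.x0 hx1 hr0 hU0.le hm hh1 hg hp hR hR1
    hP0 hP1
  have k2 := d0f_num (n := L.n) (b := L.b) (cB := cB) (cF := cF) (c := L.c) (D := m) (h := hh)
    (g := g) (p := p) h.n0 hs0 h.lam0 h.η0 hη1 h.x0 hx1 hr0 hk0 hk1 hm hh1 hg hp hP0 hP1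
  have hx2 : 0 ≤ 1 - L.x := by linarith
  have k3 : 0 ≤ d0 L.n L.b cB cF L.s L.η L.lam L.c L.x r0 (Kset (Sn L.n m) BL FL)
      (Kset Finset.univ BL FL) m := by
    unfold d0
    exact add_nonneg (Real.sqrt_nonneg _) (mul_nonneg hx2 (Real.sqrt_nonneg _))
  have k4 : 0 ≤ H646.d0f L.n L.b cB cF L.s L.η L.lam L.c L.x r0 m := by
    unfold H646.d0f
    exact add_nonneg (add_nonneg (Real.sqrt_nonneg _) (mul_nonneg hx2 (Real.sqrt_nonneg _)))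
      (mul_nonneg (abs_nonneg _) h.η0)
  have e1 : L.b ^ 2 * (u * L.vp / L.b ^ 2) = u * L.vp := by field_simp
  have hbw0 : 0 ≤ L.b ^ 2 * (u * L.vp / L.b ^ 2) := by positivity
  have hbw : L.b ^ 2 * (u * L.vp / L.b ^ 2) ≤ L.vp := by
    rw [e1]
    exact mul_le_of_le_one_left hv0.le hu1
  rw [hcard]
  exact nD hb hn ht1 ht0 hU0.le hU1 hv0.le hvU hbw0 hbw (by linarith) hp h.η0 k3 k1 k4 k2

end num

section raw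

variable {L : Law} {LB LF : Type} [Fintype LB] [DecidableEq LB] [Fintype LF] [DecidableEq LF]
  {cB : LB → ℝ} {cF : LF → ℝ} {BL : Finset LB} {FL : Finset LF} {t u : ℝ}

lemma wf_num {b v u U : ℝ} (hb : 1 ≤ b) (hv : 0 < v) (hu0 : 0 ≤ u) (hu1 : u ≤ 1)
    (hvU : v ≤ b ^ 2 * U) : 0 ≤ u * v / b ^ 2 ∧ u * v / b ^ 2 ≤ v ∧ u * v / b ^ 2 ≤ U := by
  have hb2 : 1 ≤ b ^ 2 := one_le_pow₀ hb
  have hb0 : 0 < b ^ 2 := by linarith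
  have huv : u * v ≤ v := mul_le_of_le_one_left hv.le hu1
  refine ⟨by positivity, ?_, ?_⟩
  · rw [div_le_iff₀ hb0]
    calc u * v ≤ v * 1 := by linarith
      _ ≤ v * b ^ 2 := mul_le_mul_of_nonneg_left hb2 hv.le
  · rw [div_le_iff₀ hb0]
    linarith

lemma b0_num {b t wf U x : ℝ} (hb : 1 ≤ b) (ht1 : t ≤ 1) (hwf : wf ≤ U) (hU1 : U ≤ 1)
    (hx0 : 0 ≤ x) (hx4 : 4 * (x * b ^ 2) ≤ 1) :
    b ^ 2 * (t + wf) ≤ (2 * b) ^ 2 ∧ x * (2 * b) ≤ 1 / 2 ∧ x * (2 * b) ^ 2 ≤ 1 := by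
  have hb2 : 1 ≤ b ^ 2 := one_le_pow₀ hb
  have hb0 : 0 ≤ b ^ 2 := by linarith
  have hbb : b ≤ b ^ 2 := by nlinarith
  refine ⟨?_, ?_, ?_⟩
  · calc b ^ 2 * (t + wf) ≤ b ^ 2 * 4 := mul_le_mul_of_nonneg_left (by linarith) hb0
      _ = _ := by ring
  · have := mul_le_mul_of_nonneg_left hbb hx0
    linarith
  · calc x * (2 * b) ^ 2 = 4 * (x * b ^ 2) := by ring
      _ ≤ 1 := hx4

/-- the third order term from the numbers -/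
lemma d3_raw (h : Adm L) (hη1 : L.η ≤ 1 / 2) (hs0 : L.s ≠ 0) (hx0 : 0 < L.x)
    (hx1 : L.x < 1) {r0 : ℝ} (hc : L.c = L.s ^ 2 * L.n * (1 - (1 - L.x) * r0))
    (hk0 : 0 ≤ 1 - (1 - L.x) * r0) (hk1 : 1 - (1 - L.x) * r0 ≤ 1)
    (hb : 1 ≤ L.b) (hx4 : 4 * (L.x * L.b ^ 2) ≤ 1)
    {S : Finset (Fin L.n)} {i0 i1 : Fin L.n} (hi0 : i0 ∉ S) (hi1 : i1 ∉ S)
    (hs : Sh cB cF BL FL 1 (√L.vp) t u) (ht1 : t ≤ 1) (hu0 : 0 ≤ u) (huu : u ≤ 1)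
    {T e U hh g k j k4 p pR pC : ℝ} (hU0 : 0 < U) (hU1 : U ≤ 1) (hT : 1 - t ≤ T)
    (hvU : L.vp ≤ L.b ^ 2 * U) (he0 : 0 < e) (he1 : e ≤ 1) (hpR : 0 ≤ pR) (hpC : 0 ≤ pC)
    (hj : 0 < j) (hk4 : 0 ≤ k4)
    (q1 : exS L.n L.b cB cF L.s L.η L.lam L.c L.x
      (H317.ind U (Qk L.n L.b cB cF L.s L.η L.lam L.c L.x S (Kset S BL FL))) ≤ pR)
    (q2 : exS L.n L.b cB cF L.s L.η L.lam L.c L.x
      (H317.ind (U ^ 2) (CCv L.n L.b cB cF L.s L.η L.lam L.c L.x S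
        (Kset (insert i0 S) BL FL))) ≤ pC)
    (q3 : exS L.n L.b cB cF L.s L.η L.lam L.c L.x
      (Qk L.n L.b cB cF L.s L.η L.lam L.c L.x S (Kset (insert i0 S) BL FL)) -
        exS L.n L.b cB cF L.s L.η L.lam L.c L.x
          (Qk L.n L.b cB cF L.s L.η L.lam L.c L.x S (Kset S BL FL)) ≤ U * j ^ 2)
    (q4 : exS L.n L.b cB cF L.s L.η L.lam L.c L.x
      (RKk L.n L.b cB cF L.s L.η L.lam L.c L.x S (Kset (insert i0 S) BL FL)) ≤ k ^ 2)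
    (q5 : exS L.n L.b cB cF L.s L.η L.lam L.c L.x
      (K4v L.n L.b cB cF L.s L.η L.lam L.c L.x S (Kset (insert i0 S) BL FL)) ≤ k4)
    (q6 : L.b ^ 2 / L.n * t * d0 L.n L.b cB cF L.s L.η L.lam L.c L.x r0 (Kset S BL FL)
        (Kset Finset.univ BL FL) ((Finset.univ : Finset (Fin L.n)) \ S).card ^ 2 +
      L.b ^ 2 * (u * L.vp / L.b ^ 2) * H646.d0f L.n L.b cB cF L.s L.η L.lam L.c L.x r0
        ((Finset.univ : Finset (Fin L.n)) \ S).card ^ 2 ≤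
      125 * L.b ^ 2 * (U * (hh + g) ^ 2 + p ^ 2 + L.vp * L.η ^ 2)) :
    exS L.n L.b cB cF L.s L.η L.lam L.c L.x (fun z =>
      |Ts L.n L.b cB cF L.s L.η L.lam L.c L.x S BL FL (1 - (1 - L.x) * r0) i0 z -
        ks L.n L.b cB cF L.s L.η L.lam L.c L.x S BL FL
          (Th3 L.n L.b cB cF L.s L.η L.lam L.c L.x) i1 z ^ 2 *
          Qs L.n L.b cB cF L.s L.η L.lam L.c L.x S BL FL z ^ 3|) ≤
      R3n L.b T e U hh g k j k4 L.η L.x L.vp p pR pC := by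
  have hv0 := h.vp0
  have hb0 := h.b0
  have hcB : ∑ l ∈ BL, cB l ^ 2 = t := by rw [hs.shB, one_pow, mul_one]
  have hcF : ∑ l ∈ FL, cF l ^ 2 = L.b ^ 2 * (u * L.vp / L.b ^ 2) := by
    rw [hs.shF, Real.sq_sqrt h.vp0.le]
    field_simp
  obtain ⟨hwf0, hwfv, hwfU⟩ := wf_num hb hv0 hu0 huu hvU
  obtain ⟨g1, g2, g3⟩ := b0_num (t := t) hb ht1 hwfU hU1 h.x0 hx4
  have hne : ((Finset.univ : Finset (Fin L.n)) \ S).Nonempty :=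
    ⟨i0, Finset.mem_sdiff.2 ⟨Finset.mem_univ _, hi0⟩⟩
  have hW : 0 < Wn U k j L.η L.vp pR pC := by
    unfold Wn
    positivity
  have hV : 0 < Vn U k4 pR pC := by
    unfold Vn
    positivity
  have hE := (e1_opt hW hV).1
  have num := RB_num (b := L.b) (η := L.η) (x := L.x) (kp := 1 - (1 - L.x) * r0)
    (wf := u * L.vp / L.b ^ 2) (t := t) (T := T) (e := e) (U := U) (h := hh) (g := g) (k := k)
    (j := j) (k4 := k4) (v := L.vp) (p := p) (pR := pR) (pC := pC) hb h.η0 hη1 hU0 hU1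
    (pow_le_one₀ hk0 hk1) h.x0 hx1.le hwf0 hwfv hwfU hpR hpC hk4 hj he0 ht1 hT q6
  exact (hc3_num h.lam0 h.η0 hs0 h.n0 hx0 hx1 hc (Finset.subset_univ S) hi0 hi1 hne hwf0 hcB ht1
    hcF (mul_pos two_pos hb0) g1 g2 g3 he0 he1 hE hU0 hU0.le q1 q2 q3 q4 q5).trans num

end raw

section typ

variable {L : Law} {LB LF : Type} [Fintype LB] [DecidableEq LB] [Fintype LF] [DecidableEq LF]
  {cB : LB → ℝ} {cF : LF → ℝ} {BL : Finset LB} {FL : Finset LF} {t u : ℝ}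

lemma jN_sq {m1 m2 : ℕ} (h12 : m1 ≤ m2) : jN m1 m2 ^ 2 = 14 / ((m2 : ℝ) - m1 + 1) ∧
    0 < jN m1 m2 := by
  have h12' : (m1 : ℝ) ≤ m2 := by exact_mod_cast h12
  have hM : 0 < (m2 : ℝ) - m1 + 1 := by linarith
  unfold jN
  exact ⟨Real.sq_sqrt (by positivity), Real.sqrt_pos.2 (by positivity)⟩

/-- the three numbers of a typical system -/
lemma typ_num (h : Adm L) (hx0 : 0 < L.x) {m1 m2 : ℕ} (hm1 : 2 ≤ m1) (h12 : m1 ≤ m2)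
    {a0 a1 u0 u1 : ℝ} (ha1 : 0 ≤ a1) (hua : u0 < u1) (hu1 : u1 ≤ 1) (hu00 : 0 ≤ u0)
    {dt : ℝ} (hdt : 0 < dt) (hda : dt ≤ a1 - a0) {m : ℕ} (hm : m ∈ Finset.Icc m1 m2)
    {i0 : Fin L.n} (hi0 : i0.1 + m = L.n) {U p tm pR : ℝ} (hU0 : 0 < U)
    (hN : Nums L tm U p pR) (hatm : a1 ≤ tm)
    (hTyp : Typ L cB cF a1 u1 (a1 - a0) (u1 - u0) 14 ((m2 : ℝ) - m1 + 1) m BL FL) :
    incL L cB cF (Sn L.n m) (Kset (Sn L.n m) BL FL) (Kset (insert i0 (Sn L.n m)) BL FL) ≤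
        L.n * (U * jN m1 m2 ^ 2) ∧
      rkL L cB cF (Sn L.n (m - 1)) (Kset (Sn L.n (m - 1)) BL FL) ≤
        (L.n * kN L U (u1 - u0)) ^ 2 ∧
      rbL L cB cF (Sn L.n (m - 1)) (Kset (Sn L.n (m - 1)) BL FL) ≤
        (L.n : ℝ) ^ 4 * k4N L U dt := by
  have hn : (0 : ℝ) < L.n := by exact_mod_cast h.n0
  have h12' : (m1 : ℝ) ≤ m2 := by exact_mod_cast h12
  have hM : 0 < (m2 : ℝ) - m1 + 1 := by linarith
  refine ⟨?_, ?_, ?_⟩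
  · refine (hTyp.inc i0 hi0).trans ?_
    have h1 := hN.q1 h hU0 Finset.univ ha1 hatm (by linarith : 0 ≤ u1) hu1
    rw [(jN_sq h12).1]
    calc 14 * (L.n * L.ex' a1 u1 (L.Q Finset.univ a1 u1)) / ((m2 : ℝ) - m1 + 1)
        ≤ 14 * (L.n * U) / ((m2 : ℝ) - m1 + 1) := by gcongr
      _ = _ := by ring
  · exact rk_kN h hx0 hU0.le (by linarith)
      (hN.f1 h hU0 Finset.univ ha1 hatm (by linarith) hu1) (hTyp.rk _ (Or.inr rfl))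
  · refine rb_k4N h hx0 hdt hda (U := U)
      ((pp_CC h Finset.univ a1 u1).trans (mul_le_mul_of_nonneg_left
        (hN.cc Finset.univ a1 u1 ha1 hatm (by linarith) hu1) (by positivity))) ?_
      (hTyp.rb _ (Or.inr rfl))
    exact ex_nonneg (wt_sk (n := L.n) (LB := LB) (LF := LF) (b := L.b) (cB := cB) (cF := cF)
        (s := L.s) (c := L.c) (x := L.x) h.lam0 h.η0) fun z =>
          Finset.sum_nonneg fun _ _ => Finset.sum_nonneg fun _ _ => sq_nonneg _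

/-- **The third order term of a typical system, any levels.** -/
theorem d3_can (h : Adm L) (hη1 : L.η ≤ 1 / 2) (hs0 : L.s ≠ 0) (hx0 : 0 < L.x)
    (hx1 : L.x < 1) {r0 : ℝ} (hc : L.c = L.s ^ 2 * L.n * (1 - (1 - L.x) * r0))
    (hk0 : 0 ≤ 1 - (1 - L.x) * r0) (hk1 : 1 - (1 - L.x) * r0 ≤ 1) (hr0 : |r0| ≤ 1)
    (hb : 1 ≤ L.b) (hx4 : 4 * (L.x * L.b ^ 2) ≤ 1)
    {m1 m2 : ℕ} (hm1 : 2 ≤ m1) (h12 : m1 ≤ m2) (hmn : 2 * m2 ≤ L.n) {a0 a1 u0 u1 : ℝ}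
    (hs : Sh cB cF BL FL 1 (√L.vp) t u)
    (ht0 : 0 ≤ t) (hta : t ≤ a1) (ha1 : a1 ≤ 1) (hu0 : 0 ≤ u) (huu : u ≤ 1)
    (hua : u0 < u1) (hu1 : u1 ≤ 1) (hu00 : 0 ≤ u0) {dt : ℝ} (hdt : 0 < dt) (hda : dt ≤ a1 - a0)
    {m : ℕ} (hm : m ∈ Finset.Icc m1 m2)
    {i0 i1 : Fin L.n} (hi0 : i0.1 + m = L.n) (hi1 : i1.1 + 1 = L.n)
    {T e U g p tm pR pC : ℝ} (hU0 : 0 < U) (hU1 : U ≤ 1) (hT : 1 - t ≤ T)
    (hvU : L.vp ≤ L.b ^ 2 * U) (hg : L.lam / (L.s ^ 2 * L.n) ≤ g) (hp : 0 ≤ p) (he0 : 0 < e)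
    (he1 : e ≤ 1) (hN : Nums L tm U p pR) (hC : TailC L tm U pC) (hatm : a1 ≤ tm)
    (hTyp : Typ L cB cF a1 u1 (a1 - a0) (u1 - u0) 14 ((m2 : ℝ) - m1 + 1) m BL FL) :
    exS L.n L.b cB cF L.s L.η L.lam L.c L.x (fun z =>
      |Ts L.n L.b cB cF L.s L.η L.lam L.c L.x (Sn L.n m) BL FL (1 - (1 - L.x) * r0) i0 z -
        ks L.n L.b cB cF L.s L.η L.lam L.c L.x (Sn L.n m) BL FL
          (Th3 L.n L.b cB cF L.s L.η L.lam L.c L.x) i1 z ^ 2 *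
          Qs L.n L.b cB cF L.s L.η L.lam L.c L.x (Sn L.n m) BL FL z ^ 3|) ≤
      R3n L.b T e U (1 / √(m1 : ℝ)) g (kN L U (u1 - u0)) (jN m1 m2) (k4N L U dt) L.η L.x L.vp
        p pR pC := by
  obtain ⟨hm1', hm2'⟩ := Finset.mem_Icc.1 hm
  have hm10 : (0 : ℝ) < m1 := by
    have : 0 < m1 := by omega
    exact_mod_cast this
  have hmm : (m1 : ℝ) ≤ m := by exact_mod_cast hm1'
  have htm : t ≤ tm := hta.trans hatm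
  have ht1 : t ≤ 1 := hta.trans ha1
  have ha0' : 0 ≤ a1 := ht0.trans hta
  have hml : m ≤ L.n := by omega
  have hi0' : i0 ∉ Sn L.n m := by
    simp only [Sn, Finset.mem_filter, Finset.mem_univ, true_and]
    omega
  have hi1' : i1 ∉ Sn L.n m := by
    simp only [Sn, Finset.mem_filter, Finset.mem_univ, true_and]
    omega
  have hins : insert i0 (Sn L.n m) = Sn L.n (m - 1) := Sn_ins (by omega) hi0
  have hsub : Sn L.n m ⊆ Sn L.n (m - 1) := by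
    rw [← hins]
    exact Finset.subset_insert _ _
  have hpR0 : 0 ≤ pR := le_trans (ex_nonneg (H412.wtL (L := L) h.lam0 h.η0 t u) fun z =>
    H317.ind_nonneg _ _ z) (hN.tl Finset.univ t u ht0 htm hu0 huu)
  have hpC0 : 0 ≤ pC := le_trans (ex_nonneg (H412.wtL (L := L) h.lam0 h.η0 t u) fun z =>
    H317.ind_nonneg _ _ z) (hC Finset.univ t u ht0 htm hu0 huu)
  have hk4 : 0 ≤ k4N L U dt := by
    have := h.b0
    have hn : (0 : ℝ) < L.n := by exact_mod_cast h.n0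
    unfold k4N
    positivity
  obtain ⟨y1, y2, y3⟩ := typ_num h hx0 hm1 h12 ha0' hua hu1 hu00 hdt hda hm hi0 hU0 hN hatm hTyp
  have q1 := pQ_can (r := U) h hs ht0 ht1 hu0 huu (hN.tl (Sn L.n m) t u ht0 htm hu0 huu)
  have q2 := pC_can h hs ht0 ht1 hu0 huu hsub (hC (Sn L.n (m - 1)) t u ht0 htm hu0 huu)
  have q4 := rk_can (BL := BL) (FL := FL) h hsub y2
  have q5 := k4_can (BL := BL) (FL := FL) h hsub y3
  have q6 := dd_can h hη1 hs0 hx1 hk0 hk1 hr0 hb hs ht0 ht1 hu0 huu (m := m) (by omega) hml hU0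
    hU1 hvU (one_div_le_one_div_of_le (Real.sqrt_pos.2 hm10) (Real.sqrt_le_sqrt hmm)) hg hp
    (hN.cc _ t u ht0 htm hu0 huu) (hN.ps t u ht0 htm hu0 huu)
  rw [← hins] at q2 q4 q5
  exact d3_raw h hη1 hs0 hx0 hx1 hc hk0 hk1 hb hx4 hi0' hi1' hs ht1 hu0 huu hU0 hU1 hT hvU he0 he1
    hpR0 hpC0 (jN_sq h12).2 hk4 q1 q2 (inc_can h y1) q4 q5 q6

end typ

section three

variable {L : Law}

/-- the observable of the system with three levels of bonds -/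
noncomputable abbrev T3 (L : Law) (t2 t1 u : ℝ) : Fin L.n → (Co L.n (Fin 3) Bool → ℝ) → ℝ :=
  Th3 L.n L.b (c3 t2 t1) (H418.cf L.vp u) L.s L.η L.lam L.c L.x

lemma T3_bm (h : Adm L) (t2 t1 u : ℝ) (i : Fin L.n) : BM (T3 L t2 t1 u i) :=
  bm_Th3 h.lam0 h.η0 i

lemma T3_eq1 (h : Adm L) (t2 t1 u : ℝ) : Eq1 (T3 L t2 t1 u) := eq1_Th3 h.lam0 h.η0

lemma T3_le (h : Adm L) (hη1 : L.η ≤ 1 / 2) (hb : 1 ≤ L.b) (t2 t1 u : ℝ) (i : Fin L.n)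
    (z : Co L.n (Fin 3) Bool → ℝ) : |T3 L t2 t1 u i z| ≤ 30 * L.b ^ 3 := by
  refine (abs_Th3_le h.lam0 h.η0 h.x0 h.x1 i z).trans ?_
  have hb0 := h.b0
  have h3 : 0 < L.b ^ 3 := by positivity
  rw [abs_of_pos hb0]
  nlinarith

/-- **The hypothesis `hC3` of `H694.br_n`.** -/
theorem hc3_n (h : Adm L) (hη1 : L.η ≤ 1 / 2) (hs0 : L.s ≠ 0) (hx0 : 0 < L.x)
    (hx1 : L.x < 1) {r0 kp : ℝ} (hkp : kp = 1 - (1 - L.x) * r0)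
    (hc : L.c = L.s ^ 2 * L.n * kp) (hk0 : 0 ≤ kp) (hk1 : kp ≤ 1) (hr0 : |r0| ≤ 1)
    (hb : 1 ≤ L.b) (hx4 : 4 * (L.x * L.b ^ 2) ≤ 1)
    {m1 m2 : ℕ} (hm1 : 2 ≤ m1) (h12 : m1 ≤ m2) (hmn : 2 * m2 ≤ L.n)
    {q0 q1 p0 p1 u0 u1 : ℝ} (hq0 : 0 ≤ q0) (hqp : q1 ≤ p0) (hp : p0 ≤ p1)
    (hp1 : p1 ≤ 1) (hu0 : 0 ≤ u0) (hu : u0 < u1) (hu1 : u1 ≤ 1)
    {dt : ℝ} (hdt : 0 < dt) (hdq : dt ≤ q1 - q0) (hdp : dt ≤ p1 - p0)
    {T e U g p pR pC : ℝ} (hU0 : 0 < U) (hU1 : U ≤ 1) (hT : 1 - q0 ≤ T)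
    (hvU : L.vp ≤ L.b ^ 2 * U) (hg : L.lam / (L.s ^ 2 * L.n) ≤ g) (hp' : 0 ≤ p) (he0 : 0 < e)
    (he1 : e ≤ 1) (hN : Nums L p1 U p pR) (hC : TailC L p1 U pC) :
    ∀ t2 ∈ Set.Icc q0 q1, ∀ t1 ∈ Set.Icc p0 p1, ∀ u ∈ Set.Icc u0 u1,
      ∀ m ∈ Finset.Icc m1 m2,
      Typ L (c3 t2 t1) (H418.cf L.vp u) p1 u1 (p1 - p0) (u1 - u0) 14 ((m2 : ℝ) - m1 + 1) m
        {0, 1} {true} →
      Typ L (c3 t2 t1) (H418.cf L.vp u) q1 u1 (q1 - q0) (u1 - u0) 14 ((m2 : ℝ) - m1 + 1) m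
        {0} {true} →
      ∀ i0 i1 : Fin L.n, i0.1 + m = L.n → i1.1 + 1 = L.n →
      D3 L kp t2 t1 u m {0, 1} (T3 L t2 t1 u) i0 i1 ≤
          R3n L.b T e U (1 / √(m1 : ℝ)) g (kN L U (u1 - u0)) (jN m1 m2) (k4N L U dt) L.η L.x
            L.vp p pR pC ∧
        D3 L kp t2 t1 u m {0} (T3 L t2 t1 u) i0 i1 ≤
          R3n L.b T e U (1 / √(m1 : ℝ)) g (kN L U (u1 - u0)) (jN m1 m2) (k4N L U dt) L.η L.x
            L.vp p pR pC := by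
  intro t2 ht2 t1 ht1 u hut m hm T1 T2 i0 i1 hi0 hi1
  have h21 : t2 ≤ t1 := ht2.2.trans (hqp.trans ht1.1)
  have t20 : 0 ≤ t2 := hq0.trans ht2.1
  have t10 : 0 ≤ t1 := t20.trans h21
  have t11 : t1 ≤ 1 := ht1.2.trans hp1
  have u00 : 0 ≤ u := hu0.trans hut.1
  have u11 : u ≤ 1 := hut.2.trans hu1
  have q1p : q1 ≤ p1 := hqp.trans hp
  have s1 := sh_1 (v := L.vp) t20 h21 t11 u00 u11
  have s2 := sh_2 (v := L.vp) t20 h21 t11 u00 u11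
  subst hkp
  exact ⟨d3_can (dt := dt) h hη1 hs0 hx0 hx1 hc hk0 hk1 hr0 hb hx4 hm1 h12 hmn s1 t10 ht1.2 hp1 u00
      u11 hu hu1 hu0 hdt hdp hm hi0 hi1 hU0 hU1 (by linarith [ht2.1]) hvU hg hp' he0 he1 hN hC
      le_rfl T1,
    d3_can (dt := dt) h hη1 hs0 hx0 hx1 hc hk0 hk1 hr0 hb hx4 hm1 h12 hmn s2 t20 ht2.2
      (q1p.trans hp1) u00 u11 hu hu1 hu0 hdt hdq hm hi0 hi1 hU0 hU1 (by linarith [ht2.1]) hvU hg
      hp' he0 he1 hN hC q1p T2⟩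

/-- **Exclusion of the big root, all the equations proved.** -/
theorem br_n3 (h : Adm L) (hη : 0 < L.η) (hη1 : L.η ≤ 1 / 2) (hs0 : L.s ≠ 0)
    (hx0 : 0 < L.x) (hx1 : L.x < 1) {r0 kp : ℝ} (hkp : kp = 1 - (1 - L.x) * r0)
    (hc : L.c = L.s ^ 2 * L.n * kp) (hk0 : 0 ≤ kp) (hk1 : kp ≤ 1) (hr0 : |r0| ≤ 1)
    (hb : 1 ≤ L.b) (hx2 : L.x ^ 2 * (L.b ^ 2 + L.vp) ≤ 1 / 4) (hx4 : 4 * (L.x * L.b ^ 2) ≤ 1)
    {m1 m2 : ℕ} (hm1 : 2 ≤ m1) (h12 : m1 ≤ m2) (hmn : 2 * m2 ≤ L.n)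
    {q0 q1 p0 p1 u0 u1 : ℝ} (hq0 : 0 ≤ q0) (hqp : q1 ≤ p0)
    (hp1 : p1 ≤ 1) (hu0 : 0 ≤ u0) (hu : u0 < u1) (hu1 : u1 ≤ 1)
    {dt : ℝ} (hdt : 0 < dt) (hdq : dt ≤ q1 - q0) (hdp : dt ≤ p1 - p0)
    {U g p δ T ee pR pC ξ ηt Lc γ τm τn e : ℝ} (hU0 : 0 < U) (hU1 : U ≤ 1) (hxU : L.x ≤ U)
    (hT : 1 - q0 ≤ T) (hvU : L.vp ≤ L.b ^ 2 * U)
    (hτ : ∀ m ∈ Finset.Icc m1 m2, ∀ t ∈ Set.Icc q0 p1, |tauL L kp m t| ≤ τm)
    (hτU : τm ≤ U ^ 2)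
    (hτn : ∀ m ∈ Finset.Icc m1 m2, ∀ t ∈ Set.Icc q0 p1, -tauL L kp m t ≤ τn) (hτn0 : 0 ≤ τn)
    (hg : L.lam / (L.s ^ 2 * L.n) ≤ g) (hp' : 0 ≤ p) (hδ : 0 < δ)
    (hN : Nums L p1 U p pR) (hC : TailC L p1 U pC) (hee0 : 0 < ee) (hee1 : ee ≤ 1)
    (hL : 0 < Lc) (hηξ : 16 * L.η ≤ ξ) (hξ : ξ ≤ 1 / 2) (hηt : 0 < ηt)
    (hreg : 2 * τn * ((1 - ξ) * Lc) + 3 * (kp ^ 2 * L.vp) ≤
      L.x * kp ^ 3 * L.b ^ 4 * ((1 - ξ) * Lc) ^ 2)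
    (hγ : 0 < γ)
    (hgap : γ ≤ kp ^ 2 * L.b ^ 2 * (p0 - q1) / U ^ 2 -
      4 * (L.x * kp ^ 3 * L.b ^ 4) * ξ / Lc - 8 * τm * ξ / Lc ^ 2 - 3 * ηt / Lc)
    (he0 : 0 ≤ e)
    (he : E1n L.b (30 * L.b ^ 3) U (1 / √(m1 : ℝ)) g L.vp L.η L.x (kN L U (u1 - u0)) p
      (jN m1 m2) δ T pR (R3n L.b T ee U (1 / √(m1 : ℝ)) g (kN L U (u1 - u0)) (jN m1 m2)
        (k4N L U dt) L.η L.x L.vp p pR pC) ≤ e) :
    ∃ t2 ∈ Set.Icc q0 q1, ∃ u ∈ Set.Icc u0 u1, ∃ m ∈ Finset.Icc m1 m2,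
      L.ex' t2 u (H762.big Lc (L.Q (Sn L.n m) t2 u)) ≤
        PBn (30 * L.b ^ 3) γ ξ ηt Lc (kN L U (u1 - u0)) pR e := by
  have hb0 := h.b0
  exact br_n h hη hη1 hs0 hx0 hx1 hkp hc hk0 hk1 hr0 hb hx2 hm1 h12 hmn hq0 (by linarith) hqp
    (by linarith) hp1 hu0 hu hu1 (T3 L) (fun t2 t1 u i => T3_bm h t2 t1 u i)
    (fun t2 t1 u => T3_eq1 h t2 t1 u) (by positivity)
    (fun t2 t1 u i z => T3_le h hη1 hb t2 t1 u i z) hU0 hU1 hxU hT hvU hτ hτU hτn hτn0 hg hp' hδ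
    hN (hc3_n h hη1 hs0 hx0 hx1 hkp hc hk0 hk1 hr0 hb hx4 hm1 h12 hmn hq0 hqp (by linarith) hp1
      hu0 hu hu1 hdt hdq hdp hU0 hU1 hT hvU hg hp' hee0 hee1 hN hC) hL hηξ hξ hηt hreg hγ hgap
    he0 he

end three

end Vale.Agent.P146.C3Amp
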