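import Vale.Agent.P146.H498.Amp5

/-!
# P146: the third order term of a typical system, part 1 (numbers)

`R3n`: the closed form of the error, `RB_num`: `RB ≤ R3n`.
-/

namespace Vale.Agent.P146.C3Amp

set_option linter.all false

/-- the constant -/
noncomputable def KR (b : ℝ) : ℝ := 5000000000000 * b ^ 10

/-- the size of the row minus its direction -/
noncomputable def Wn (U k j η v pR pC : ℝ) : ℝ :=
  k ^ 2 + η ^ 4 * U ^ 2 + U ^ 2 * j ^ 2 + pR + pC + v ^ 2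

/-- the size of the fourth moment -/
noncomputable def Vn (U k4 pR pC : ℝ) : ℝ := U ^ 4 + k4 + pR + pC

/-- the closed form of the error of the third order term -/
noncomputable def R3n (b T e U h g k j k4 η x v p pR pC : ℝ) : ℝ :=
  KR b * ((T + e) * (U ^ 3 + pR) + 1 / e * (√(Wn U k j η v pR pC * Vn U k4 pR pC) + U ^ 4 +
    (pR + pC) / U + U * (h + g) ^ 2 + p ^ 2 + v * η ^ 2 + x ^ 2 * U ^ 2))

section num

variable {b η x kp wf t T e U h g k j k4 v p pR pC dd : ℝ}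

lemma eta_pows (hη0 : 0 ≤ η) (hη1 : η ≤ 1 / 2) :
    (1 + η) ^ 2 ≤ 9 / 4 ∧ (1 + η) ^ 6 ≤ 12 ∧ (1 + η) ^ 8 ≤ 26 := by
  have h0 : 0 ≤ 1 + η := by linarith
  have h1 : 1 + η ≤ 3 / 2 := by linarith
  refine ⟨?_, ?_, ?_⟩
  · calc (1 + η) ^ 2 ≤ (3 / 2) ^ 2 := pow_le_pow_left₀ h0 h1 2
      _ ≤ _ := by norm_num
  · calc (1 + η) ^ 6 ≤ (3 / 2) ^ 6 := pow_le_pow_left₀ h0 h1 6
      _ ≤ _ := by norm_num
  · calc (1 + η) ^ 8 ≤ (3 / 2) ^ 8 := pow_le_pow_left₀ h0 h1 8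
      _ ≤ _ := by norm_num

/-- the term of the row minus its direction -/
lemma nB1 (hb : 1 ≤ b) (hη0 : 0 ≤ η) (hη1 : η ≤ 1 / 2) (hU0 : 0 ≤ U)
    (hwf0 : 0 ≤ wf) (hwfv : wf ≤ v) (hpR : 0 ≤ pR) (hpC : 0 ≤ pC) :
    Bd2 b η wf (k ^ 2) (U ^ 2 + pC)
      (4 * (1 + η) ^ 2 * U * (U * j ^ 2) + (4 * (1 + η) ^ 2) ^ 2 * (pC + pR)) ≤
      2594 * b ^ 4 * Wn U k j η v pR pC := by
  obtain ⟨h2, -, -⟩ := eta_pows hη0 hη1
  have hη4 : η ^ 4 ≤ 1 / 16 := by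
    calc η ^ 4 ≤ (1 / 2) ^ 4 := pow_le_pow_left₀ hη0 hη1 4
      _ = _ := by norm_num
  have a1 : 4 * (1 + η) ^ 2 * U * (U * j ^ 2) ≤ 9 * (U ^ 2 * j ^ 2) := by
    calc 4 * (1 + η) ^ 2 * U * (U * j ^ 2) = 4 * (1 + η) ^ 2 * (U ^ 2 * j ^ 2) := by ring
      _ ≤ 4 * (9 / 4) * (U ^ 2 * j ^ 2) := by gcongr
      _ = _ := by ring
  have a2 : (4 * (1 + η) ^ 2) ^ 2 * (pC + pR) ≤ 81 * (pC + pR) := by
    calc (4 * (1 + η) ^ 2) ^ 2 * (pC + pR) ≤ (4 * (9 / 4)) ^ 2 * (pC + pR) := by gcongr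
      _ = _ := by ring
  have a3 : 32 * η ^ 4 * (U ^ 2 + pC) ≤ 32 * (η ^ 4 * U ^ 2) + 2 * pC := by
    have := mul_le_mul_of_nonneg_right hη4 hpC
    nlinarith
  have a4 : wf ^ 2 ≤ v ^ 2 := pow_le_pow_left₀ hwf0 hwfv 2
  have a5 : 0 ≤ η ^ 4 * U ^ 2 := by positivity
  have a6 : 0 ≤ U ^ 2 * j ^ 2 := by positivity
  have a7 := sq_nonneg k
  have a8 := sq_nonneg v
  unfold Bd2 Wn
  have key : 4 * k ^ 2 + 32 * η ^ 4 * (U ^ 2 + pC) + 32 * (4 * (1 + η) ^ 2 * U * (U * j ^ 2) +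
      (4 * (1 + η) ^ 2) ^ 2 * (pC + pR)) + 2 * wf ^ 2 ≤
      2594 * (k ^ 2 + η ^ 4 * U ^ 2 + U ^ 2 * j ^ 2 + pR + pC + v ^ 2) := by
    linarith only [a1, a2, a3, a4, a5, a6, a7, a8, hpR, hpC]
  have h4 : 0 ≤ b ^ 4 := by positivity
  have h5 := mul_le_mul_of_nonneg_left key h4
  calc b ^ 4 * (4 * k ^ 2 + 32 * η ^ 4 * (U ^ 2 + pC) + 32 * (4 * (1 + η) ^ 2 * U * (U * j ^ 2) +
      (4 * (1 + η) ^ 2) ^ 2 * (pC + pR))) + 2 * b ^ 4 * wf ^ 2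
      = b ^ 4 * (4 * k ^ 2 + 32 * η ^ 4 * (U ^ 2 + pC) + 32 * (4 * (1 + η) ^ 2 * U *
        (U * j ^ 2) + (4 * (1 + η) ^ 2) ^ 2 * (pC + pR)) + 2 * wf ^ 2) := by ring
    _ ≤ _ := h5
    _ = _ := by ring

/-- the term of the fourth moment -/
lemma nB2 (hb : 1 ≤ b) (hη0 : 0 ≤ η) (hη1 : η ≤ 1 / 2) (hU0 : 0 ≤ U)
    (hwf0 : 0 ≤ wf) (hwfU : wf ≤ U) (hpR : 0 ≤ pR) (hpC : 0 ≤ pC) (hk4 : 0 ≤ k4) :
    2568576 * B4 b wf (2 * (U ^ 4 + pC) + 8 * k4) + 49536 * (b ^ 8 * (U ^ 4 + (1 + η) ^ 8 * pR)) ≤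
      165676800 * b ^ 8 * Vn U k4 pR pC := by
  obtain ⟨-, -, h8⟩ := eta_pows hη0 hη1
  have a1 : wf ^ 4 ≤ U ^ 4 := pow_le_pow_left₀ hwf0 hwfU 4
  have a2 : (1 + η) ^ 8 * pR ≤ 26 * pR := mul_le_mul_of_nonneg_right h8 hpR
  have a3 : 0 ≤ U ^ 4 := by positivity
  have hb8 : 0 ≤ b ^ 8 := by positivity
  have key : 2568576 * (8 * (2 * (U ^ 4 + pC) + 8 * k4) + 8 * wf ^ 4) +
      49536 * (U ^ 4 + (1 + η) ^ 8 * pR) ≤ 165676800 * (U ^ 4 + k4 + pR + pC) := by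
    linarith only [a1, a2, a3, hpR, hpC, hk4]
  have h5 := mul_le_mul_of_nonneg_left key hb8
  unfold B4 Vn
  calc _ = b ^ 8 * (2568576 * (8 * (2 * (U ^ 4 + pC) + 8 * k4) + 8 * wf ^ 4) +
      49536 * (U ^ 4 + (1 + η) ^ 8 * pR)) := by ring
    _ ≤ _ := h5
    _ = _ := by ring

/-- the term of the curvature -/
lemma nC (hb : 1 ≤ b) (hη0 : 0 ≤ η) (hη1 : η ≤ 1 / 2) (hU0 : 0 < U) (hU1 : U ≤ 1)
    (hwf0 : 0 ≤ wf) (hwfU : wf ≤ U) (hpR : 0 ≤ pR) (hpC : 0 ≤ pC) :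
    9216 * (1 + η) ^ 2 * b ^ 6 * (U / 2 * (U ^ 3 + (1 + η) ^ 6 * pR) + 2048 / U *
      (2 * b ^ 4 * (U ^ 5 + (1 + η) ^ 6 * (pC + pR)) + 2 * b ^ 4 * wf ^ 2 *
        (U ^ 3 + (1 + η) ^ 6 * pR))) ≤
      2040000000 * b ^ 10 * (U ^ 4 + (pR + pC) / U) := by
  obtain ⟨h2, h6, -⟩ := eta_pows hη0 hη1
  have hb4 : 1 ≤ b ^ 4 := one_le_pow₀ hb
  have hq : 0 ≤ (pR + pC) / U := by positivity
  have hR : pR ≤ pR / U := by
    rw [le_div_iff₀ hU0]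
    exact mul_le_of_le_one_right hpR hU1
  have hR2 : pR / U ≤ (pR + pC) / U := by gcongr; linarith
  have hUR : U * pR ≤ (pR + pC) / U := by
    calc U * pR ≤ 1 * pR := by gcongr
      _ = pR := one_mul _
      _ ≤ _ := hR.trans hR2
  have a1 : U / 2 * (U ^ 3 + (1 + η) ^ 6 * pR) ≤ 1 / 2 * U ^ 4 + 6 * ((pR + pC) / U) := by
    calc U / 2 * (U ^ 3 + (1 + η) ^ 6 * pR) ≤ U / 2 * (U ^ 3 + 12 * pR) := by gcongr
      _ = 1 / 2 * U ^ 4 + 6 * (U * pR) := by ring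
      _ ≤ _ := by linarith only [hUR]
  have a2 : 2048 / U * (2 * b ^ 4 * (U ^ 5 + (1 + η) ^ 6 * (pC + pR))) ≤
      4096 * b ^ 4 * (U ^ 4 + 12 * ((pR + pC) / U)) := by
    calc 2048 / U * (2 * b ^ 4 * (U ^ 5 + (1 + η) ^ 6 * (pC + pR)))
        ≤ 2048 / U * (2 * b ^ 4 * (U ^ 5 + 12 * (pC + pR))) := by gcongr
      _ = _ := by field_simp; ring
  have a3 : 2048 / U * (2 * b ^ 4 * wf ^ 2 * (U ^ 3 + (1 + η) ^ 6 * pR)) ≤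
      4096 * b ^ 4 * (U ^ 4 + 12 * ((pR + pC) / U)) := by
    calc 2048 / U * (2 * b ^ 4 * wf ^ 2 * (U ^ 3 + (1 + η) ^ 6 * pR))
        ≤ 2048 / U * (2 * b ^ 4 * U ^ 2 * (U ^ 3 + 12 * pR)) := by gcongr
      _ = 4096 * b ^ 4 * (U ^ 4 + 12 * (U * pR)) := by field_simp; ring
      _ ≤ _ := by gcongr
  have hU4 : 0 ≤ U ^ 4 := by positivity
  have a4 : U / 2 * (U ^ 3 + (1 + η) ^ 6 * pR) + 2048 / U *
      (2 * b ^ 4 * (U ^ 5 + (1 + η) ^ 6 * (pC + pR)) + 2 * b ^ 4 * wf ^ 2 *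
        (U ^ 3 + (1 + η) ^ 6 * pR)) ≤ 98310 * b ^ 4 * (U ^ 4 + (pR + pC) / U) := by
    rw [mul_add (2048 / U)]
    have c1 : 1 / 2 * U ^ 4 + 6 * ((pR + pC) / U) ≤
        6 * b ^ 4 * (U ^ 4 + (pR + pC) / U) := by
      have : 6 * 1 * (U ^ 4 + (pR + pC) / U) ≤ 6 * b ^ 4 * (U ^ 4 + (pR + pC) / U) := by gcongr
      linarith only [this, hU4, hq]
    have c2 : 4096 * b ^ 4 * (U ^ 4 + 12 * ((pR + pC) / U)) ≤
        49152 * b ^ 4 * (U ^ 4 + (pR + pC) / U) := by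
      have : 0 ≤ b ^ 4 * U ^ 4 := by positivity
      have e1 : 4096 * b ^ 4 * (U ^ 4 + 12 * ((pR + pC) / U)) =
        4096 * (b ^ 4 * U ^ 4) + 49152 * (b ^ 4 * ((pR + pC) / U)) := by ring
      have e2 : 49152 * b ^ 4 * (U ^ 4 + (pR + pC) / U) =
        49152 * (b ^ 4 * U ^ 4) + 49152 * (b ^ 4 * ((pR + pC) / U)) := by ring
      rw [e1, e2]
      linarith only [this]
    have e3 : 98310 * b ^ 4 * (U ^ 4 + (pR + pC) / U) = 6 * b ^ 4 * (U ^ 4 + (pR + pC) / U) +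
        (49152 * b ^ 4 * (U ^ 4 + (pR + pC) / U) + 49152 * b ^ 4 * (U ^ 4 + (pR + pC) / U)) := by
      ring
    rw [e3]
    exact add_le_add (a1.trans c1) (add_le_add (a2.trans c2) (a3.trans c2))
  have hs : 0 ≤ U ^ 4 + (pR + pC) / U := by positivity
  calc _ ≤ 9216 * (9 / 4) * b ^ 6 * (98310 * b ^ 4 * (U ^ 4 + (pR + pC) / U)) := by
        refine mul_le_mul ?_ a4 (by positivity) (by positivity)
        gcongr
    _ = 2038556160 * (b ^ 10 * (U ^ 4 + (pR + pC) / U)) := by ring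
    _ ≤ 2040000000 * (b ^ 10 * (U ^ 4 + (pR + pC) / U)) :=
        mul_le_mul_of_nonneg_right (by norm_num) (by positivity)
    _ = _ := by ring

/-- the term of the small Gibbs factor -/
lemma nE (hb : 1 ≤ b) (hη0 : 0 ≤ η) (hη1 : η ≤ 1 / 2) (hU0 : 0 < U) (hU1 : U ≤ 1)
    (hkp : kp ^ 2 ≤ 1) (hx0 : 0 ≤ x) (hx1 : x ≤ 1)
    (hwf0 : 0 ≤ wf) (hwfU : wf ≤ U) (hpR : 0 ≤ pR) (hpC : 0 ≤ pC) :
    (kp ^ 2 * (b ^ 2 * ((1 + η) ^ 2 + wf)) + 64 * b ^ 6 * (1 + η) ^ 8) *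
      (17 / 2 * x ^ 2 * B2 b wf (U ^ 2 + pC)) ≤
      57000 * b ^ 10 * (x ^ 2 * U ^ 2 + (pR + pC) / U) := by
  obtain ⟨h2, -, h8⟩ := eta_pows hη0 hη1
  have hb4 : 1 ≤ b ^ 4 := one_le_pow₀ hb
  have hb2 : 0 ≤ b ^ 2 := sq_nonneg b
  have hb26 : b ^ 2 ≤ b ^ 6 := by
    calc b ^ 2 = b ^ 2 * 1 := (mul_one _).symm
      _ ≤ b ^ 2 * b ^ 4 := by gcongr
      _ = _ := by ring
  have hb6 : 0 ≤ b ^ 6 := by positivity
  have a1 : kp ^ 2 * (b ^ 2 * ((1 + η) ^ 2 + wf)) + 64 * b ^ 6 * (1 + η) ^ 8 ≤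
      1668 * b ^ 6 := by
    have c1 : kp ^ 2 * (b ^ 2 * ((1 + η) ^ 2 + wf)) ≤ 1 * (b ^ 2 * (9 / 4 + 1)) := by
      gcongr
      exact hwfU.trans hU1
    have c2 : 64 * b ^ 6 * (1 + η) ^ 8 ≤ 64 * b ^ 6 * 26 := by gcongr
    linarith only [c1, c2, hb26, hb2, hb6]
  have a2 : B2 b wf (U ^ 2 + pC) ≤ 4 * b ^ 4 * (U ^ 2 + pC) := by
    unfold B2
    have c1 : wf ^ 2 ≤ U ^ 2 := pow_le_pow_left₀ hwf0 hwfU 2
    have c2 : 2 * b ^ 4 * wf ^ 2 ≤ 2 * b ^ 4 * (U ^ 2 + pC) := by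
      refine mul_le_mul_of_nonneg_left ?_ (by positivity)
      linarith
    linarith only [c2]
  have hB : 0 ≤ B2 b wf (U ^ 2 + pC) := by
    unfold B2
    positivity
  have hx2 : x ^ 2 ≤ 1 := pow_le_one₀ hx0 hx1
  have a3 : x ^ 2 * (U ^ 2 + pC) ≤ x ^ 2 * U ^ 2 + (pR + pC) / U := by
    have c1 : x ^ 2 * pC ≤ (pR + pC) / U := by
      rw [le_div_iff₀ hU0]
      calc x ^ 2 * pC * U ≤ 1 * pC * 1 := by gcongr
        _ ≤ pR + pC := by linarith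
    rw [mul_add]
    linarith only [c1]
  calc _ ≤ 1668 * b ^ 6 * (17 / 2 * x ^ 2 * (4 * b ^ 4 * (U ^ 2 + pC))) := by
        refine mul_le_mul a1 ?_ (by positivity) (by positivity)
        exact mul_le_mul_of_nonneg_left a2 (by positivity)
    _ = 56712 * b ^ 10 * (x ^ 2 * (U ^ 2 + pC)) := by ring
    _ ≤ 57000 * b ^ 10 * (x ^ 2 * U ^ 2 + (pR + pC) / U) := by
        refine mul_le_mul ?_ a3 (by positivity) (by positivity)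
        gcongr
        norm_num

end num

end Vale.Agent.P146.C3Amp
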