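import Vale.Agent.P146.H498.D3a

/-!
# P146: the third order term of a typical system, part 2 (numbers)

`RB_num`: `RB ≤ R3n`.
-/

namespace Vale.Agent.P146.C3Amp

set_option linter.all false

section num

variable {b η x kp wf t T e U h g k j k4 v p pR pC dd : ℝ}

/-- the term of the direction of the row -/
lemma nD {n d0 df : ℝ} (hb : 1 ≤ b) (hn : 0 < n) (ht1 : t ≤ 1) (ht0 : 0 ≤ t) (hU0 : 0 ≤ U)
    (hU1 : U ≤ 1) (hv0 : 0 ≤ v) (hvU : v ≤ b ^ 2 * U) (hbw0 : 0 ≤ b ^ 2 * wf)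
    (hbw : b ^ 2 * wf ≤ v) (hh : 0 ≤ h + g) (hp : 0 ≤ p) (hη0 : 0 ≤ η)
    (hd0 : 0 ≤ d0) (hd : d0 ≤ √n * (5 * (√U * (h + g) + p))) (hf0 : 0 ≤ df)
    (hf : df ≤ 5 * (h + g + p) + η) :
    b ^ 2 / n * t * d0 ^ 2 + b ^ 2 * wf * df ^ 2 ≤
      125 * b ^ 2 * (U * (h + g) ^ 2 + p ^ 2 + v * η ^ 2) := by
  have hb2 : 1 ≤ b ^ 2 := one_le_pow₀ hb
  have hb0 : 0 ≤ b ^ 2 := by linarith
  have hsU : √U ^ 2 = U := Real.sq_sqrt hU0
  have a1 : d0 ^ 2 ≤ n * (50 * (U * (h + g) ^ 2 + p ^ 2)) := by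
    calc d0 ^ 2 ≤ (√n * (5 * (√U * (h + g) + p))) ^ 2 := pow_le_pow_left₀ hd0 hd 2
      _ = √n ^ 2 * (25 * (√U * (h + g) + p) ^ 2) := by ring
      _ = n * (25 * (√U * (h + g) + p) ^ 2) := by rw [Real.sq_sqrt hn.le]
      _ ≤ n * (50 * (√U ^ 2 * (h + g) ^ 2 + p ^ 2)) := by
          refine mul_le_mul_of_nonneg_left ?_ hn.le
          nlinarith [sq_nonneg (√U * (h + g) - p)]
      _ = _ := by rw [hsU]
  have a2 : df ^ 2 ≤ 75 * (h + g) ^ 2 + 75 * p ^ 2 + 3 * η ^ 2 := by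
    calc df ^ 2 ≤ (5 * (h + g + p) + η) ^ 2 := pow_le_pow_left₀ hf0 hf 2
      _ = (5 * (h + g) + 5 * p + η) ^ 2 := by ring
      _ ≤ _ := by
          nlinarith [sq_nonneg (5 * (h + g) - 5 * p), sq_nonneg (5 * (h + g) - η),
            sq_nonneg (5 * p - η)]
  have s1 : 0 ≤ (h + g) ^ 2 := sq_nonneg _
  have s2 : 0 ≤ p ^ 2 := sq_nonneg _
  have s3 : 0 ≤ η ^ 2 := sq_nonneg _
  have b1 : b ^ 2 / n * t * d0 ^ 2 ≤ b ^ 2 * (50 * (U * (h + g) ^ 2 + p ^ 2)) := by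
    calc b ^ 2 / n * t * d0 ^ 2 ≤ b ^ 2 / n * 1 * (n * (50 * (U * (h + g) ^ 2 + p ^ 2))) := by
          gcongr
      _ = _ := by field_simp
  have b2 : b ^ 2 * wf * df ^ 2 ≤ 75 * b ^ 2 * (U * (h + g) ^ 2) + 75 * b ^ 2 * p ^ 2 +
      3 * (v * η ^ 2) := by
    have hv1 : v ≤ b ^ 2 := hvU.trans (mul_le_of_le_one_right hb0 hU1)
    calc b ^ 2 * wf * df ^ 2 ≤ v * (75 * (h + g) ^ 2 + 75 * p ^ 2 + 3 * η ^ 2) :=
          mul_le_mul hbw a2 (sq_nonneg _) hv0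
      _ = 75 * (v * (h + g) ^ 2) + 75 * (v * p ^ 2) + 3 * (v * η ^ 2) := by ring
      _ ≤ 75 * (b ^ 2 * U * (h + g) ^ 2) + 75 * (b ^ 2 * p ^ 2) + 3 * (v * η ^ 2) := by gcongr
      _ = _ := by ring
  have hvη : 0 ≤ v * η ^ 2 := by positivity
  have b3 : 3 * (v * η ^ 2) ≤ 125 * b ^ 2 * (v * η ^ 2) := by
    refine mul_le_mul_of_nonneg_right ?_ hvη
    linarith
  have e1 : 125 * b ^ 2 * (U * (h + g) ^ 2 + p ^ 2 + v * η ^ 2) =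
      125 * b ^ 2 * (U * (h + g) ^ 2) + 125 * b ^ 2 * p ^ 2 + 125 * b ^ 2 * (v * η ^ 2) := by
    ring
  rw [e1]
  have b4 : b ^ 2 * (50 * (U * (h + g) ^ 2 + p ^ 2)) = 50 * b ^ 2 * (U * (h + g) ^ 2) +
      50 * b ^ 2 * p ^ 2 := by ring
  rw [b4] at b1
  linarith only [b1, b2, b3]

/-- the optimal parameter -/
lemma e1_opt {W V : ℝ} (hW : 0 < W) (hV : 0 < V) :
    0 < √W / √V ∧ W / (√W / √V) = √(W * V) ∧ √W / √V * V = √(W * V) := by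
  have h1 : 0 < √W := Real.sqrt_pos.2 hW
  have h2 : 0 < √V := Real.sqrt_pos.2 hV
  refine ⟨div_pos h1 h2, ?_, ?_⟩
  · rw [Real.sqrt_mul hW.le, div_div_eq_mul_div, div_eq_iff h1.ne']
    nth_rewrite 1 [← Real.mul_self_sqrt hW.le]
    ring
  · rw [Real.sqrt_mul hW.le, div_mul_eq_mul_div, div_eq_iff h2.ne', mul_assoc,
      Real.mul_self_sqrt hV.le]

/-- the two terms with the optimal parameter -/
lemma nB (hb : 1 ≤ b) (hη0 : 0 ≤ η) (hη1 : η ≤ 1 / 2) (hU0 : 0 < U)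
    (hwf0 : 0 ≤ wf) (hwfv : wf ≤ v) (hwfU : wf ≤ U) (hpR : 0 ≤ pR) (hpC : 0 ≤ pC)
    (hk4 : 0 ≤ k4) (hj : 0 < j) :
    2 * (1 + η) ^ 2 * (2352 / (√(Wn U k j η v pR pC) / √(Vn U k4 pR pC)) *
        Bd2 b η wf (k ^ 2) (U ^ 2 + pC)
          (4 * (1 + η) ^ 2 * U * (U * j ^ 2) + (4 * (1 + η) ^ 2) ^ 2 * (pC + pR)) +
        √(Wn U k j η v pR pC) / √(Vn U k4 pR pC) *
          (2568576 * B4 b wf (2 * (U ^ 4 + pC) + 8 * k4) +
            49536 * (b ^ 8 * (U ^ 4 + (1 + η) ^ 8 * pR)))) ≤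
      800000000 * b ^ 10 * √(Wn U k j η v pR pC * Vn U k4 pR pC) := by
  obtain ⟨h2, -, -⟩ := eta_pows hη0 hη1
  have hW : 0 < Wn U k j η v pR pC := by
    unfold Wn
    positivity
  have hV : 0 < Vn U k4 pR pC := by
    unfold Vn
    positivity
  obtain ⟨o1, o2, o3⟩ := e1_opt hW hV
  have n1 := nB1 (k := k) (j := j) hb hη0 hη1 hU0.le hwf0 hwfv hpR hpC
  have n2 := nB2 (k4 := k4) hb hη0 hη1 hU0.le hwf0 hwfU hpR hpC hk4
  set W := Wn U k j η v pR pC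
  set V := Vn U k4 pR pC
  set E := √W / √V
  set R := √(W * V)
  have hR : 0 ≤ R := Real.sqrt_nonneg _
  have hB0 : 0 ≤ Bd2 b η wf (k ^ 2) (U ^ 2 + pC)
      (4 * (1 + η) ^ 2 * U * (U * j ^ 2) + (4 * (1 + η) ^ 2) ^ 2 * (pC + pR)) := by
    unfold Bd2
    positivity
  have hB4 : 0 ≤ 2568576 * B4 b wf (2 * (U ^ 4 + pC) + 8 * k4) +
      49536 * (b ^ 8 * (U ^ 4 + (1 + η) ^ 8 * pR)) := by
    unfold B4
    positivity
  have hb4 : b ^ 4 ≤ b ^ 10 := pow_le_pow_right₀ hb (by norm_num)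
  have hb8 : b ^ 8 ≤ b ^ 10 := pow_le_pow_right₀ hb (by norm_num)
  have c1 : 2352 / E * Bd2 b η wf (k ^ 2) (U ^ 2 + pC)
      (4 * (1 + η) ^ 2 * U * (U * j ^ 2) + (4 * (1 + η) ^ 2) ^ 2 * (pC + pR)) ≤
      6101088 * b ^ 10 * R := by
    calc _ ≤ 2352 / E * (2594 * b ^ 4 * W) := mul_le_mul_of_nonneg_left n1 (by positivity)
      _ = 6101088 * b ^ 4 * (W / E) := by ring
      _ = 6101088 * b ^ 4 * R := by rw [o2]
      _ ≤ _ := by gcongr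
  have c2 : E * (2568576 * B4 b wf (2 * (U ^ 4 + pC) + 8 * k4) +
      49536 * (b ^ 8 * (U ^ 4 + (1 + η) ^ 8 * pR))) ≤ 165676800 * b ^ 10 * R := by
    calc _ ≤ E * (165676800 * b ^ 8 * V) := mul_le_mul_of_nonneg_left n2 o1.le
      _ = 165676800 * b ^ 8 * (E * V) := by ring
      _ = 165676800 * b ^ 8 * R := by rw [o3]
      _ ≤ _ := by gcongr
  have h0 : 0 ≤ b ^ 10 * R := by positivity
  calc _ ≤ 2 * (9 / 4) * (6101088 * b ^ 10 * R + 165676800 * b ^ 10 * R) := by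
        refine mul_le_mul ?_ (add_le_add c1 c2) (by positivity) (by norm_num)
        linarith
    _ = 773000496 * (b ^ 10 * R) := by ring
    _ ≤ 800000000 * (b ^ 10 * R) := mul_le_mul_of_nonneg_right (by norm_num) h0
    _ = _ := by ring

/-- **the closed form.** -/
theorem RB_num (hb : 1 ≤ b) (hη0 : 0 ≤ η) (hη1 : η ≤ 1 / 2) (hU0 : 0 < U) (hU1 : U ≤ 1)
    (hkp : kp ^ 2 ≤ 1) (hx0 : 0 ≤ x) (hx1 : x ≤ 1) (hwf0 : 0 ≤ wf) (hwfv : wf ≤ v)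
    (hwfU : wf ≤ U) (hpR : 0 ≤ pR) (hpC : 0 ≤ pC) (hk4 : 0 ≤ k4) (hj : 0 < j) (he : 0 < e)
    (ht1 : t ≤ 1) (hT : 1 - t ≤ T)
    (hdd : dd ≤ 125 * b ^ 2 * (U * (h + g) ^ 2 + p ^ 2 + v * η ^ 2)) :
    RB b η x kp wf t e (√(Wn U k j η v pR pC) / √(Vn U k4 pR pC)) U (k ^ 2) (U ^ 2 + pC)
      (4 * (1 + η) ^ 2 * U * (U * j ^ 2) + (4 * (1 + η) ^ 2) ^ 2 * (pC + pR))
      (2 * (U ^ 4 + pC) + 8 * k4) (U ^ 3 + (1 + η) ^ 6 * pR) (U ^ 4 + (1 + η) ^ 8 * pR)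
      (U ^ 5 + (1 + η) ^ 6 * (pC + pR)) dd ≤ R3n b T e U h g k j k4 η x v p pR pC := by
  obtain ⟨h2, h6, -⟩ := eta_pows hη0 hη1
  have nb := nB (k := k) (j := j) (k4 := k4) hb hη0 hη1 hU0 hwf0 hwfv hwfU hpR hpC hk4 hj
  have nc := nC hb hη0 hη1 hU0 hU1 hwf0 hwfU hpR hpC
  have ne := nE hb hη0 hη1 hU0 hU1 hkp hx0 hx1 hwf0 hwfU hpR hpC
  have hT0 : 0 ≤ T := by linarith
  have hb2 : b ^ 2 ≤ b ^ 10 := pow_le_pow_right₀ hb (by norm_num)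
  have hb6 : b ^ 6 ≤ b ^ 10 := pow_le_pow_right₀ hb (by norm_num)
  have hb10 : 0 ≤ b ^ 10 := by positivity
  have hv0 : 0 ≤ v := hwf0.trans hwfv
  have hU3 : 0 ≤ U ^ 3 := by positivity
  -- the first term
  have a1 : (3 * (1 - t) + 3 * e) * (384 * b ^ 6 * (1 + η) ^ 2 *
      (U ^ 3 + (1 + η) ^ 6 * pR)) ≤ KR b * ((T + e) * (U ^ 3 + pR)) := by
    have c1 : U ^ 3 + (1 + η) ^ 6 * pR ≤ 12 * (U ^ 3 + pR) := by
      have := mul_le_mul_of_nonneg_right h6 hpR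
      linarith only [this, hU3]
    calc _ ≤ (3 * (T + e)) * (384 * b ^ 10 * (9 / 4) * (12 * (U ^ 3 + pR))) := by
          refine mul_le_mul (by linarith) ?_ (by positivity) (by positivity)
          gcongr
      _ = 31104 * (b ^ 10 * ((T + e) * (U ^ 3 + pR))) := by ring
      _ ≤ 5000000000000 * (b ^ 10 * ((T + e) * (U ^ 3 + pR))) :=
          mul_le_mul_of_nonneg_right (by norm_num) (by positivity)
      _ = _ := by unfold KR; ring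
  -- the second term
  have hs : 0 ≤ U * (h + g) ^ 2 + p ^ 2 + v * η ^ 2 := by positivity
  have dd2 : dd ≤ 125 * b ^ 10 * (U * (h + g) ^ 2 + p ^ 2 + v * η ^ 2) :=
    hdd.trans (by gcongr)
  have hq : 0 ≤ (pR + pC) / U := by positivity
  have hU4 : 0 ≤ U ^ 4 := by positivity
  have hx2 : 0 ≤ x ^ 2 * U ^ 2 := by positivity
  have hR := Real.sqrt_nonneg (Wn U k j η v pR pC * Vn U k4 pR pC)
  have a2 := add_le_add (add_le_add (add_le_add nb nc) dd2) ne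
  set R := √(Wn U k j η v pR pC * Vn U k4 pR pC)
  have a3 : 800000000 * b ^ 10 * R + 2040000000 * b ^ 10 * (U ^ 4 + (pR + pC) / U) +
      125 * b ^ 10 * (U * (h + g) ^ 2 + p ^ 2 + v * η ^ 2) +
      57000 * b ^ 10 * (x ^ 2 * U ^ 2 + (pR + pC) / U) ≤
      2100000000 * b ^ 10 * (R + U ^ 4 + (pR + pC) / U + U * (h + g) ^ 2 + p ^ 2 + v * η ^ 2 +
        x ^ 2 * U ^ 2) := by
    have key : 800000000 * R + 2040000000 * (U ^ 4 + (pR + pC) / U) +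
      125 * (U * (h + g) ^ 2 + p ^ 2 + v * η ^ 2) +
      57000 * (x ^ 2 * U ^ 2 + (pR + pC) / U) ≤
      2100000000 * (R + U ^ 4 + (pR + pC) / U + U * (h + g) ^ 2 + p ^ 2 + v * η ^ 2 +
        x ^ 2 * U ^ 2) := by
      linarith only [hR, hU4, hq, hs, hx2]
    have := mul_le_mul_of_nonneg_left key hb10
    linarith only [this]
  have he2 : 0 ≤ 2232 / e := by positivity
  have a4 := mul_le_mul_of_nonneg_left (a2.trans a3) he2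
  have hsum : 0 ≤ R + U ^ 4 + (pR + pC) / U + U * (h + g) ^ 2 + p ^ 2 + v * η ^ 2 +
      x ^ 2 * U ^ 2 := by linarith
  have a5 : 2232 / e * (2100000000 * b ^ 10 * (R + U ^ 4 + (pR + pC) / U + U * (h + g) ^ 2 +
      p ^ 2 + v * η ^ 2 + x ^ 2 * U ^ 2)) ≤ KR b * (1 / e * (R + U ^ 4 + (pR + pC) / U +
      U * (h + g) ^ 2 + p ^ 2 + v * η ^ 2 + x ^ 2 * U ^ 2)) := by
    have h1e : 0 ≤ 1 / e := by positivity
    calc _ = 4687200000000 * (b ^ 10 * (1 / e * (R + U ^ 4 + (pR + pC) / U +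
          U * (h + g) ^ 2 + p ^ 2 + v * η ^ 2 + x ^ 2 * U ^ 2))) := by ring
      _ ≤ 5000000000000 * (b ^ 10 * (1 / e * (R + U ^ 4 + (pR + pC) / U +
          U * (h + g) ^ 2 + p ^ 2 + v * η ^ 2 + x ^ 2 * U ^ 2))) :=
          mul_le_mul_of_nonneg_right (by norm_num)
            (mul_nonneg hb10 (mul_nonneg h1e hsum))
      _ = _ := by unfold KR; ring
  unfold RB R3n
  rw [mul_add (KR b)]
  exact add_le_add a1 (a4.trans a5)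

end num

end Vale.Agent.P146.C3Amp
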