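import Vale.Agent.P146.H498.D3b
import Vale.Agent.P146.H498.Amp10
import Vale.Agent.P146.H317.C3Sk
import Vale.Agent.P146.H694.K6c

/-!
# P146: the third order term of a typical system, part 3

The numbers of `hc3_num` from `H320.Typ`, any levels.
-/

open MeasureTheory ProbabilityTheory

namespace Vale.Agent.P146.C3Amp

open Vale.Agent.P157.Lv hiding Dep
open Vale.Agent.P146.H425 Vale.Agent.P146.H646
open Vale.Agent.P146.H325 hiding cb cf
open Vale.Agent.P146.H196 Vale.Agent.P146.H246 Vale.Agent.P146.H347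
  Vale.Agent.P146.H816 Vale.Agent.P146.H119 Vale.Agent.P146.H475 Vale.Agent.P146.H418
  Vale.Agent.P146.H615 Vale.Agent.P146.H320 Vale.Agent.P146.H161 Vale.Agent.P146.H317
  Vale.Agent.P146.H694 Vale.Agent.P146.H412

set_option linter.all false

section can

variable {L : Law} {LB LF : Type} [Fintype LB] [DecidableEq LB] [Fintype LF] [DecidableEq LF]
  {cB : LB → ℝ} {cF : LF → ℝ} {BL : Finset LB} {FL : Finset LF} {t u : ℝ}

/-- the tail of the second moment of the overlap -/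
lemma CC_can (h : Adm L) (hs : Sh cB cF BL FL 1 (√L.vp) t u) (ht0 : 0 ≤ t) (ht1 : t ≤ 1)
    (hu0 : 0 ≤ u) (hu1 : u ≤ 1) (S : Finset (Fin L.n)) (r : ℝ) :
    exS L.n L.b cB cF L.s L.η L.lam L.c L.x
      (H317.ind r (CCv L.n L.b cB cF L.s L.η L.lam L.c L.x S (Kset S BL FL))) =
      L.ex' t u (H317.ind r (H412.CC L S t u)) :=
  H9.sk_congr (b := L.b) (s := L.s) (η := L.η) (A := Fin L.n × Fin L.n) (gmb h)
    one_pos (sqv h) hs (sh_can h ht0 ht1 hu0 hu1) S L.x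
    (f := fun a w => sp w.2 a.1 * sp w.2 a.2) (fun a => (bm_sp a.1).mul (bm_sp a.2))
    (Φ := fun v => if r < (∑ i ∈ S, ∑ j ∈ S, v (i, j) ^ 2) / (L.n : ℝ) ^ 2 then (1 : ℝ) else 0)
    (Measurable.ite (measurableSet_lt measurable_const (by fun_prop)) measurable_const
      measurable_const) fun C => ⟨1, fun v _ => by split_ifs <;> norm_num⟩

/-- the increment -/
lemma inc_can (h : Adm L) {S : Finset (Fin L.n)} {K K' : Finset (Co L.n LB LF)} {I : ℝ}
    (hI : incL L cB cF S K K' ≤ L.n * I) :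
    exS L.n L.b cB cF L.s L.η L.lam L.c L.x (Qk L.n L.b cB cF L.s L.η L.lam L.c L.x S K') -
      exS L.n L.b cB cF L.s L.η L.lam L.c L.x (Qk L.n L.b cB cF L.s L.η L.lam L.c L.x S K) ≤
      I := by
  have hn0 : (0 : ℝ) < L.n := by exact_mod_cast h.n0
  have hw : Wt (g1 (Co L.n LB LF)) (wS L.n L.b cB cF L.s L.η L.lam L.c L.x) :=
    wtA (n := L.n) L.b cB cF L.s h.lam0 h.η0 L.c L.x
  have e1 : ∀ K : Finset (Co L.n LB LF),
      exS L.n L.b cB cF L.s L.η L.lam L.c L.x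
        (Qk L.n L.b cB cF L.s L.η L.lam L.c L.x S K) =
      (L.n : ℝ)⁻¹ * ∑ j ∈ S, exL L cB cF
        (fun z => cxL L cB cF K (fun w => al L.η w.1 * H325.sp w.2 j) z ^ 2) := by
    intro K
    have e2 : Qk L.n L.b cB cF L.s L.η L.lam L.c L.x S K =
        fun z => (L.n : ℝ)⁻¹ * ∑ j ∈ S, cxS L.n L.b cB cF L.s
          L.η L.lam L.c L.x K (avS L.b cB cF L.s L.η L.lam L.c
            (fun w => al L.η w.1 * H325.sp w.2 j)) z ^ 2 := by
      funext z
      unfold Qk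
      rw [div_eq_inv_mul]
    rw [e2]
    show ex _ _ _ = _
    rw [ex_cmul, ex_sum hw _ fun j _ => bsq (bm_M (b := L.b) (cB := cB)
      (cF := cF) (s := L.s) (c := L.c) (x := L.x) h.lam0 h.η0 K j)]
  rw [e1, e1, ← mul_sub, ← Finset.sum_sub_distrib, inv_mul_le_iff₀ hn0]
  exact hI

/-- the rank one defect -/
lemma rk_can (h : Adm L) {S S' : Finset (Fin L.n)} (hS : S ⊆ S')
    {k : ℝ} (hrk : rkL L cB cF S' (Kset S' BL FL) ≤ (L.n * k) ^ 2) :
    exS L.n L.b cB cF L.s L.η L.lam L.c L.x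
      (RKk L.n L.b cB cF L.s L.η L.lam L.c L.x S (Kset S' BL FL)) ≤ k ^ 2 := by
  have hn0 : (0 : ℝ) < L.n := by exact_mod_cast h.n0
  have hw : Wt (g1 (Co L.n LB LF)) (wS L.n L.b cB cF L.s L.η L.lam L.c L.x) :=
    wtA (n := L.n) L.b cB cF L.s h.lam0 h.η0 L.c L.x
  have h1 := ex_mono hw (bm_RKk (b := L.b) (cB := cB) (cF := cF)
    (s := L.s) (c := L.c) (x := L.x) h.lam0 h.η0 S (Kset S' BL FL))
    (bm_RKk (b := L.b) (cB := cB) (cF := cF)
    (s := L.s) (c := L.c) (x := L.x) h.lam0 h.η0 S' (Kset S' BL FL)) fun z => RKk_mono hS _ z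
  refine le_trans h1 ?_
  have e2 : RKk L.n L.b cB cF L.s L.η L.lam L.c L.x S' (Kset S' BL FL) = fun z =>
      ((L.n : ℝ) ^ 2)⁻¹ * RKg (muA (Xs L.n) L.lam L.η L.c)
      (Sm L.b cB cF L.s L.η) L.x (Kset S' BL FL) (fun (j : Fin L.n) (w : ℝ × Xs L.n) =>
        H325.sp w.2 j) S' z := by
    funext z
    unfold RKk
    rw [div_eq_inv_mul]
  rw [e2, ex_cmul, inv_mul_le_iff₀ (by positivity)]
  rw [mul_pow] at hrk
  exact hrk

/-- the covariances of the pairs -/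
lemma k4_can (h : Adm L) {S S' : Finset (Fin L.n)} (hS : S ⊆ S')
    {k4 : ℝ} (hrb : rbL L cB cF S' (Kset S' BL FL) ≤ (L.n : ℝ) ^ 4 * k4) :
    exS L.n L.b cB cF L.s L.η L.lam L.c L.x
      (K4v L.n L.b cB cF L.s L.η L.lam L.c L.x S (Kset S' BL FL)) ≤ k4 := by
  have hn0 : (0 : ℝ) < L.n := by exact_mod_cast h.n0
  have hw : Wt (g1 (Co L.n LB LF)) (wS L.n L.b cB cF L.s L.η L.lam L.c L.x) :=
    wtA (n := L.n) L.b cB cF L.s h.lam0 h.η0 L.c L.x
  have h1 := ex_mono hw (bm_K4v (b := L.b) (cB := cB) (cF := cF)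
    (s := L.s) (c := L.c) (x := L.x) h.lam0 h.η0 S (Kset S' BL FL))
    (bm_K4v (b := L.b) (cB := cB) (cF := cF)
    (s := L.s) (c := L.c) (x := L.x) h.lam0 h.η0 S' (Kset S' BL FL)) fun z => K4v_mono hS _ z
  refine le_trans h1 ?_
  have e2 : K4v L.n L.b cB cF L.s L.η L.lam L.c L.x S' (Kset S' BL FL) = fun z =>
      ((L.n : ℝ) ^ 4)⁻¹ * ∑ q ∈ H119.ps S', ∑ r ∈ H119.ps S',
      (cxL L cB cF (Kset S' BL FL) (fun w => SkS q w.2 * SkS r w.2) z -
      cxL L cB cF (Kset S' BL FL) (fun w => SkS q w.2) z *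
      cxL L cB cF (Kset S' BL FL) (fun w => SkS r w.2) z) ^ 2 := by
    funext z
    unfold K4v k4L
    rw [div_eq_inv_mul]
    rfl
  rw [e2, ex_cmul, inv_mul_le_iff₀ (by positivity)]
  exact hrb

/-- the tail of the second moment at the larger set -/
lemma pC_can (h : Adm L) (hs : Sh cB cF BL FL 1 (√L.vp) t u) (ht0 : 0 ≤ t) (ht1 : t ≤ 1)
    (hu0 : 0 ≤ u) (hu1 : u ≤ 1) {S S' : Finset (Fin L.n)} (hS : S ⊆ S') {r pC : ℝ}
    (hpC : L.ex' t u (H317.ind r (H412.CC L S' t u)) ≤ pC) :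
    exS L.n L.b cB cF L.s L.η L.lam L.c L.x
      (H317.ind r (CCv L.n L.b cB cF L.s L.η L.lam L.c L.x S (Kset S' BL FL))) ≤ pC := by
  have hw : Wt (g1 (Co L.n LB LF)) (wS L.n L.b cB cF L.s L.η L.lam L.c L.x) :=
    wtA (n := L.n) L.b cB cF L.s h.lam0 h.η0 L.c L.x
  refine le_trans (ex_mono hw (H317.bm_ind (bm_CCv (b := L.b) (cB := cB)
      (cF := cF) (s := L.s) (c := L.c) (x := L.x) h.lam0 h.η0 _ _).meas _)
      (H317.bm_ind (bm_CCv (b := L.b) (cB := cB)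
      (cF := cF) (s := L.s) (c := L.c) (x := L.x) h.lam0 h.η0
        S' _).meas _) fun z => H317.ind_mono _ (CCv_mono hS _ z)) ?_
  exact (le_of_eq (CC_can h hs ht0 ht1 hu0 hu1 S' r)).trans hpC

/-- the tail of the overlap -/
lemma pQ_can (h : Adm L) (hs : Sh cB cF BL FL 1 (√L.vp) t u) (ht0 : 0 ≤ t) (ht1 : t ≤ 1)
    (hu0 : 0 ≤ u) (hu1 : u ≤ 1) {S : Finset (Fin L.n)} {r pR : ℝ}
    (hpR : L.ex' t u (H317.ind r (L.Q S t u)) ≤ pR) :
    exS L.n L.b cB cF L.s L.η L.lam L.c L.x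
      (H317.ind r (Qk L.n L.b cB cF L.s L.η L.lam L.c L.x S (Kset S BL FL))) ≤ pR := by
  have e4 := Q_can h hs ht0 ht1 hu0 hu1 S (φ := fun q => if r < q then (1 : ℝ) else 0)
    (Measurable.ite (measurableSet_lt measurable_const measurable_id) measurable_const
      measurable_const) fun C => ⟨1, fun v _ => by split_ifs <;> norm_num⟩
  exact (le_of_eq e4).trans hpR

end can

section pp

variable {L : Law}

/-- the pairs are bounded by the second moment of the overlap -/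
lemma pp_CC (h : Adm L) (S : Finset (Fin L.n)) (t u : ℝ) :
    L.pp S t u ≤ (L.n : ℝ) ^ 2 * L.ex' t u (H412.CC L S t u) := by
  have hn0 : (0 : ℝ) < L.n := by exact_mod_cast h.n0
  have hw := H412.wtL (L := L) h.lam0 h.η0 t u
  have bC := H412.bm_CC (L := L) h.lam0 h.η0 S t u
  have hG := gmA (n := L.n) L.b (H418.cb t) (H418.cf L.vp u) L.s h.lam0 h.η0 L.c
  have e1 : (L.n : ℝ) ^ 2 * L.ex' t u (H412.CC L S t u) =
      L.ex' t u (fun z => (L.n : ℝ) ^ 2 * H412.CC L S t u z) := by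
    unfold Law.ex'
    rw [ex_cmul]
  rw [e1]
  have bP : BM (fun z => ∑ p ∈ H119.ps S, L.cx' S t u (fun w => H325.SkS p w.2) z ^ 2) :=
    BM.sum _ fun p _ => bsq (hw.bm_cx _ (hG.bm_avm 1 ((bm_sp p.1.1).mul (bm_sp p.1.2))))
  refine ex_mono hw bP (bcm _ bC) fun z => ?_
  unfold H412.CC
  rw [mul_div_cancel₀ _ (by positivity : (L.n : ℝ) ^ 2 ≠ 0), ← Finset.sum_product']
  have h1 : ∑ p ∈ H119.ps S, L.cx' S t u (fun w => H325.SkS p w.2) z ^ 2 =
      ∑ a ∈ (H119.ps S).image (fun p => (p.1.1, p.1.2)),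
        L.cx' S t u (fun w => H325.sp w.2 a.1 * H325.sp w.2 a.2) z ^ 2 := by
    rw [Finset.sum_image]
    · rfl
    · intro p _ q _ hpq
      exact Subtype.ext hpq
  rw [h1]
  refine Finset.sum_le_sum_of_subset_of_nonneg ?_ fun _ _ _ => sq_nonneg _
  intro a ha
  obtain ⟨p, hp, rfl⟩ := Finset.mem_image.1 ha
  exact Finset.mem_product.2 (H119.mem_ps.1 hp)

end pp

end Vale.Agent.P146.C3Amp
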