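import Vale.Agent.P146.H196.Gibm

/-!
Sums of squares of expectations through two independent copies of a probability space.
-/

open MeasureTheory ProbabilityTheory

namespace Vale.Agent.P146.H498

open Vale.Agent.P146.H196

set_option linter.unusedSectionVars false

variable {ι : Type} [Fintype ι] {Y : Type} [MeasurableSpace Y]
  {ρ : Measure Y} [IsProbabilityMeasure ρ]

/-- the scalar product of two copies. -/
def dt (F : ι → Y → ℝ) (p : Y × Y) : ℝ := ∑ i, F i p.1 * F i p.2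

lemma bm_fst {f : Y → ℝ} (hf : Bm f) : Bm fun p : Y × Y => f p.1 := by
  obtain ⟨C, _, hb⟩ := hf.2
  exact Bm.of (hf.1.comp measurable_fst) fun p => hb p.1

lemma bm_snd {f : Y → ℝ} (hf : Bm f) : Bm fun p : Y × Y => f p.2 := by
  obtain ⟨C, _, hb⟩ := hf.2
  exact Bm.of (hf.1.comp measurable_snd) fun p => hb p.2

lemma bm_dt {F : ι → Y → ℝ} (hF : ∀ i, Bm (F i)) : Bm (dt F) :=
  Bm.sum _ fun i _ => (bm_fst (hF i)).mul (bm_snd (hF i))

lemma bm_abs {f : Y → ℝ} (hf : Bm f) : Bm fun y => |f y| := by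
  obtain ⟨C, _, hb⟩ := hf.2
  exact Bm.of hf.1.abs (C := C) fun y => by rw [abs_abs]; exact hb y

/-- the square of an expectation. -/
lemma sq_int {f : Y → ℝ} : (∫ y, f y ∂ρ) ^ 2 = ∫ p, f p.1 * f p.2 ∂(ρ.prod ρ) := by
  rw [sq]
  exact (integral_prod_mul f f).symm

lemma sum1 {F : ι → Y → ℝ} (hF : ∀ i, Bm (F i)) {T : Y → ℝ} (hT : Bm T) :
    ∑ i, (∫ y, T y * F i y ∂ρ) ^ 2 = ∫ p, (T p.1 * T p.2) * dt F p ∂(ρ.prod ρ) := by
  simp only [sq_int]
  rw [← integral_finsetSum _ fun i _ =>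
    ((bm_fst (hT.mul (hF i))).mul (bm_snd (hT.mul (hF i)))).integrable]
  refine integral_congr_ae (Filter.Eventually.of_forall fun p => ?_)
  simp only [dt]
  rw [Finset.mul_sum]
  exact Finset.sum_congr rfl fun i _ => by ring

lemma sum2 {F G : ι → Y → ℝ} (hF : ∀ i, Bm (F i)) (hG : ∀ i, Bm (G i)) :
    ∑ i, ∑ j, (∫ y, F i y * G j y ∂ρ) ^ 2 = ∫ p, dt F p * dt G p ∂(ρ.prod ρ) := by
  simp only [sq_int]
  have hb : ∀ i j, Bm fun p : Y × Y => (F i p.1 * G j p.1) * (F i p.2 * G j p.2) := fun i j =>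
    (bm_fst ((hF i).mul (hG j))).mul (bm_snd ((hF i).mul (hG j)))
  have h1 : ∀ i, ∑ j, ∫ p, (F i p.1 * G j p.1) * (F i p.2 * G j p.2) ∂(ρ.prod ρ) =
      ∫ p, ∑ j, (F i p.1 * G j p.1) * (F i p.2 * G j p.2) ∂(ρ.prod ρ) := fun i =>
    (integral_finsetSum _ fun j _ => (hb i j).integrable).symm
  simp only [h1]
  rw [← integral_finsetSum _ fun i _ => (Bm.sum _ fun j _ => hb i j).integrable]
  refine integral_congr_ae (Filter.Eventually.of_forall fun p => ?_)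
  simp only [dt]
  rw [Finset.sum_mul_sum]
  exact Finset.sum_congr rfl fun i _ => Finset.sum_congr rfl fun j _ => by ring

lemma sum3 {F G H : ι → Y → ℝ} (hF : ∀ i, Bm (F i)) (hG : ∀ i, Bm (G i)) (hH : ∀ i, Bm (H i))
    {P : Y → ℝ} (hP : Bm P) :
    ∑ i, ∑ j, ∑ k, (∫ y, P y * (F i y * G j y * H k y) ∂ρ) ^ 2 =
      ∫ p, (P p.1 * P p.2) * (dt F p * dt G p * dt H p) ∂(ρ.prod ρ) := by
  simp only [sq_int]
  have hb : ∀ i j k, Bm fun p : Y × Y => (P p.1 * (F i p.1 * G j p.1 * H k p.1)) *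
      (P p.2 * (F i p.2 * G j p.2 * H k p.2)) := fun i j k =>
    (bm_fst (hP.mul (((hF i).mul (hG j)).mul (hH k)))).mul
      (bm_snd (hP.mul (((hF i).mul (hG j)).mul (hH k))))
  have h1 : ∀ i j, ∑ k, ∫ p, (P p.1 * (F i p.1 * G j p.1 * H k p.1)) *
      (P p.2 * (F i p.2 * G j p.2 * H k p.2)) ∂(ρ.prod ρ) =
      ∫ p, ∑ k, (P p.1 * (F i p.1 * G j p.1 * H k p.1)) *
      (P p.2 * (F i p.2 * G j p.2 * H k p.2)) ∂(ρ.prod ρ) := fun i j =>
    (integral_finsetSum _ fun k _ => (hb i j k).integrable).symm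
  simp only [h1]
  have h2 : ∀ i, ∑ j, ∫ p, ∑ k, (P p.1 * (F i p.1 * G j p.1 * H k p.1)) *
      (P p.2 * (F i p.2 * G j p.2 * H k p.2)) ∂(ρ.prod ρ) =
      ∫ p, ∑ j, ∑ k, (P p.1 * (F i p.1 * G j p.1 * H k p.1)) *
      (P p.2 * (F i p.2 * G j p.2 * H k p.2)) ∂(ρ.prod ρ) := fun i =>
    (integral_finsetSum _ fun j _ => (Bm.sum _ fun k _ => hb i j k).integrable).symm
  simp only [h2]
  rw [← integral_finsetSum _ fun i _ => (Bm.sum _ fun j _ => Bm.sum _ fun k _ =>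
    hb i j k).integrable]
  refine integral_congr_ae (Filter.Eventually.of_forall fun p => ?_)
  simp only [dt]
  rw [Finset.sum_mul_sum, Finset.sum_mul_sum, Finset.mul_sum]
  refine Finset.sum_congr rfl fun i _ => ?_
  rw [Finset.mul_sum, Finset.sum_comm]
  refine Finset.sum_congr rfl fun k _ => ?_
  rw [Finset.sum_mul, Finset.mul_sum]
  exact Finset.sum_congr rfl fun j _ => by ring

/-! ### Hölder with a parameter -/

lemma prod_le1 {P0 a b t η : ℝ} (ha : |a| ≤ P0) (hb : |b| ≤ P0) (h0 : 0 < η) :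
    (a * b) * t ≤ P0 ^ 2 * (η / 2 + 1 / (2 * η) * t ^ 2) := by
  have hP : 0 ≤ P0 := (abs_nonneg a).trans ha
  have h1 : |a * b * t| ≤ P0 ^ 2 * |t| := by
    rw [abs_mul, abs_mul, sq]
    exact mul_le_mul_of_nonneg_right (mul_le_mul ha hb (abs_nonneg _) hP) (abs_nonneg _)
  have h2 : |t| ≤ η / 2 + 1 / (2 * η) * t ^ 2 := by
    have k2 : 0 ≤ (η - |t|) ^ 2 / (2 * η) := by positivity
    have k3 : (η - |t|) ^ 2 / (2 * η) = η / 2 - |t| + 1 / (2 * η) * t ^ 2 := by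
      rw [← sq_abs t]
      field_simp
      ring
    linarith
  exact (le_abs_self _).trans (h1.trans (mul_le_mul_of_nonneg_left h2 (sq_nonneg _)))

lemma prod_le3 {P0 a b f g h η : ℝ} (ha : |a| ≤ P0) (hb : |b| ≤ P0) (h0 : 0 < η) :
    (a * b) * (f * g * h) ≤
      P0 ^ 2 * (1 / (2 * η) * f ^ 2 + η / 4 * (g ^ 4 + h ^ 4)) := by
  have hP : 0 ≤ P0 := (abs_nonneg a).trans ha
  have h1 : |a * b * (f * g * h)| ≤ P0 ^ 2 * |f * g * h| := by
    rw [abs_mul, abs_mul, sq]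
    exact mul_le_mul_of_nonneg_right (mul_le_mul ha hb (abs_nonneg _) hP) (abs_nonneg _)
  have h2 : |f * g * h| ≤ 1 / (2 * η) * f ^ 2 + η / 4 * (g ^ 4 + h ^ 4) := by
    have k2 : 0 ≤ (η * (|g| * |h|) - |f|) ^ 2 / (2 * η) := by positivity
    have k3 : (η * (|g| * |h|) - |f|) ^ 2 / (2 * η) =
        η / 2 * (g ^ 2 * h ^ 2) - |f * g * h| + 1 / (2 * η) * f ^ 2 := by
      rw [← sq_abs f, ← sq_abs g, ← sq_abs h, abs_mul, abs_mul]
      field_simp
      ring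
    have k4 : g ^ 2 * h ^ 2 ≤ (g ^ 4 + h ^ 4) / 2 := by nlinarith [sq_nonneg (g ^ 2 - h ^ 2)]
    have k5 := mul_le_mul_of_nonneg_left k4 (by positivity : 0 ≤ η / 2)
    linarith
  exact (le_abs_self _).trans (h1.trans (mul_le_mul_of_nonneg_left h2 (sq_nonneg _)))

lemma ci1 {F : ι → Y → ℝ} (hF : ∀ i, Bm (F i)) {T : Y → ℝ} (hT : Bm T) {P0 : ℝ}
    (hb : ∀ y, |T y| ≤ P0) {η : ℝ} (h0 : 0 < η) :
    ∑ i, (∫ y, T y * F i y ∂ρ) ^ 2 ≤
      P0 ^ 2 * (η / 2 + 1 / (2 * η) * ∫ p, dt F p ^ 2 ∂(ρ.prod ρ)) := by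
  rw [sum1 hF hT]
  have hd := bm_dt hF
  have h1 : P0 ^ 2 * (η / 2 + 1 / (2 * η) * ∫ p, dt F p ^ 2 ∂(ρ.prod ρ)) =
      ∫ p, P0 ^ 2 * (η / 2 + 1 / (2 * η) * dt F p ^ 2) ∂(ρ.prod ρ) := by
    rw [integral_const_mul, integral_add (integrable_const _) ((hd.pow 2).const_mul _).integrable,
      integral_const_mul]
    simp
  rw [h1]
  refine integral_mono (((bm_fst hT).mul (bm_snd hT)).mul hd).integrable
    (((Bm.const _).add ((hd.pow 2).const_mul _)).const_mul _).integrable fun p => ?_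
  exact prod_le1 (hb p.1) (hb p.2) h0

lemma ci2 {F G : ι → Y → ℝ} (hF : ∀ i, Bm (F i)) (hG : ∀ i, Bm (G i)) :
    ∑ i, ∑ j, (∫ y, F i y * G j y ∂ρ) ^ 2 ≤
      1 / 2 * (∫ p, dt F p ^ 2 ∂(ρ.prod ρ) + ∫ p, dt G p ^ 2 ∂(ρ.prod ρ)) := by
  rw [sum2 hF hG]
  have hd := bm_dt hF
  have hd' := bm_dt hG
  rw [← integral_add (hd.pow 2).integrable (hd'.pow 2).integrable, ← integral_const_mul]
  refine integral_mono (hd.mul hd').integrable
    (((hd.pow 2).add (hd'.pow 2)).const_mul _).integrable fun p => ?_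
  show dt F p * dt G p ≤ 1 / 2 * (dt F p ^ 2 + dt G p ^ 2)
  nlinarith [sq_nonneg (dt F p - dt G p)]

lemma ci3 {F G H : ι → Y → ℝ} (hF : ∀ i, Bm (F i)) (hG : ∀ i, Bm (G i)) (hH : ∀ i, Bm (H i))
    {P : Y → ℝ} (hP : Bm P) {P0 : ℝ} (hb : ∀ y, |P y| ≤ P0) {η : ℝ} (h0 : 0 < η) :
    ∑ i, ∑ j, ∑ k, (∫ y, P y * (F i y * G j y * H k y) ∂ρ) ^ 2 ≤
      P0 ^ 2 * (1 / (2 * η) * ∫ p, dt F p ^ 2 ∂(ρ.prod ρ) +
        η / 4 * (∫ p, dt G p ^ 4 ∂(ρ.prod ρ) + ∫ p, dt H p ^ 4 ∂(ρ.prod ρ))) := by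
  rw [sum3 hF hG hH hP]
  have hdF := bm_dt hF
  have hdG := bm_dt hG
  have hdH := bm_dt hH
  have h1 : P0 ^ 2 * (1 / (2 * η) * ∫ p, dt F p ^ 2 ∂(ρ.prod ρ) +
        η / 4 * (∫ p, dt G p ^ 4 ∂(ρ.prod ρ) + ∫ p, dt H p ^ 4 ∂(ρ.prod ρ))) =
      ∫ p, P0 ^ 2 * (1 / (2 * η) * dt F p ^ 2 + η / 4 * (dt G p ^ 4 + dt H p ^ 4))
        ∂(ρ.prod ρ) := by
    rw [integral_const_mul, integral_add ((hdF.pow 2).const_mul _).integrable
      (((hdG.pow 4).add (hdH.pow 4)).const_mul _).integrable, integral_const_mul,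
      integral_const_mul, integral_add (hdG.pow 4).integrable (hdH.pow 4).integrable]
  rw [h1]
  refine integral_mono (((bm_fst hP).mul (bm_snd hP)).mul ((hdF.mul hdG).mul hdH)).integrable
    ((((hdF.pow 2).const_mul _).add (((hdG.pow 4).add (hdH.pow 4)).const_mul _)).const_mul
      _).integrable fun p => ?_
  exact prod_le3 (hb p.1) (hb p.2) h0

/-! ### linear forms in exchangeable families -/

variable {R : Type} [Fintype R]

/-- the combination of a family. -/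
def cb (α : R → ℝ) (t : R → ι → Y → ℝ) (i : ι) (y : Y) : ℝ := ∑ a, α a * t a i y

lemma bm_cb (α : R → ℝ) {t : R → ι → Y → ℝ} (ht : ∀ a i, Bm (t a i)) (i : ι) :
    Bm (cb α t i) := Bm.sum _ fun a _ => (ht a i).const_mul _

lemma wsq (w x : R → ℝ) : (∑ a, w a * x a) ^ 2 ≤ (∑ a, |w a|) * ∑ a, |w a| * x a ^ 2 := by
  refine Finset.sum_sq_le_sum_mul_sum_of_sq_le_mul _ (fun a _ => abs_nonneg _)
    (fun a _ => mul_nonneg (abs_nonneg _) (sq_nonneg _)) fun a _ => le_of_eq ?_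
  rw [mul_pow, ← sq_abs (w a)]
  ring

/-- the scalar product of two members. -/
def dt2 (t : R → ι → Y → ℝ) (a b : R) (p : Y × Y) : ℝ := ∑ i, t a i p.1 * t b i p.2

lemma bm_dt2 {t : R → ι → Y → ℝ} (ht : ∀ a i, Bm (t a i)) (a b : R) : Bm (dt2 t a b) :=
  Bm.sum _ fun i _ => (bm_fst (ht a i)).mul (bm_snd (ht b i))

lemma dt_cb (α : R → ℝ) (t : R → ι → Y → ℝ) (p : Y × Y) :
    dt (cb α t) p = ∑ a, α a * ∑ b, α b * dt2 t a b p := by
  unfold dt cb dt2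
  have h1 : ∀ i, (∑ a, α a * t a i p.1) * (∑ a, α a * t a i p.2) =
      ∑ a, ∑ b, α a * (α b * (t a i p.1 * t b i p.2)) := fun i => by
    rw [Finset.sum_mul_sum]
    exact Finset.sum_congr rfl fun a _ => Finset.sum_congr rfl fun b _ => by ring
  simp only [h1]
  rw [Finset.sum_comm]
  refine Finset.sum_congr rfl fun a _ => ?_
  rw [Finset.sum_comm, Finset.mul_sum]
  refine Finset.sum_congr rfl fun b _ => ?_
  rw [Finset.mul_sum, Finset.mul_sum]

lemma dt_cb_sq (α : R → ℝ) (t : R → ι → Y → ℝ) (p : Y × Y) :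
    dt (cb α t) p ^ 2 ≤ (∑ a, |α a|) ^ 2 * ∑ a, |α a| * ∑ b, |α b| * dt2 t a b p ^ 2 := by
  rw [dt_cb]
  have h0 : 0 ≤ ∑ a, |α a| := Finset.sum_nonneg fun a _ => abs_nonneg _
  refine (wsq α fun a => ∑ b, α b * dt2 t a b p).trans ?_
  rw [sq, mul_assoc]
  refine mul_le_mul_of_nonneg_left ?_ h0
  rw [Finset.mul_sum]
  refine Finset.sum_le_sum fun a _ => ?_
  refine (mul_le_mul_of_nonneg_left (wsq α fun b => dt2 t a b p) (abs_nonneg _)).trans
    (le_of_eq (by ring))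

lemma dt_cb_four (α : R → ℝ) (t : R → ι → Y → ℝ) (p : Y × Y) :
    dt (cb α t) p ^ 4 ≤ (∑ a, |α a|) ^ 6 * ∑ a, |α a| * ∑ b, |α b| * dt2 t a b p ^ 4 := by
  have h0 : 0 ≤ ∑ a, |α a| := Finset.sum_nonneg fun a _ => abs_nonneg _
  set A := ∑ a, |α a| with hA
  have e : dt (cb α t) p ^ 4 = (dt (cb α t) p ^ 2) ^ 2 := by ring
  rw [e]
  have h1 := pow_le_pow_left₀ (sq_nonneg (dt (cb α t) p)) (dt_cb_sq α t p) 2
  refine h1.trans ?_
  rw [← hA, mul_pow]
  have h2 : (∑ a, |α a| * ∑ b, |α b| * dt2 t a b p ^ 2) ^ 2 ≤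
      A * (A * ∑ a, |α a| * ∑ b, |α b| * dt2 t a b p ^ 4) := by
    refine (wsq (fun a => |α a|) fun a => ∑ b, |α b| * dt2 t a b p ^ 2).trans ?_
    simp only [abs_abs]
    rw [← hA]
    refine mul_le_mul_of_nonneg_left ?_ h0
    rw [Finset.mul_sum]
    refine Finset.sum_le_sum fun a _ => ?_
    have h3 := wsq (fun b => |α b|) fun b => dt2 t a b p ^ 2
    simp only [abs_abs] at h3
    refine (mul_le_mul_of_nonneg_left h3 (abs_nonneg _)).trans (le_of_eq ?_)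
    rw [← hA]
    have : ∀ b, (dt2 t a b p ^ 2) ^ 2 = dt2 t a b p ^ 4 := fun b => by ring
    simp only [this]
    ring
  refine (mul_le_mul_of_nonneg_left h2 (by positivity)).trans (le_of_eq (by ring))

/-- an exchangeable family: the second moments do not depend on the member. -/
lemma dt2_int {t : R → ι → Y → ℝ} (ht : ∀ a i, Bm (t a i)) {c2 : ι → ι → ℝ}
    (hc : ∀ a i j, ∫ y, t a i y * t a j y ∂ρ = c2 i j) (a b : R) :
    ∫ p, dt2 t a b p ^ 2 ∂(ρ.prod ρ) = ∑ i, ∑ j, c2 i j ^ 2 := by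
  have e : ∀ p : Y × Y, dt2 t a b p ^ 2 =
      ∑ i, ∑ j, (t a i p.1 * t a j p.1) * (t b i p.2 * t b j p.2) := fun p => by
    unfold dt2
    rw [sq, Finset.sum_mul_sum]
    exact Finset.sum_congr rfl fun i _ => Finset.sum_congr rfl fun j _ => by ring
  simp only [e]
  have hb : ∀ i j, Bm fun p : Y × Y => (t a i p.1 * t a j p.1) * (t b i p.2 * t b j p.2) :=
    fun i j => (bm_fst ((ht a i).mul (ht a j))).mul (bm_snd ((ht b i).mul (ht b j)))
  rw [integral_finsetSum _ fun i _ => (Bm.sum _ fun j _ => hb i j).integrable]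
  refine Finset.sum_congr rfl fun i _ => ?_
  rw [integral_finsetSum _ fun j _ => (hb i j).integrable]
  refine Finset.sum_congr rfl fun j _ => ?_
  rw [integral_prod_mul (fun y => t a i y * t a j y) (fun y => t b i y * t b j y), hc, hc, sq]

lemma dt4_int {t : R → ι → Y → ℝ} (ht : ∀ a i, Bm (t a i)) {c4 : ι → ι → ι → ι → ℝ}
    (hc : ∀ a i j k l, ∫ y, (t a i y * t a j y) * (t a k y * t a l y) ∂ρ = c4 i j k l) (a b : R) :
    ∫ p, dt2 t a b p ^ 4 ∂(ρ.prod ρ) = ∑ i, ∑ j, ∑ k, ∑ l, c4 i j k l ^ 2 := by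
  have hb : ∀ i j k l, Bm fun p : Y × Y => ((t a i p.1 * t a j p.1) * (t a k p.1 * t a l p.1)) *
      ((t b i p.2 * t b j p.2) * (t b k p.2 * t b l p.2)) := fun i j k l =>
    (bm_fst (((ht a i).mul (ht a j)).mul ((ht a k).mul (ht a l)))).mul
      (bm_snd (((ht b i).mul (ht b j)).mul ((ht b k).mul (ht b l))))
  have e : ∀ p : Y × Y, dt2 t a b p ^ 4 =
      ∑ i, ∑ j, ∑ k, ∑ l, ((t a i p.1 * t a j p.1) * (t a k p.1 * t a l p.1)) *
      ((t b i p.2 * t b j p.2) * (t b k p.2 * t b l p.2)) := fun p => by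
    have e2 : dt2 t a b p ^ 2 = ∑ i, ∑ j, (t a i p.1 * t b i p.2) * (t a j p.1 * t b j p.2) := by
      unfold dt2
      rw [sq, Finset.sum_mul_sum]
    have e4 : dt2 t a b p ^ 4 = dt2 t a b p ^ 2 * dt2 t a b p ^ 2 := by ring
    rw [e4]
    nth_rewrite 1 [e2]
    rw [Finset.sum_mul]
    refine Finset.sum_congr rfl fun i _ => ?_
    rw [Finset.sum_mul]
    refine Finset.sum_congr rfl fun j _ => ?_
    rw [e2, Finset.mul_sum]
    refine Finset.sum_congr rfl fun k _ => ?_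
    rw [Finset.mul_sum]
    exact Finset.sum_congr rfl fun l _ => by ring
  simp only [e]
  rw [integral_finsetSum _ fun i _ => (Bm.sum _ fun j _ => Bm.sum _ fun k _ => Bm.sum _ fun l _ =>
    hb i j k l).integrable]
  refine Finset.sum_congr rfl fun i _ => ?_
  rw [integral_finsetSum _ fun j _ => (Bm.sum _ fun k _ => Bm.sum _ fun l _ =>
    hb i j k l).integrable]
  refine Finset.sum_congr rfl fun j _ => ?_
  rw [integral_finsetSum _ fun k _ => (Bm.sum _ fun l _ => hb i j k l).integrable]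
  refine Finset.sum_congr rfl fun k _ => ?_
  rw [integral_finsetSum _ fun l _ => (hb i j k l).integrable]
  refine Finset.sum_congr rfl fun l _ => ?_
  rw [integral_prod_mul (fun y => (t a i y * t a j y) * (t a k y * t a l y))
    (fun y => (t b i y * t b j y) * (t b k y * t b l y)), hc, hc, sq]

/-- second moment of a combination. -/
theorem cb_two (α : R → ℝ) {t : R → ι → Y → ℝ} (ht : ∀ a i, Bm (t a i)) {c2 : ι → ι → ℝ}
    (hc : ∀ a i j, ∫ y, t a i y * t a j y ∂ρ = c2 i j) :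
    ∫ p, dt (cb α t) p ^ 2 ∂(ρ.prod ρ) ≤ (∑ a, |α a|) ^ 4 * ∑ i, ∑ j, c2 i j ^ 2 := by
  have hd : ∀ a b, Bm fun p => |α b| * dt2 t a b p ^ 2 := fun a b =>
    ((bm_dt2 ht a b).pow 2).const_mul _
  refine (integral_mono ((bm_dt (bm_cb α ht)).pow 2).integrable
    ((Bm.sum _ fun a _ => (Bm.sum _ fun b _ => hd a b).const_mul (|α a|)).const_mul
      ((∑ a, |α a|) ^ 2)).integrable fun p => dt_cb_sq α t p).trans (le_of_eq ?_)
  rw [integral_const_mul, integral_finsetSum _ fun a _ =>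
    ((Bm.sum _ fun b _ => hd a b).const_mul (|α a|)).integrable]
  have h1 : ∀ a, ∫ p, |α a| * ∑ b, |α b| * dt2 t a b p ^ 2 ∂(ρ.prod ρ) =
      |α a| * ((∑ b, |α b|) * ∑ i, ∑ j, c2 i j ^ 2) := fun a => by
    rw [integral_const_mul, integral_finsetSum _ fun b _ => (hd a b).integrable, Finset.sum_mul]
    congr 1
    refine Finset.sum_congr rfl fun b _ => ?_
    rw [integral_const_mul, dt2_int ht hc]
  simp only [h1]
  rw [← Finset.sum_mul]
  ring

/-- fourth moment of a combination. -/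
theorem cb_four (α : R → ℝ) {t : R → ι → Y → ℝ} (ht : ∀ a i, Bm (t a i))
    {c4 : ι → ι → ι → ι → ℝ}
    (hc : ∀ a i j k l, ∫ y, (t a i y * t a j y) * (t a k y * t a l y) ∂ρ = c4 i j k l) :
    ∫ p, dt (cb α t) p ^ 4 ∂(ρ.prod ρ) ≤
      (∑ a, |α a|) ^ 8 * ∑ i, ∑ j, ∑ k, ∑ l, c4 i j k l ^ 2 := by
  have hd : ∀ a b, Bm fun p => |α b| * dt2 t a b p ^ 4 := fun a b =>
    ((bm_dt2 ht a b).pow 4).const_mul _
  refine (integral_mono ((bm_dt (bm_cb α ht)).pow 4).integrable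
    ((Bm.sum _ fun a _ => (Bm.sum _ fun b _ => hd a b).const_mul (|α a|)).const_mul
      ((∑ a, |α a|) ^ 6)).integrable fun p => dt_cb_four α t p).trans (le_of_eq ?_)
  rw [integral_const_mul, integral_finsetSum _ fun a _ =>
    ((Bm.sum _ fun b _ => hd a b).const_mul (|α a|)).integrable]
  have h1 : ∀ a, ∫ p, |α a| * ∑ b, |α b| * dt2 t a b p ^ 4 ∂(ρ.prod ρ) =
      |α a| * ((∑ b, |α b|) * ∑ i, ∑ j, ∑ k, ∑ l, c4 i j k l ^ 2) := fun a => by
    rw [integral_const_mul, integral_finsetSum _ fun b _ => (hd a b).integrable, Finset.sum_mul]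
    congr 1
    refine Finset.sum_congr rfl fun b _ => ?_
    rw [integral_const_mul, dt4_int ht hc]
  simp only [h1]
  rw [← Finset.sum_mul]
  ring

end Vale.Agent.P146.H498
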