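import Vale.Agent.P146.H498.Low
import Vale.Agent.P146.H498.C3n
import Vale.Agent.P146.H498.Pair

/-!
The density and the numerator of a block of coordinates, in the form of `Til` and `D3`.
-/

open MeasureTheory ProbabilityTheory

namespace Vale.Agent.P146.H498

open Vale.Agent.P157.Lv Vale.Agent.P146.H425 Vale.Agent.P146.H325 Vale.Agent.P146.H646
  Vale.Agent.P146.H196 Vale.Agent.P146.H946

set_option linter.unusedSectionVars false

variable {ι : Type} [Fintype ι] [DecidableEq ι] {Ω : Type} [MeasurableSpace Ω]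
  {R : Type} [Fintype R]

variable {μ : Measure Ω} {k : ℝ} {S : ι → Ω → ℝ} {M0 : ℝ}

/-- the expectation of a function of the replicas given the coordinates in `K`. -/
noncomputable def Ey (μ : Measure Ω) (k : ℝ) (S : ι → Ω → ℝ) (x : ℝ) (K : Finset ι)
    (h : (R → Ω) → ℝ) (y : ι → ℝ) : ℝ := cx (gs ι) K (Zxm μ k S x) (avR μ k S R h) y

/-- the expectation of a function of one replica given the coordinates in `K`. -/
noncomputable def E1 (μ : Measure Ω) (k : ℝ) (S : ι → Ω → ℝ) (x : ℝ) (K : Finset ι)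
    (g : Ω → ℝ) (y : ι → ℝ) : ℝ := cx (gs ι) K (Zxm μ k S x) (avm μ k S g) y

/-- the law of the replicas given the coordinates in `K`. -/
noncomputable def rho (μ : Measure Ω) (k : ℝ) (S : ι → Ω → ℝ) (x : ℝ) (R : Type) [Fintype R]
    (K : Finset ι) (y : ι → ℝ) : Measure ((ι → ℝ) × (R → Ω)) :=
  ann μ k S (Measure.pi fun _ : R => μ) (SR R S) x K y

lemma rho_prob (hG : GM μ S M0) (k x : ℝ) (K : Finset ι) (y : ι → ℝ) :
    IsProbabilityMeasure (rho μ k S x R K y) := ann_prob hG (hG.pi R) k x K y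

lemma Ey_eq (hG : GM μ S M0) (k x : ℝ) (K : Finset ι) {h : (R → Ω) → ℝ} (hh : Bm h)
    (y : ι → ℝ) : Ey μ k S x K h y = ∫ p, h p.2 ∂(rho μ k S x R K y) :=
  (int_ann hG (hG.pi R) k x K y hh).symm

lemma E1_eq (hG : GM μ S M0) (k x : ℝ) (K : Finset ι) {g : Ω → ℝ} (hg : Bm g) (a : R)
    (y : ι → ℝ) : ∫ p, g (p.2 a) ∂(rho μ k S x R K y) = E1 μ k S x K g y := by
  have h1 := Ey_eq hG k x K (hg.at a) y
  unfold Ey at h1
  unfold E1
  rw [← h1]
  congr 1
  funext u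
  exact hG.avR_one k a g u

/-! ### the density -/

/-- The data of a block. -/
structure Blk (μ : Measure Ω) (k : ℝ) (S : ι → Ω → ℝ) (M0 x : ℝ) (K0 K : Finset ι)
    (F : Finset ι) (T : Ω → Ω) (b0 : ℝ) : Prop where
  hG : GM μ S M0
  sym : Sym μ S F T
  x0 : 0 < x
  x1 : x ≤ 1
  hK : K0 ⊆ K
  dj : ∀ e ∈ K0, e ∉ F
  sub : K \ K0 ⊆ F
  b0p : 0 < b0
  hb : ∀ w, ∑ e, SA (K \ K0) k S e w ^ 2 ≤ b0 ^ 2
  xb : x * b0 ≤ 1 / 2
  xb2 : x * b0 ^ 2 ≤ 1

/-- the normalised numerator. -/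
noncomputable def nr (μ : Measure Ω) (k : ℝ) (S : ι → Ω → ℝ) (x : ℝ) (K0 K : Finset ι)
    (z : ι → ℝ) (h : (R → Ω) → ℝ) (B : ι → ℝ) : ℝ :=
  (wn (gs ι) K0 (Zxm μ k S x) z)⁻¹ * nb μ k S x K0 K z h B

/-- the density. -/
noncomputable def WB (μ : Measure Ω) (k : ℝ) (S : ι → Ω → ℝ) (x : ℝ) (K0 K : Finset ι)
    (z : ι → ℝ) (B : ι → ℝ) : ℝ :=
  (wn (gs ι) K0 (Zxm μ k S x) z)⁻¹ * wn (gs ι) K (Zxm μ k S x) (glue K0 z B)

section reg

variable (hG : GM μ S M0) (k x : ℝ) (K0 K : Finset ι) (z : ι → ℝ)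
include hG

lemma nr_one : nr μ k S x K0 K z (fun _ : Empty → Ω => 1) = WB μ k S x K0 K z := by
  funext B
  unfold nr WB
  rw [wn_eq_nb hG]

lemma nr_eq (h : (R → Ω) → ℝ) (B : ι → ℝ) : nr μ k S x K0 K z h B =
    WB μ k S x K0 K z B * Ey μ k S x K h (glue K0 z B) := by
  unfold nr nb WB Ey
  rw [nm_eq_cx hG]
  ring

lemma eg_nr {h : (R → Ω) → ℝ} (hh : Bm h) : EG (nr μ k S x K0 K z h) :=
  (eg_nb hG k x K0 K z hh).const_mul _

lemma pd_nr (e : ι) {h : (R → Ω) → ℝ} (hh : Bm h) :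
    PD e (nr μ k S x K0 K z h) (nr μ k S x K0 K z (dR (SA (K \ K0) k S) x e h)) :=
  (pd_nb hG k x z e hh).const_mul _

lemma bdR (e : ι) {h : (R → Ω) → ℝ} (hh : Bm h) : Bm (dR (SA (K \ K0) k S) x e h) :=
  bm_dR (bm_SA hG _ k) x e hh

lemma d2_nr {h : (R → Ω) → ℝ} (hh : Bm h) : D2 (nr μ k S x K0 K z h)
    (fun i => nr μ k S x K0 K z (dR (SA (K \ K0) k S) x i h))
    (fun i j => nr μ k S x K0 K z (dR (SA (K \ K0) k S) x j (dR (SA (K \ K0) k S) x i h))) :=
  ⟨eg_nr hG k x K0 K z hh, fun i => eg_nr hG k x K0 K z (bdR hG k x K0 K i hh),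
    fun i j => eg_nr hG k x K0 K z (bdR hG k x K0 K j (bdR hG k x K0 K i hh)),
    fun i => pd_nr hG k x K0 K z i hh,
    fun i j => pd_nr hG k x K0 K z j (bdR hG k x K0 K i hh)⟩

lemma d3_nr {h : (R → Ω) → ℝ} (hh : Bm h) : D3 (nr μ k S x K0 K z h)
    (fun i => nr μ k S x K0 K z (dR (SA (K \ K0) k S) x i h))
    (fun i j => nr μ k S x K0 K z (dR (SA (K \ K0) k S) x j (dR (SA (K \ K0) k S) x i h)))
    (fun i j l => nr μ k S x K0 K z (dR (SA (K \ K0) k S) x l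
      (dR (SA (K \ K0) k S) x j (dR (SA (K \ K0) k S) x i h)))) :=
  ⟨d2_nr hG k x K0 K z hh, fun i j l => eg_nr hG k x K0 K z
    (bdR hG k x K0 K l (bdR hG k x K0 K j (bdR hG k x K0 K i hh))),
    fun i j l => pd_nr hG k x K0 K z l (bdR hG k x K0 K j (bdR hG k x K0 K i hh))⟩

lemma wn0_pos : 0 < wn (gs ι) K0 (Zxm μ k S x) z := (hG.wt k x).wn_pos K0 z

/-- the mean of a numerator. -/
lemma int_nr {K0 K : Finset ι} (hK : K0 ⊆ K) {h : (R → Ω) → ℝ} (hh : Bm h) :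
    ∫ B, nr μ k S x K0 K z h B ∂(gI ι) = Ey μ k S x K0 h z := by
  unfold nr
  rw [integral_const_mul, int_nb hG k x hK z hh, nm_eq_cx hG, ← mul_assoc,
    inv_mul_cancel₀ (wn0_pos hG k x K0 z).ne', one_mul]
  rfl

/-- averages with the density `WB`. -/
lemma int_WB {K0 K : Finset ι} (hK : K0 ⊆ K) {φ : (ι → ℝ) → ℝ} (hd : H646.Dep K φ)
    (hi : Integrable (fun B => Zxm μ k S x (glue K0 z B) * φ (glue K0 z B)) (gI ι)) :
    ∫ B, WB μ k S x K0 K z B * φ (glue K0 z B) ∂(gI ι) = cx (gs ι) K0 (Zxm μ k S x) φ z := by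
  have h1 := int_glue2 hK z (f := fun u => Zxm μ k S x u * φ u) hi
  have h2 : ∀ B, ∫ w, Zxm μ k S x (glue K (glue K0 z B) w) * φ (glue K (glue K0 z B) w) ∂(gI ι) =
      wn (gs ι) K (Zxm μ k S x) (glue K0 z B) * φ (glue K0 z B) := fun B => by
    unfold wn
    rw [← integral_mul_const]
    refine integral_congr_ae (Filter.Eventually.of_forall fun w => ?_)
    simp only
    rw [hd]
  simp only [h2] at h1
  unfold WB cx
  rw [div_eq_inv_mul, ← h1, ← integral_const_mul]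
  exact integral_congr_ae (Filter.Eventually.of_forall fun B => by simp only; ring)

end reg

namespace Blk

variable {x : ℝ} {K0 K F : Finset ι} {T : Ω → Ω} {b0 : ℝ}
  (h : Blk μ k S M0 x K0 K F T b0)
include h

lemma WB_lb (z B : ι → ℝ) : 1 / 2 ≤ WB μ k S x K0 K z B := by
  have h0 := wn0_pos h.hG k x K0 z
  have h1 := wn_mean h.hG k h.x0.le h.x1 h.hK z h.hb
  have h2 := wn_min h.sym h.hG k x h.dj h.sub z h.x0.le B
  have h3 : Real.exp (x * (b0 ^ 2 / 2)) ≤ 2 := by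
    have e1 : x * (b0 ^ 2 / 2) ≤ 1 / 2 := by have := h.xb2; linarith
    have e2 : Real.exp (1 / 2) ≤ 2 := by
      have e3 : Real.exp (1 / 2) ^ 2 = Real.exp 1 := by
        rw [← Real.exp_nat_mul]; norm_num
      have e4 := Real.exp_one_lt_d9
      have e5 := (Real.exp_pos (1 / 2 : ℝ))
      nlinarith
    exact (Real.exp_le_exp.2 e1).trans e2
  have hwB := (h.hG.wt k x).wn_pos K (glue K0 z B)
  have hw0 := (h.hG.wt k x).wn_pos K (glue K0 z 0)
  unfold WB
  rw [inv_mul_eq_div, le_div_iff₀ h0]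
  have h4 : wn (gs ι) K0 (Zxm μ k S x) z ≤ 2 * wn (gs ι) K (Zxm μ k S x) (glue K0 z 0) :=
    h1.trans (mul_le_mul_of_nonneg_right h3 hw0.le)
  linarith

/-- the first derivative of the density. -/
lemma E_dR1 (y : ι → ℝ) (e : ι) :
    Ey μ k S x K (dR (SA (K \ K0) k S) x e (fun _ : Empty → Ω => 1)) y =
      x * E1 μ k S x K (SA (K \ K0) k S e) y := by
  have hb := bm_SA h.hG (K \ K0) k e
  rw [Ey_eq h.hG k x K (bdR h.hG k x K0 K e (Bm.const 1)), ← E1_eq h.hG k x K hb (none : Option Empty),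
    ← integral_const_mul]
  refine integral_congr_ae (Filter.Eventually.of_forall fun p => ?_)
  simp [dR]

omit h in
lemma sum_sq_int {Y : Type} [MeasurableSpace Y] {ρ : Measure Y} [IsProbabilityMeasure ρ]
    {G : ι → Y → ℝ} (hG : ∀ i, Bm (G i)) {b : ℝ} (hb : ∀ p, ∑ i, G i p ^ 2 ≤ b) :
    ∑ i, (∫ p, G i p ∂ρ) ^ 2 ≤ b := by
  have h1 : ∀ i, (∫ p, G i p ∂ρ) ^ 2 ≤ ∫ p, G i p ^ 2 ∂ρ := fun i => by
    set m := ∫ p, G i p ∂ρ with hm
    have h2 : 0 ≤ ∫ p, (G i p - m) ^ 2 ∂ρ := integral_nonneg fun p => sq_nonneg _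
    have h3 : ∀ p, (G i p - m) ^ 2 = (G i p ^ 2 - 2 * m * G i p) + m ^ 2 := fun p => by ring
    simp only [h3] at h2
    rw [integral_add ((((hG i).pow 2).sub ((hG i).const_mul _)).integrable) (integrable_const _),
      integral_sub ((hG i).pow 2).integrable ((hG i).const_mul _).integrable,
      integral_const_mul, ← hm] at h2
    simp at h2
    linarith
  refine (Finset.sum_le_sum fun i _ => h1 i).trans ?_
  rw [← integral_finsetSum _ fun i _ => ((hG i).pow 2).integrable]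
  refine (integral_mono (Bm.sum _ fun i _ => (hG i).pow 2).integrable (integrable_const b)
    hb).trans (le_of_eq (by simp))

lemma til (z : ι → ℝ) : Til (WB μ k S x K0 K z)
    (fun i => nr μ k S x K0 K z (dR (SA (K \ K0) k S) x i (fun _ : Empty → Ω => 1)))
    (fun i j => nr μ k S x K0 K z (dR (SA (K \ K0) k S) x j
      (dR (SA (K \ K0) k S) x i (fun _ : Empty → Ω => 1)))) (x * b0) := by
  have hG := h.hG
  refine ⟨?_, h.WB_lb z, fun B => ?_, ?_, mul_pos h.x0 h.b0p, h.xb, fun B => ?_⟩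
  · have := d2_nr hG k x K0 K z (h := fun _ : Empty → Ω => 1) (Bm.const 1)
    rw [nr_one hG] at this
    exact this
  · unfold WB
    rw [wn_even h.sym hG k x h.dj h.sub]
  · rw [← nr_one hG, int_nr hG k x z h.hK (Bm.const 1)]
    unfold Ey
    have : avR μ k S Empty (fun _ => (1 : ℝ)) = fun _ => 1 := by
      funext u; exact (hG.pi Empty).av_one k u
    rw [this, cx_one (hG.wt k x)]
  · simp only [nr_eq hG, h.E_dR1]
    have h1 : ∑ e, E1 μ k S x K (SA (K \ K0) k S e) (glue K0 z B) ^ 2 ≤ b0 ^ 2 := by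
      have := rho_prob (R := Unit) hG k x K (glue K0 z B)
      have h2 := sum_sq_int (ρ := rho μ k S x Unit K (glue K0 z B))
        (G := fun e p => SA (K \ K0) k S e (p.2 ())) (fun e => ?_) (b := b0 ^ 2)
        fun p => h.hb _
      · simp only [E1_eq hG k x K (bm_SA hG (K \ K0) k _) ()] at h2
        exact h2
      · obtain ⟨C, _, hb⟩ := (bm_SA hG (K \ K0) k e).2
        exact Bm.of ((bm_SA hG (K \ K0) k e).1.comp ((measurable_pi_apply ()).comp
          measurable_snd)) fun p => hb _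
    have h3 : ∀ e, (WB μ k S x K0 K z B * (x * E1 μ k S x K (SA (K \ K0) k S e)
        (glue K0 z B))) ^ 2 = (x ^ 2 * WB μ k S x K0 K z B ^ 2) *
          E1 μ k S x K (SA (K \ K0) k S e) (glue K0 z B) ^ 2 := fun e => by ring
    simp only [h3]
    rw [← Finset.mul_sum]
    refine (mul_le_mul_of_nonneg_left h1 (by positivity)).trans (le_of_eq (by ring))

end Blk

end Vale.Agent.P146.H498
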