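import Vale.Agent.P146.H498.Ins1

/-!
Bounds of the third derivative of the numerator and of the second derivative of the density by
moments of one replica.
-/

open MeasureTheory ProbabilityTheory

namespace Vale.Agent.P146.H498

open Vale.Agent.P157.Lv Vale.Agent.P146.H425 Vale.Agent.P146.H325 Vale.Agent.P146.H646
  Vale.Agent.P146.H196 Vale.Agent.P146.H946

set_option linter.unusedSectionVars false

section ci

variable {ι : Type} [Fintype ι] {Y : Type} [MeasurableSpace Y]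
  {ρ : Measure Y} [IsProbabilityMeasure ρ]

lemma prod_le3m {P0 a b f g h η : ℝ} (ha : |a| ≤ P0) (hb : |b| ≤ P0) (h0 : 0 < η) :
    (a * b) * (f * g * h) ≤
      P0 ^ 2 * (1 / (2 * η) * g ^ 2 + η / 4 * (f ^ 4 + h ^ 4)) := by
  have := prod_le3 (f := g) (g := f) (h := h) ha hb h0
  have e : f * g * h = g * f * h := by ring
  rw [e]
  exact this

lemma prod_le3l {P0 a b f g h η : ℝ} (ha : |a| ≤ P0) (hb : |b| ≤ P0) (h0 : 0 < η) :
    (a * b) * (f * g * h) ≤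
      P0 ^ 2 * (1 / (2 * η) * h ^ 2 + η / 4 * (f ^ 4 + g ^ 4)) := by
  have := prod_le3 (f := h) (g := f) (h := g) ha hb h0
  have e : f * g * h = h * f * g := by ring
  rw [e]
  exact this

lemma ci3m {F G H : ι → Y → ℝ} (hF : ∀ i, Bm (F i)) (hG : ∀ i, Bm (G i)) (hH : ∀ i, Bm (H i))
    {P : Y → ℝ} (hP : Bm P) {P0 : ℝ} (hb : ∀ y, |P y| ≤ P0) {η : ℝ} (h0 : 0 < η) :
    ∑ i, ∑ j, ∑ k, (∫ y, P y * (F i y * G j y * H k y) ∂ρ) ^ 2 ≤
      P0 ^ 2 * (1 / (2 * η) * ∫ p, dt G p ^ 2 ∂(ρ.prod ρ) +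
        η / 4 * (∫ p, dt F p ^ 4 ∂(ρ.prod ρ) + ∫ p, dt H p ^ 4 ∂(ρ.prod ρ))) := by
  rw [sum3 hF hG hH hP]
  have hdF := bm_dt hF
  have hdG := bm_dt hG
  have hdH := bm_dt hH
  have h1 : P0 ^ 2 * (1 / (2 * η) * ∫ p, dt G p ^ 2 ∂(ρ.prod ρ) +
        η / 4 * (∫ p, dt F p ^ 4 ∂(ρ.prod ρ) + ∫ p, dt H p ^ 4 ∂(ρ.prod ρ))) =
      ∫ p, P0 ^ 2 * (1 / (2 * η) * dt G p ^ 2 + η / 4 * (dt F p ^ 4 + dt H p ^ 4))
        ∂(ρ.prod ρ) := by
    rw [integral_const_mul, integral_add ((hdG.pow 2).const_mul _).integrable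
      (((hdF.pow 4).add (hdH.pow 4)).const_mul _).integrable, integral_const_mul,
      integral_const_mul, integral_add (hdF.pow 4).integrable (hdH.pow 4).integrable]
  rw [h1]
  refine integral_mono (((bm_fst hP).mul (bm_snd hP)).mul ((hdF.mul hdG).mul hdH)).integrable
    ((((hdG.pow 2).const_mul _).add (((hdF.pow 4).add (hdH.pow 4)).const_mul _)).const_mul
      _).integrable fun p => ?_
  exact prod_le3m (hb p.1) (hb p.2) h0

lemma ci3l {F G H : ι → Y → ℝ} (hF : ∀ i, Bm (F i)) (hG : ∀ i, Bm (G i)) (hH : ∀ i, Bm (H i))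
    {P : Y → ℝ} (hP : Bm P) {P0 : ℝ} (hb : ∀ y, |P y| ≤ P0) {η : ℝ} (h0 : 0 < η) :
    ∑ i, ∑ j, ∑ k, (∫ y, P y * (F i y * G j y * H k y) ∂ρ) ^ 2 ≤
      P0 ^ 2 * (1 / (2 * η) * ∫ p, dt H p ^ 2 ∂(ρ.prod ρ) +
        η / 4 * (∫ p, dt F p ^ 4 ∂(ρ.prod ρ) + ∫ p, dt G p ^ 4 ∂(ρ.prod ρ))) := by
  rw [sum3 hF hG hH hP]
  have hdF := bm_dt hF
  have hdG := bm_dt hG
  have hdH := bm_dt hH
  have h1 : P0 ^ 2 * (1 / (2 * η) * ∫ p, dt H p ^ 2 ∂(ρ.prod ρ) +
        η / 4 * (∫ p, dt F p ^ 4 ∂(ρ.prod ρ) + ∫ p, dt G p ^ 4 ∂(ρ.prod ρ))) =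
      ∫ p, P0 ^ 2 * (1 / (2 * η) * dt H p ^ 2 + η / 4 * (dt F p ^ 4 + dt G p ^ 4))
        ∂(ρ.prod ρ) := by
    rw [integral_const_mul, integral_add ((hdH.pow 2).const_mul _).integrable
      (((hdF.pow 4).add (hdG.pow 4)).const_mul _).integrable, integral_const_mul,
      integral_const_mul, integral_add (hdF.pow 4).integrable (hdG.pow 4).integrable]
  rw [h1]
  refine integral_mono (((bm_fst hP).mul (bm_snd hP)).mul ((hdF.mul hdG).mul hdH)).integrable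
    ((((hdH.pow 2).const_mul _).add (((hdF.pow 4).add (hdG.pow 4)).const_mul _)).const_mul
      _).integrable fun p => ?_
  exact prod_le3l (hb p.1) (hb p.2) h0

end ci

variable {ι : Type} [Fintype ι] [DecidableEq ι] {Ω : Type} [MeasurableSpace Ω]
  {R : Type} [Fintype R]

variable {μ : Measure Ω} {k : ℝ} {S : ι → Ω → ℝ} {M0 : ℝ}

/-! ### families of replicas -/

/-- a family of functions of one replica, seen on all the replicas. -/
def fam (τ : ι → Ω → ℝ) (a : R) (i : ι) (p : (ι → ℝ) × (R → Ω)) : ℝ := τ i (p.2 a)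

lemma bm_fam {τ : ι → Ω → ℝ} (hτ : ∀ i, Bm (τ i)) (a : R) (i : ι) : Bm (fam τ a i) := by
  obtain ⟨C, _, hb⟩ := (hτ i).2
  exact Bm.of ((hτ i).1.comp ((measurable_pi_apply a).comp measurable_snd)) fun p => hb _

/-- sum of the squares of the second moments. -/
noncomputable def q2 (μ : Measure Ω) (k : ℝ) (S : ι → Ω → ℝ) (x : ℝ) (K : Finset ι)
    (τ : ι → Ω → ℝ) (y : ι → ℝ) : ℝ := ∑ i, ∑ j, E1 μ k S x K (fun w => τ i w * τ j w) y ^ 2

/-- sum of the squares of the fourth moments. -/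
noncomputable def q4 (μ : Measure Ω) (k : ℝ) (S : ι → Ω → ℝ) (x : ℝ) (K : Finset ι)
    (τ : ι → Ω → ℝ) (y : ι → ℝ) : ℝ :=
  ∑ i, ∑ j, ∑ l, ∑ m, E1 μ k S x K (fun w => (τ i w * τ j w) * (τ l w * τ m w)) y ^ 2

lemma fam_two (hG : GM μ S M0) (k x : ℝ) (K : Finset ι) (y : ι → ℝ) {τ : ι → Ω → ℝ}
    (hτ : ∀ i, Bm (τ i)) (α : R → ℝ) :
    ∫ p, dt (cb α (fam τ)) p ^ 2 ∂((rho μ k S x R K y).prod (rho μ k S x R K y)) ≤
      (∑ a, |α a|) ^ 4 * q2 μ k S x K τ y := by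
  have := rho_prob (R := R) hG k x K y
  exact cb_two α (bm_fam hτ) fun a i j => E1_eq hG k x K ((hτ i).mul (hτ j)) a y

lemma fam_four (hG : GM μ S M0) (k x : ℝ) (K : Finset ι) (y : ι → ℝ) {τ : ι → Ω → ℝ}
    (hτ : ∀ i, Bm (τ i)) (α : R → ℝ) :
    ∫ p, dt (cb α (fam τ)) p ^ 4 ∂((rho μ k S x R K y).prod (rho μ k S x R K y)) ≤
      (∑ a, |α a|) ^ 8 * q4 μ k S x K τ y := by
  have := rho_prob (R := R) hG k x K y
  exact cb_four α (bm_fam hτ) fun a i j l m =>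
    E1_eq hG k x K (((hτ i).mul (hτ j)).mul ((hτ l).mul (hτ m))) a y

/-- the coefficients of a derivative. -/
def al (x : ℝ) (R : Type) [Fintype R] (a : Option R) : ℝ := a.elim (x - Fintype.card R) fun _ => 1

/-- extension by zero. -/
def ext0 {R : Type} (α : R → ℝ) (a : Option R) : ℝ := a.elim 0 α

lemma sum_al (x : ℝ) (R : Type) [Fintype R] :
    ∑ a, |al x R a| = |x - Fintype.card R| + Fintype.card R := by
  rw [Fintype.sum_option]
  simp [al]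

lemma sum_ext0 (α : R → ℝ) : ∑ a, |ext0 α a| = ∑ a, |α a| := by
  rw [Fintype.sum_option]
  simp [ext0]

lemma dR_cb (τ : ι → Ω → ℝ) (x : ℝ) (e : ι) (h : (R → Ω) → ℝ) (w : Option R → Ω) :
    dR τ x e h w = h (fun a => w (some a)) * ∑ a, al x R a * τ e (w a) := by
  unfold dR
  rw [Fintype.sum_option]
  simp only [al, Option.elim_none, Option.elim_some, one_mul]
  ring

lemma sum_ext (α : R → ℝ) (f : Option R → ℝ) :
    ∑ a, ext0 α a * f a = ∑ a, α a * f (some a) := by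
  rw [Fintype.sum_option]
  simp [ext0]

/-! ### the second derivative of the density -/

namespace Blk

variable {x : ℝ} {K0 K F : Finset ι} {T : Ω → Ω} {b0 : ℝ}
  (h : Blk μ k S M0 x K0 K F T b0)
include h

lemma E_dR2 (y : ι → ℝ) : ∑ i, ∑ j, Ey μ k S x K (dR (SA (K \ K0) k S) x j
    (dR (SA (K \ K0) k S) x i (fun _ : Empty → Ω => 1))) y ^ 2 ≤
      17 / 2 * x ^ 2 * q2 μ k S x K (SA (K \ K0) k S) y := by
  have hG := h.hG
  have hx := h.x0
  have hx1 := h.x1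
  have hτ : ∀ i, Bm (SA (K \ K0) k S i) := bm_SA hG _ k
  have := rho_prob (R := Option (Option Empty)) hG k x K y
  set τ := SA (K \ K0) k S with hτd
  set ρ := rho μ k S x (Option (Option Empty)) K y with hρ
  have e1 : ∀ i j, Ey μ k S x K (dR τ x j (dR τ x i (fun _ : Empty → Ω => 1))) y =
      x * ∫ p, cb (ext0 (fun _ : Option Empty => 1)) (fam τ) i p *
        cb (al x (Option Empty)) (fam τ) j p ∂ρ := fun i j => by
    rw [Ey_eq hG k x K (bm_dR hτ x j (bm_dR hτ x i (Bm.const 1))), ← integral_const_mul]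
    refine integral_congr_ae (Filter.Eventually.of_forall fun p => ?_)
    simp only
    rw [dR_cb, dR_cb]
    unfold cb
    rw [sum_ext]
    simp only [Fintype.sum_option, al, fam]
    simp
    ring
  simp only [e1, mul_pow, ← Finset.mul_sum]
  have hF : ∀ i, Bm (cb (ext0 (fun _ : Option Empty => (1 : ℝ))) (fam τ) i) := bm_cb _ (bm_fam hτ)
  have hJ : ∀ i, Bm (cb (al x (Option Empty)) (fam τ) i) := bm_cb _ (bm_fam hτ)
  have c1 := ci2 (ρ := ρ) hF hJ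
  have f1 := fam_two hG k x K y hτ (ext0 (fun _ : Option Empty => (1 : ℝ)))
  have f2 := fam_two hG k x K y hτ (al x (Option Empty))
  have s1 : ∑ a, |ext0 (fun _ : Option Empty => (1 : ℝ)) a| = 1 := by
    rw [sum_ext0]; simp
  have s2 : ∑ a, |al x (Option Empty) a| ≤ 2 := by
    rw [sum_al]
    simp only [Fintype.card_option, Fintype.card_eq_zero, zero_add, Nat.cast_one]
    rw [abs_of_nonpos (by linarith)]
    linarith
  have s3 : 0 ≤ ∑ a, |al x (Option Empty) a| := Finset.sum_nonneg fun a _ => abs_nonneg _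
  have q0 : 0 ≤ q2 μ k S x K τ y := Finset.sum_nonneg fun i _ => Finset.sum_nonneg fun j _ =>
    sq_nonneg _
  rw [s1] at f1
  have f3 : (∑ a, |al x (Option Empty) a|) ^ 4 * q2 μ k S x K τ y ≤
      2 ^ 4 * q2 μ k S x K τ y := mul_le_mul_of_nonneg_right (pow_le_pow_left₀ s3 s2 4) q0
  have c2 : ∑ i, ∑ j, (∫ p, cb (ext0 (fun _ : Option Empty => 1)) (fam τ) i p *
      cb (al x (Option Empty)) (fam τ) j p ∂ρ) ^ 2 ≤ 17 / 2 * q2 μ k S x K τ y := by
    linarith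
  calc _ ≤ x ^ 2 * (17 / 2 * q2 μ k S x K τ y) := mul_le_mul_of_nonneg_left c2 (sq_nonneg _)
    _ = _ := by ring

end Blk

/-! ### averages over the block -/

lemma bm_E1 (hG : GM μ S M0) (k x : ℝ) (K : Finset ι) {g : Ω → ℝ} (hg : Bm g) :
    H646.BM (E1 μ k S x K g) := (hG.wt k x).bm_cx K (hG.bm_avm k hg)

lemma dep_E1 (x : ℝ) (K : Finset ι) (g : Ω → ℝ) : H646.Dep K (E1 μ k S x K g) := dep_cx K

lemma BM.pow' {f : (ι → ℝ) → ℝ} (hf : H646.BM f) (n : ℕ) : H646.BM fun z => f z ^ n := by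
  induction n with
  | zero => simpa using H646.BM.const (κ := ι) 1
  | succ n ih => simpa only [pow_succ] using ih.mul hf

lemma bm_q2 (hG : GM μ S M0) (k x : ℝ) (K : Finset ι) {τ : ι → Ω → ℝ} (hτ : ∀ i, Bm (τ i)) :
    H646.BM (q2 μ k S x K τ) :=
  H646.BM.sum _ fun i _ => H646.BM.sum _ fun j _ =>
    BM.pow' (bm_E1 hG k x K ((hτ i).mul (hτ j))) 2

lemma bm_q4 (hG : GM μ S M0) (k x : ℝ) (K : Finset ι) {τ : ι → Ω → ℝ} (hτ : ∀ i, Bm (τ i)) :
    H646.BM (q4 μ k S x K τ) :=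
  H646.BM.sum _ fun i _ => H646.BM.sum _ fun j _ => H646.BM.sum _ fun l _ =>
    H646.BM.sum _ fun m _ =>
      BM.pow' (bm_E1 hG k x K (((hτ i).mul (hτ j)).mul ((hτ l).mul (hτ m)))) 2

lemma dep_q2 (x : ℝ) (K : Finset ι) (τ : ι → Ω → ℝ) : H646.Dep K (q2 μ k S x K τ) := by
  intro z z'
  unfold q2
  simp only [dep_E1 x K _ z z']

lemma dep_q4 (x : ℝ) (K : Finset ι) (τ : ι → Ω → ℝ) : H646.Dep K (q4 μ k S x K τ) := by
  intro z z'
  unfold q4
  simp only [dep_E1 x K _ z z']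

lemma q2_nonneg (x : ℝ) (K : Finset ι) (τ : ι → Ω → ℝ) (y : ι → ℝ) : 0 ≤ q2 μ k S x K τ y :=
  Finset.sum_nonneg fun _ _ => Finset.sum_nonneg fun _ _ => sq_nonneg _

lemma q4_nonneg (x : ℝ) (K : Finset ι) (τ : ι → Ω → ℝ) (y : ι → ℝ) : 0 ≤ q4 μ k S x K τ y :=
  Finset.sum_nonneg fun _ _ => Finset.sum_nonneg fun _ _ => Finset.sum_nonneg fun _ _ =>
    Finset.sum_nonneg fun _ _ => sq_nonneg _

/-- averages with the density `WB` of a bounded function. -/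
lemma int_WB' (hG : GM μ S M0) (k x : ℝ) {K0 K : Finset ι} (hK : K0 ⊆ K) (z : ι → ℝ)
    {φ : (ι → ℝ) → ℝ} (hd : H646.Dep K φ) (hb : H646.BM φ) :
    Integrable (fun B => WB μ k S x K0 K z B * φ (glue K0 z B)) (gI ι) ∧
    ∫ B, WB μ k S x K0 K z B * φ (glue K0 z B) ∂(gI ι) = cx (gs ι) K0 (Zxm μ k S x) φ z := by
  refine ⟨?_, int_WB hG k x z hK hd ((hG.wt k x).sec_mul K0 z hb)⟩
  obtain ⟨C, hC⟩ := hb.bd
  refine Integrable.mul_bdd (c := C) ?_ ?_ ?_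
  · rw [← nr_one hG]
    exact (eg_nr hG k x K0 K z (Bm.const 1)).integrable
  · exact (hb.meas.comp (measurable_glue_right K0 z)).aestronglyMeasurable
  · exact Filter.Eventually.of_forall fun B => by rw [Real.norm_eq_abs]; exact hC _

namespace Blk

variable {x : ℝ} {K0 K F : Finset ι} {T : Ω → Ω} {b0 : ℝ}
  (h : Blk μ k S M0 x K0 K F T b0)
include h

lemma WB_pos (z B : ι → ℝ) : 0 < WB μ k S x K0 K z B :=
  lt_of_lt_of_le (by norm_num) (h.WB_lb z B)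

lemma inv_sq (z B : ι → ℝ) {R : Type} [Fintype R] (g : (R → Ω) → ℝ) :
    (WB μ k S x K0 K z B)⁻¹ * nr μ k S x K0 K z g B ^ 2 =
      WB μ k S x K0 K z B * Ey μ k S x K g (glue K0 z B) ^ 2 := by
  rw [nr_eq h.hG]
  have := (h.WB_pos z B).ne'
  field_simp

/-- **the second derivative of the density.** -/
theorem w22_le (z : ι → ℝ) : w22 (WB μ k S x K0 K z)
    (fun i j => nr μ k S x K0 K z (dR (SA (K \ K0) k S) x j
      (dR (SA (K \ K0) k S) x i (fun _ : Empty → Ω => 1)))) ≤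
      17 / 2 * x ^ 2 * cx (gs ι) K0 (Zxm μ k S x) (q2 μ k S x K (SA (K \ K0) k S)) z := by
  have hG := h.hG
  have hτ : ∀ i, Bm (SA (K \ K0) k S i) := bm_SA hG _ k
  have ht := h.til z
  have eg : ∀ i j, EG fun B => (WB μ k S x K0 K z B)⁻¹ *
      nr μ k S x K0 K z (dR (SA (K \ K0) k S) x j
        (dR (SA (K \ K0) k S) x i (fun _ : Empty → Ω => 1))) B ^ 2 := fun i j =>
    ht.eg_inv.mul ((ht.d.g2 i j).pow 2)
  unfold w22
  have e1 : ∀ i, ∑ j, ∫ B, (WB μ k S x K0 K z B)⁻¹ *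
      nr μ k S x K0 K z (dR (SA (K \ K0) k S) x j
        (dR (SA (K \ K0) k S) x i (fun _ : Empty → Ω => 1))) B ^ 2 ∂(gI ι) =
      ∫ B, ∑ j, (WB μ k S x K0 K z B)⁻¹ *
      nr μ k S x K0 K z (dR (SA (K \ K0) k S) x j
        (dR (SA (K \ K0) k S) x i (fun _ : Empty → Ω => 1))) B ^ 2 ∂(gI ι) := fun i =>
    (integral_finsetSum _ fun j _ => (eg i j).integrable).symm
  simp only [e1]
  rw [← integral_finsetSum _ fun i _ => (EG.sum _ fun j _ => eg i j).integrable]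
  obtain ⟨i1, i2⟩ := int_WB' hG k x h.hK z (dep_q2 x K (SA (K \ K0) k S))
    (bm_q2 hG k x K hτ)
  rw [← i2, ← integral_const_mul]
  refine integral_mono (EG.sum _ fun i _ => EG.sum _ fun j _ => eg i j).integrable
    (i1.const_mul _) fun B => ?_
  simp only [h.inv_sq, ← Finset.mul_sum]
  have h2 := mul_le_mul_of_nonneg_left (h.E_dR2 (glue K0 z B)) (h.WB_pos z B).le
  refine h2.trans (le_of_eq (by ring))

end Blk

end Vale.Agent.P146.H498
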