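import Vale.Agent.P146.H498.Ins2

/-!
The third derivative of the numerator of a function of one replica: comparison with
`g ^ 3 v ⊗ v ⊗ v` times the mean of the third cumulant polynomial `Th`.
-/

open MeasureTheory ProbabilityTheory

namespace Vale.Agent.P146.H498

open Vale.Agent.P157.Lv Vale.Agent.P146.H425 Vale.Agent.P146.H325 Vale.Agent.P146.H646
  Vale.Agent.P146.H196 Vale.Agent.P146.H946

set_option linter.unusedSectionVars false

variable {ι : Type} [Fintype ι] [DecidableEq ι] {Ω : Type} [MeasurableSpace Ω]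

variable {μ : Measure Ω} {k : ℝ} {S : ι → Ω → ℝ} {M0 : ℝ}

/-- four replicas. -/
abbrev R4 := Option (Option (Option Unit))

/-- the coefficients of the three derivatives. -/
def a1 (x : ℝ) : R4 → ℝ := ext0 (ext0 (al x Unit))

/-- the coefficients of the second derivative. -/
def a2 (x : ℝ) : R4 → ℝ := ext0 (al x (Option Unit))

/-- the coefficients of the third derivative. -/
def a3 (x : ℝ) : R4 → ℝ := al x (Option (Option Unit))

lemma sum_a1 {x : ℝ} (h0 : 0 ≤ x) (h1 : x ≤ 1) : ∑ a, |a1 x a| ≤ 2 := by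
  unfold a1
  rw [sum_ext0, sum_ext0, sum_al]
  simp only [Fintype.card_unit, Nat.cast_one]
  rw [abs_of_nonpos (by linarith)]
  linarith

lemma sum_a2 {x : ℝ} (h0 : 0 ≤ x) (h1 : x ≤ 1) : ∑ a, |a2 x a| ≤ 4 := by
  unfold a2
  rw [sum_ext0, sum_al]
  simp only [Fintype.card_option, Fintype.card_unit]
  rw [abs_of_nonpos (by push_cast; linarith)]
  push_cast
  linarith

lemma sum_a3 {x : ℝ} (h0 : 0 ≤ x) (h1 : x ≤ 1) : ∑ a, |a3 x a| ≤ 6 := by
  unfold a3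
  rw [sum_al]
  simp only [Fintype.card_option, Fintype.card_unit]
  rw [abs_of_nonpos (by push_cast; linarith)]
  push_cast
  linarith

lemma sum_a4 {x : ℝ} (h0 : 0 ≤ x) (h1 : x ≤ 1) : ∑ a, |al x R4 a| ≤ 8 := by
  rw [sum_al]
  simp only [Fintype.card_option, Fintype.card_unit]
  rw [abs_of_nonpos (by push_cast; linarith)]
  push_cast
  linarith

/-- the first replica. -/
def P4 (P : Ω → ℝ) (w : R4 → Ω) : ℝ := P (w (some (some (some ()))))

/-- **The third cumulant polynomial** of `P` in the direction `σ`. -/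
def Th (x : ℝ) (P σ : Ω → ℝ) (w : R4 → Ω) : ℝ :=
  P4 P w * ((∑ a, a1 x a * σ (w a)) * (∑ a, a2 x a * σ (w a)) * ∑ a, a3 x a * σ (w a))

lemma bm_P4 {P : Ω → ℝ} (hP : Bm P) : Bm (P4 P) := hP.at _

lemma bm_lin {σ : Ω → ℝ} (hσ : Bm σ) (α : R4 → ℝ) : Bm fun w : R4 → Ω => ∑ a, α a * σ (w a) :=
  Bm.sum _ fun a _ => (hσ.at a).const_mul _

lemma bm_Th (x : ℝ) {P σ : Ω → ℝ} (hP : Bm P) (hσ : Bm σ) : Bm (Th x P σ) :=
  (bm_P4 hP).mul (((bm_lin hσ _).mul (bm_lin hσ _)).mul (bm_lin hσ _))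

lemma abs_lin_le {σ : Ω → ℝ} {σ0 : ℝ} (hσ : ∀ w, |σ w| ≤ σ0) (α : R4 → ℝ) (w : R4 → Ω) :
    |∑ a, α a * σ (w a)| ≤ (∑ a, |α a|) * σ0 := by
  refine (Finset.abs_sum_le_sum_abs _ _).trans ?_
  rw [Finset.sum_mul]
  refine Finset.sum_le_sum fun a _ => ?_
  rw [abs_mul]
  exact mul_le_mul_of_nonneg_left (hσ _) (abs_nonneg _)

lemma abs_Th_le {x : ℝ} (h0 : 0 ≤ x) (h1 : x ≤ 1) {P σ : Ω → ℝ} {P0 σ0 : ℝ}
    (hP : ∀ w, |P w| ≤ P0) (hσ : ∀ w, |σ w| ≤ σ0) (w : R4 → Ω) :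
    |Th x P σ w| ≤ 48 * P0 * σ0 ^ 3 := by
  have hσ0 : 0 ≤ σ0 := (abs_nonneg _).trans (hσ (w none))
  have hP0 : 0 ≤ P0 := (abs_nonneg _).trans (hP (w none))
  have b1 := (abs_lin_le hσ (a1 x) w).trans (mul_le_mul_of_nonneg_right (sum_a1 h0 h1) hσ0)
  have b2 := (abs_lin_le hσ (a2 x) w).trans (mul_le_mul_of_nonneg_right (sum_a2 h0 h1) hσ0)
  have b3 := (abs_lin_le hσ (a3 x) w).trans (mul_le_mul_of_nonneg_right (sum_a3 h0 h1) hσ0)
  unfold Th
  rw [abs_mul, abs_mul, abs_mul]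
  calc |P4 P w| * (|∑ a, a1 x a * σ (w a)| * |∑ a, a2 x a * σ (w a)| *
        |∑ a, a3 x a * σ (w a)|)
      ≤ P0 * ((2 * σ0) * (4 * σ0) * (6 * σ0)) := by
        refine mul_le_mul (hP _) ?_ (by positivity) hP0
        refine mul_le_mul ?_ b3 (abs_nonneg _) (by positivity)
        exact mul_le_mul b1 b2 (abs_nonneg _) (by positivity)
    _ = _ := by ring

/-- the third derivative as a product of three linear forms. -/
lemma dR3 (τ : ι → Ω → ℝ) (x : ℝ) (P : Ω → ℝ) (i j l : ι) (w : R4 → Ω) :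
    dR τ x l (dR τ x j (dR τ x i (fun w : Unit → Ω => P (w ())))) w =
      P4 P w * ((∑ a, a1 x a * τ i (w a)) * (∑ a, a2 x a * τ j (w a)) *
        ∑ a, a3 x a * τ l (w a)) := by
  rw [dR_cb, dR_cb, dR_cb]
  unfold a1 a2 a3 P4
  rw [sum_ext, sum_ext, sum_ext]
  ring

section part1

variable (τ : ι → Ω → ℝ) (σ : Ω → ℝ) (g : ℝ) (v : ι → ℝ)

/-- the main part of the energies of the row. -/
def sf (σ : Ω → ℝ) (g : ℝ) (v : ι → ℝ) (i : ι) (w : Ω) : ℝ := g * σ w * v i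

/-- the remainder of the energies of the row. -/
def df (τ : ι → Ω → ℝ) (σ : Ω → ℝ) (g : ℝ) (v : ι → ℝ) (i : ι) (w : Ω) : ℝ :=
  τ i w - g * σ w * v i

variable {τ σ}

lemma bm_sf (hσ : Bm σ) (i : ι) : Bm (sf σ g v i) := by
  unfold sf
  exact (hσ.const_mul g).mul (Bm.const _)

lemma bm_df (hτ : ∀ i, Bm (τ i)) (hσ : Bm σ) (i : ι) : Bm (df τ σ g v i) := by
  unfold df
  exact (hτ i).sub ((hσ.const_mul g).mul (Bm.const _))

lemma cb_split {R : Type} [Fintype R] (α : R → ℝ) (i : ι) (p : (ι → ℝ) × (R → Ω)) :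
    cb α (fam τ) i p = cb α (fam (df τ σ g v)) i p + cb α (fam (sf σ g v)) i p := by
  unfold cb fam df sf
  rw [← Finset.sum_add_distrib]
  exact Finset.sum_congr rfl fun a _ => by ring

lemma cb_sf {R : Type} [Fintype R] (α : R → ℝ) (i : ι) (p : (ι → ℝ) × (R → Ω)) :
    cb α (fam (sf σ g v)) i p = (g * v i) * ∑ a, α a * σ (p.2 a) := by
  unfold cb fam sf
  rw [Finset.mul_sum]
  exact Finset.sum_congr rfl fun a _ => by ring

lemma q4_sf (hG : GM μ S M0) (k x : ℝ) (K : Finset ι) (y : ι → ℝ) (hσ : Bm σ) {σ0 : ℝ}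
    (hb : ∀ w, |σ w| ≤ σ0) (hv : ∑ i, v i ^ 2 = 1) :
    q4 μ k S x K (sf σ g v) y ≤ g ^ 8 * σ0 ^ 8 := by
  have e1 : ∀ i j l m, E1 μ k S x K (fun w => (sf σ g v i w * sf σ g v j w) *
      (sf σ g v l w * sf σ g v m w)) y =
      (g ^ 4 * (v i * v j * (v l * v m))) * E1 μ k S x K (fun w => σ w ^ 4) y := by
    intro i j l m
    have hf : Bm fun w => (sf σ g v i w * sf σ g v j w) * (sf σ g v l w * sf σ g v m w) :=
      ((bm_sf g v hσ i).mul (bm_sf g v hσ j)).mul ((bm_sf g v hσ l).mul (bm_sf g v hσ m))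
    rw [← E1_eq hG k x K hf (), ← E1_eq hG k x K (hσ.pow 4) (), ← integral_const_mul]
    refine integral_congr_ae (Filter.Eventually.of_forall fun p => ?_)
    simp only [sf]
    ring
  have hE : |E1 μ k S x K (fun w => σ w ^ 4) y| ≤ σ0 ^ 4 := by
    refine (hG.wt k x).abs_cx_le K (hG.bm_avm k (hσ.pow 4)) (fun u => ?_) y
    refine hG.abs_av_le k (hσ.pow 4).meas (fun w => ?_) u
    rw [abs_pow]
    exact pow_le_pow_left₀ (abs_nonneg _) (hb w) 4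
  unfold q4
  simp only [e1]
  set E := E1 μ k S x K (fun w => σ w ^ 4) y
  have e2 : ∀ i j l m, (g ^ 4 * (v i * v j * (v l * v m)) * E) ^ 2 =
      (g ^ 8 * E ^ 2) * (v i ^ 2 * (v j ^ 2 * (v l ^ 2 * v m ^ 2))) := fun i j l m => by ring
  simp only [e2, ← Finset.mul_sum, hv, mul_one]
  refine mul_le_mul_of_nonneg_left ?_ (by positivity)
  have := pow_le_pow_left₀ (abs_nonneg _) hE 2
  rw [sq_abs] at this
  exact this.trans (le_of_eq (by ring))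

/-- the bound for the comparison. -/
noncomputable def cbd (P0 σ0 g η q2d q4t : ℝ) : ℝ :=
  P0 ^ 2 * (2352 / η * q2d + η * (2568576 * q4t + 49536 * (g ^ 8 * σ0 ^ 8)))

lemma sum3_le (A B C : ι → ι → ι → ℝ) : ∑ i, ∑ j, ∑ l, (A i j l + B i j l + C i j l) ^ 2 ≤
    3 * (∑ i, ∑ j, ∑ l, A i j l ^ 2 + ∑ i, ∑ j, ∑ l, B i j l ^ 2 +
      ∑ i, ∑ j, ∑ l, C i j l ^ 2) := by
  simp only [← Finset.sum_add_distrib]
  rw [Finset.mul_sum]
  refine Finset.sum_le_sum fun i _ => ?_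
  rw [Finset.mul_sum]
  refine Finset.sum_le_sum fun j _ => ?_
  rw [Finset.mul_sum]
  refine Finset.sum_le_sum fun l _ => ?_
  nlinarith [sq_nonneg (A i j l - B i j l), sq_nonneg (A i j l - C i j l),
    sq_nonneg (B i j l - C i j l)]

lemma bm_snd' {R : Type} [Fintype R] {f : (R → Ω) → ℝ} (hf : Bm f) :
    Bm fun p : (ι → ℝ) × (R → Ω) => f p.2 := by
  obtain ⟨C, _, hb⟩ := hf.2
  exact Bm.of (hf.1.comp measurable_snd) fun p => hb p.2

omit [Fintype ι] [DecidableEq ι] in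
lemma part1_alg {P0 σ0 g η q2d q4t qs A B C X1 X2 X3 G2 G3 K1 K2 : ℝ} (hη : 0 < η)
    (cA : A ≤ P0 ^ 2 * (1 / (2 * η) * X1 + η / 4 * (G2 + G3)))
    (cB : B ≤ P0 ^ 2 * (1 / (2 * η) * X2 + η / 4 * (K1 + G3)))
    (cC : C ≤ P0 ^ 2 * (1 / (2 * η) * X3 + η / 4 * (K1 + K2)))
    (f1 : X1 ≤ 2 ^ 4 * q2d) (f2 : X2 ≤ 4 ^ 4 * q2d) (f3 : X3 ≤ 6 ^ 4 * q2d)
    (g2 : G2 ≤ 4 ^ 8 * q4t) (g3 : G3 ≤ 6 ^ 8 * q4t) (k1 : K1 ≤ 2 ^ 8 * qs)
    (k2 : K2 ≤ 4 ^ 8 * qs) (q5 : qs ≤ g ^ 8 * σ0 ^ 8) :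
    3 * (A + B + C) ≤ cbd P0 σ0 g η q2d q4t := by
  unfold cbd
  have h1 : A + B + C ≤ P0 ^ 2 * (1 / (2 * η) * (X1 + X2 + X3) +
      η / 4 * ((G2 + G3) + (K1 + G3) + (K1 + K2))) := by
    refine (add_le_add (add_le_add cA cB) cC).trans (le_of_eq (by ring))
  have h2 : 1 / (2 * η) * (X1 + X2 + X3) ≤ 1 / (2 * η) * (1568 * q2d) :=
    mul_le_mul_of_nonneg_left (by linarith) (by positivity)
  have h3 : η / 4 * ((G2 + G3) + (K1 + G3) + (K1 + K2)) ≤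
      η / 4 * (3424768 * q4t + 66048 * (g ^ 8 * σ0 ^ 8)) :=
    mul_le_mul_of_nonneg_left (by linarith) (by positivity)
  have h4 := mul_le_mul_of_nonneg_left (add_le_add h2 h3) (sq_nonneg P0)
  have h5 : 3 * (P0 ^ 2 * (1 / (2 * η) * (1568 * q2d) +
      η / 4 * (3424768 * q4t + 66048 * (g ^ 8 * σ0 ^ 8)))) =
      P0 ^ 2 * (2352 / η * q2d + η * (2568576 * q4t + 49536 * (g ^ 8 * σ0 ^ 8))) := by
    field_simp
    ring
  linarith

/-- **comparison of the third derivative with the product form**, given the coordinates. -/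
theorem part1 (hG : GM μ S M0) (k : ℝ) {x : ℝ} (h0 : 0 ≤ x) (h1 : x ≤ 1) (K : Finset ι)
    (y : ι → ℝ) (hτ : ∀ i, Bm (τ i)) (hσ : Bm σ) {σ0 : ℝ} (hb : ∀ w, |σ w| ≤ σ0)
    (hv : ∑ i, v i ^ 2 = 1) {P : Ω → ℝ} (hP : Bm P) {P0 : ℝ} (hPb : ∀ w, |P w| ≤ P0) {η : ℝ}
    (hη : 0 < η) :
    ∑ i, ∑ j, ∑ l, (Ey μ k S x K (dR τ x l (dR τ x j (dR τ x i
      (fun w : Unit → Ω => P (w ()))))) y - g ^ 3 * (v i * v j * v l) *
        Ey μ k S x K (Th x P σ) y) ^ 2 ≤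
      cbd P0 σ0 g η (q2 μ k S x K (df τ σ g v) y) (q4 μ k S x K τ y) := by
  have := rho_prob (R := R4) hG k x K y
  set ρ := rho μ k S x R4 K y with hρ
  have hd : ∀ i, Bm (df τ σ g v i) := bm_df g v hτ hσ
  have hs : ∀ i, Bm (sf σ g v i) := bm_sf g v hσ
  have bt : ∀ (α : R4 → ℝ) i, Bm (cb α (fam τ) i) := fun α => bm_cb α (bm_fam hτ)
  have bd : ∀ (α : R4 → ℝ) i, Bm (cb α (fam (df τ σ g v)) i) := fun α => bm_cb α (bm_fam hd)
  have bs : ∀ (α : R4 → ℝ) i, Bm (cb α (fam (sf σ g v)) i) := fun α => bm_cb α (bm_fam hs)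
  set Pp : (ι → ℝ) × (R4 → Ω) → ℝ := fun p => P4 P p.2 with hPp
  have bP : Bm Pp := bm_snd' (bm_P4 hP)
  have bPb : ∀ p, |Pp p| ≤ P0 := fun p => hPb _
  have e1 : ∀ i j l, Ey μ k S x K (dR τ x l (dR τ x j (dR τ x i
      (fun w : Unit → Ω => P (w ()))))) y - g ^ 3 * (v i * v j * v l) *
        Ey μ k S x K (Th x P σ) y =
      ∫ p, Pp p * (cb (a1 x) (fam (df τ σ g v)) i p * cb (a2 x) (fam τ) j p *
          cb (a3 x) (fam τ) l p) ∂ρ +
      ∫ p, Pp p * (cb (a1 x) (fam (sf σ g v)) i p * cb (a2 x) (fam (df τ σ g v)) j p *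
          cb (a3 x) (fam τ) l p) ∂ρ +
      ∫ p, Pp p * (cb (a1 x) (fam (sf σ g v)) i p * cb (a2 x) (fam (sf σ g v)) j p *
          cb (a3 x) (fam (df τ σ g v)) l p) ∂ρ := by
    intro i j l
    rw [Ey_eq hG k x K (bm_dR hτ x l (bm_dR hτ x j (bm_dR hτ x i (hP.at ())))),
      Ey_eq hG k x K (bm_Th x hP hσ), ← integral_const_mul, ← integral_sub, ← integral_add,
      ← integral_add]
    · refine integral_congr_ae (Filter.Eventually.of_forall fun p => ?_)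
      simp only
      rw [dR3]
      have c1 : ∀ (α : R4 → ℝ) (i : ι), ∑ a, α a * τ i (p.2 a) = cb α (fam τ) i p :=
        fun α i => rfl
      have c2 : ∀ (α : R4 → ℝ) (i : ι), cb α (fam τ) i p =
        cb α (fam (df τ σ g v)) i p + cb α (fam (sf σ g v)) i p := fun α i =>
          cb_split g v α i p
      rw [c1, c1, c1]
      unfold Th
      have c3 := cb_sf (σ := σ) g v (a1 x) i p
      have c4 := cb_sf (σ := σ) g v (a2 x) j p
      have c5 := cb_sf (σ := σ) g v (a3 x) l p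
      have c6 : g ^ 3 * (v i * v j * v l) * (P4 P p.2 * ((∑ a, a1 x a * σ (p.2 a)) *
          (∑ a, a2 x a * σ (p.2 a)) * ∑ a, a3 x a * σ (p.2 a))) =
          P4 P p.2 * (cb (a1 x) (fam (sf σ g v)) i p * cb (a2 x) (fam (sf σ g v)) j p *
            cb (a3 x) (fam (sf σ g v)) l p) := by
        rw [c3, c4, c5]; ring
      rw [c6, c2 (a1 x) i, c2 (a2 x) j, c2 (a3 x) l]
      show _ = P4 P p.2 * _ + P4 P p.2 * _ + P4 P p.2 * _
      ring
    · exact ((bP.mul (((bd _ i).mul (bt _ j)).mul (bt _ l))).add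
        (bP.mul (((bs _ i).mul (bd _ j)).mul (bt _ l)))).integrable
    · exact (bP.mul (((bs _ i).mul (bs _ j)).mul (bd _ l))).integrable
    · exact (bP.mul (((bd _ i).mul (bt _ j)).mul (bt _ l))).integrable
    · exact (bP.mul (((bs _ i).mul (bd _ j)).mul (bt _ l))).integrable
    · exact (bm_snd' (bm_dR hτ x l (bm_dR hτ x j (bm_dR hτ x i (hP.at ()))))).integrable
    · exact ((bm_snd' (bm_Th x hP hσ)).const_mul _).integrable
  simp only [e1]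
  refine (sum3_le _ _ _).trans ?_
  have cA := ci3 (ρ := ρ) (bd (a1 x)) (bt (a2 x)) (bt (a3 x)) bP bPb hη
  have cB := ci3m (ρ := ρ) (bs (a1 x)) (bd (a2 x)) (bt (a3 x)) bP bPb hη
  have cC := ci3l (ρ := ρ) (bs (a1 x)) (bs (a2 x)) (bd (a3 x)) bP bPb hη
  have q0 := q2_nonneg (μ := μ) (k := k) (S := S) x K (df τ σ g v) y
  have q1 := q4_nonneg (μ := μ) (k := k) (S := S) x K τ y
  have q3 := q4_nonneg (μ := μ) (k := k) (S := S) x K (sf σ g v) y
  have n1 : 0 ≤ ∑ a, |a1 x a| := Finset.sum_nonneg fun a _ => abs_nonneg _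
  have n2 : 0 ≤ ∑ a, |a2 x a| := Finset.sum_nonneg fun a _ => abs_nonneg _
  have n3 : 0 ≤ ∑ a, |a3 x a| := Finset.sum_nonneg fun a _ => abs_nonneg _
  have s1 := sum_a1 h0 h1
  have s2 := sum_a2 h0 h1
  have s3 := sum_a3 h0 h1
  have f1 := (fam_two hG k x K y hd (a1 x)).trans
    (mul_le_mul_of_nonneg_right (pow_le_pow_left₀ n1 s1 4) q0)
  have f2 := (fam_two hG k x K y hd (a2 x)).trans
    (mul_le_mul_of_nonneg_right (pow_le_pow_left₀ n2 s2 4) q0)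
  have f3 := (fam_two hG k x K y hd (a3 x)).trans
    (mul_le_mul_of_nonneg_right (pow_le_pow_left₀ n3 s3 4) q0)
  have g2 := (fam_four hG k x K y hτ (a2 x)).trans
    (mul_le_mul_of_nonneg_right (pow_le_pow_left₀ n2 s2 8) q1)
  have g3 := (fam_four hG k x K y hτ (a3 x)).trans
    (mul_le_mul_of_nonneg_right (pow_le_pow_left₀ n3 s3 8) q1)
  have k1 := (fam_four hG k x K y hs (a1 x)).trans
    (mul_le_mul_of_nonneg_right (pow_le_pow_left₀ n1 s1 8) q3)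
  have k2 := (fam_four hG k x K y hs (a2 x)).trans
    (mul_le_mul_of_nonneg_right (pow_le_pow_left₀ n2 s2 8) q3)
  have q5 := q4_sf g v hG k x K y hσ hb hv
  exact part1_alg hη cA cB cC f1 f2 f3 g2 g3 k1 k2 q5

end part1

end Vale.Agent.P146.H498
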