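import Vale.Agent.P146.H498.Ins3

/-!
The square of `N - u·z` given a block of coordinates: the contribution of the third chaos with its
constant, for the conditional mean `N` of an odd function of one replica.
-/

open MeasureTheory ProbabilityTheory

namespace Vale.Agent.P146.H498

open Vale.Agent.P157.Lv Vale.Agent.P146.H425 Vale.Agent.P146.H325 Vale.Agent.P146.H646
  Vale.Agent.P146.H196 Vale.Agent.P146.H946

set_option linter.unusedSectionVars false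

variable {ι : Type} [Fintype ι] [DecidableEq ι] {Ω : Type} [MeasurableSpace Ω]

variable {μ : Measure Ω} {k : ℝ} {S : ι → Ω → ℝ} {M0 : ℝ}

/-- the gradient of the mean of `Th`. -/
theorem part2 (hG : GM μ S M0) (k : ℝ) {x : ℝ} (h0 : 0 ≤ x) (h1 : x ≤ 1) (K : Finset ι)
    (y : ι → ℝ) {τ : ι → Ω → ℝ} (hτ : ∀ i, Bm (τ i)) {σ : Ω → ℝ} (hσ : Bm σ) {σ0 : ℝ}
    (hb : ∀ w, |σ w| ≤ σ0) {P : Ω → ℝ} (hP : Bm P) {P0 : ℝ} (hPb : ∀ w, |P w| ≤ P0) {η : ℝ}
    (hη : 0 < η) :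
    ∑ i, Ey μ k S x K (dR τ x i (Th x P σ)) y ^ 2 ≤
      (48 * P0 * σ0 ^ 3) ^ 2 * (η / 2 + 2048 / η * q2 μ k S x K τ y) := by
  have := rho_prob (R := Option R4) hG k x K y
  set ρ := rho μ k S x (Option R4) K y with hρ
  set Tp : (ι → ℝ) × (Option R4 → Ω) → ℝ := fun p => Th x P σ (fun a => p.2 (some a)) with hT
  have bT : Bm Tp := bm_snd' ((bm_Th x hP hσ).marg some)
  have bF : ∀ i, Bm (cb (al x R4) (fam τ) i) := bm_cb _ (bm_fam hτ)
  have e1 : ∀ i, Ey μ k S x K (dR τ x i (Th x P σ)) y =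
      ∫ p, Tp p * cb (al x R4) (fam τ) i p ∂ρ := fun i => by
    rw [Ey_eq hG k x K (bm_dR hτ x i (bm_Th x hP hσ))]
    refine integral_congr_ae (Filter.Eventually.of_forall fun p => ?_)
    simp only
    rw [dR_cb]
    rfl
  simp only [e1]
  have c1 := ci1 (ρ := ρ) bF bT (fun p => abs_Th_le h0 h1 hPb hb _) hη
  refine c1.trans (mul_le_mul_of_nonneg_left ?_ (sq_nonneg _))
  have q0 := q2_nonneg (μ := μ) (k := k) (S := S) x K τ y
  have n1 : 0 ≤ ∑ a, |al x R4 a| := Finset.sum_nonneg fun a _ => abs_nonneg _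
  have f1 := (fam_two hG k x K y hτ (al x R4)).trans
    (mul_le_mul_of_nonneg_right (pow_le_pow_left₀ n1 (sum_a4 h0 h1) 4) q0)
  have f2 := mul_le_mul_of_nonneg_left f1 (by positivity : 0 ≤ 1 / (2 * η))
  have f3 : 1 / (2 * η) * (8 ^ 4 * q2 μ k S x K τ y) = 2048 / η * q2 μ k S x K τ y := by
    field_simp
    ring
  linarith

namespace Blk

variable {x : ℝ} {K0 K F : Finset ι} {T : Ω → Ω} {b0 : ℝ}
  (h : Blk μ k S M0 x K0 K F T b0)
include h

/-- the fluctuation of the mean of `Th`. -/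
theorem th_var (z : ι → ℝ) {σ : Ω → ℝ} (hσ : Bm σ) {σ0 : ℝ}
    (hb : ∀ w, |σ w| ≤ σ0) {P : Ω → ℝ} (hP : Bm P) {P0 : ℝ} (hPb : ∀ w, |P w| ≤ P0) {η : ℝ}
    (hη : 0 < η) :
    ∫ B, (WB μ k S x K0 K z B)⁻¹ * (nr μ k S x K0 K z (Th x P σ) B -
      Ey μ k S x K0 (Th x P σ) z) ^ 2 ∂(gI ι) ≤
      2 * ((48 * P0 * σ0 ^ 3) ^ 2 * (η / 2 + 2048 / η *
        cx (gs ι) K0 (Zxm μ k S x) (q2 μ k S x K (SA (K \ K0) k S)) z)) := by
  have hG := h.hG
  have hτ : ∀ i, Bm (SA (K \ K0) k S i) := bm_SA hG _ k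
  have ht := h.til z
  have bTh := bm_Th x hP hσ
  have en := eg_nr hG k x K0 K z bTh
  have en1 : ∀ i, EG (nr μ k S x K0 K z (dR (SA (K \ K0) k S) x i (Th x P σ))) := fun i =>
    eg_nr hG k x K0 K z (bdR hG k x K0 K i bTh)
  have c0 : ∫ B, (nr μ k S x K0 K z (Th x P σ) B - Ey μ k S x K0 (Th x P σ) z) ∂(gI ι) = 0 := by
    rw [integral_sub en.integrable (integrable_const _), int_nr hG k x z h.hK bTh]
    simp
  have c1 := ht.tp (f := fun B => nr μ k S x K0 K z (Th x P σ) B - Ey μ k S x K0 (Th x P σ) z)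
    (f1 := fun i => nr μ k S x K0 K z (dR (SA (K \ K0) k S) x i (Th x P σ)))
    (en.sub (EG.const _))
    (fun i => ((pd_nr hG k x K0 K z i bTh).sub (PD.const _)).congr fun B => by ring)
    en1 c0
  refine c1.trans (mul_le_mul_of_nonneg_left ?_ (by norm_num))
  rw [← integral_finsetSum _ fun i _ => (ht.eg_inv.mul ((en1 i).pow 2)).integrable]
  obtain ⟨i1, i2⟩ := int_WB' hG k x h.hK z (dep_q2 x K (SA (K \ K0) k S))
    (bm_q2 hG k x K hτ)
  have eW : EG (WB μ k S x K0 K z) := ht.d.g0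
  have i3 : Integrable (fun B => (48 * P0 * σ0 ^ 3) ^ 2 * (η / 2 * WB μ k S x K0 K z B +
      2048 / η * (WB μ k S x K0 K z B * q2 μ k S x K (SA (K \ K0) k S) (glue K0 z B))))
      (gI ι) := ((eW.integrable.const_mul _).add (i1.const_mul _)).const_mul _
  have i4 : (48 * P0 * σ0 ^ 3) ^ 2 * (η / 2 + 2048 / η *
        cx (gs ι) K0 (Zxm μ k S x) (q2 μ k S x K (SA (K \ K0) k S)) z) =
      ∫ B, (48 * P0 * σ0 ^ 3) ^ 2 * (η / 2 * WB μ k S x K0 K z B +
      2048 / η * (WB μ k S x K0 K z B * q2 μ k S x K (SA (K \ K0) k S) (glue K0 z B)))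
        ∂(gI ι) := by
    rw [integral_const_mul, integral_add (eW.integrable.const_mul _) (i1.const_mul _),
      integral_const_mul, integral_const_mul, i2, ht.one, mul_one]
  rw [i4]
  refine integral_mono (EG.sum _ fun i _ => ht.eg_inv.mul ((en1 i).pow 2)).integrable i3
    fun B => ?_
  simp only [h.inv_sq, ← Finset.mul_sum]
  have h2 := mul_le_mul_of_nonneg_left
    (part2 hG k h.x0.le h.x1 K (glue K0 z B) hτ hσ hb hP hPb hη) (h.WB_pos z B).le
  refine h2.trans (le_of_eq (by ring))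

/-- the bound of the remainder. -/
noncomputable def DL (P0 σ0 g η η2 Q2d Q4 Q2 : ℝ) : ℝ :=
  2 * cbd P0 σ0 g η Q2d Q4 +
    4 * g ^ 6 * ((48 * P0 * σ0 ^ 3) ^ 2 * (η2 / 2 + 2048 / η2 * Q2))

/-- **the third derivative of the numerator.** -/
theorem dl2_le (z : ι → ℝ) {σ : Ω → ℝ} (hσ : Bm σ) {σ0 : ℝ}
    (hb : ∀ w, |σ w| ≤ σ0) {P : Ω → ℝ} (hP : Bm P) {P0 : ℝ} (hPb : ∀ w, |P w| ≤ P0)
    {v : ι → ℝ} (hv : ∑ i, v i ^ 2 = 1) (g : ℝ) {η η2 : ℝ} (hη : 0 < η) (hη2 : 0 < η2) :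
    dl2 (WB μ k S x K0 K z) (fun i j l => nr μ k S x K0 K z (dR (SA (K \ K0) k S) x l
      (dR (SA (K \ K0) k S) x j (dR (SA (K \ K0) k S) x i (fun w : Unit → Ω => P (w ()))))))
      (g ^ 3 * Ey μ k S x K0 (Th x P σ) z / 6) v ≤
      DL P0 σ0 g η η2
        (cx (gs ι) K0 (Zxm μ k S x) (q2 μ k S x K (df (SA (K \ K0) k S) σ g v)) z)
        (cx (gs ι) K0 (Zxm μ k S x) (q4 μ k S x K (SA (K \ K0) k S)) z)
        (cx (gs ι) K0 (Zxm μ k S x) (q2 μ k S x K (SA (K \ K0) k S)) z) := by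
  have hG := h.hG
  have hτ : ∀ i, Bm (SA (K \ K0) k S i) := bm_SA hG _ k
  have hd : ∀ i, Bm (df (SA (K \ K0) k S) σ g v i) := bm_df g v hτ hσ
  have ht := h.til z
  have bTh := bm_Th x hP hσ
  set KF := Ey μ k S x K0 (Th x P σ) z with hKF
  set W := WB μ k S x K0 K z with hW
  set M3 : ι → ι → ι → (ι → ℝ) → ℝ := fun i j l => nr μ k S x K0 K z (dR (SA (K \ K0) k S) x l
      (dR (SA (K \ K0) k S) x j (dR (SA (K \ K0) k S) x i (fun w : Unit → Ω => P (w ())))))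
    with hM3
  have eM3 : ∀ i j l, EG (M3 i j l) := fun i j l => eg_nr hG k x K0 K z
    (bdR hG k x K0 K l (bdR hG k x K0 K j (bdR hG k x K0 K i (hP.at ()))))
  have en := eg_nr hG k x K0 K z bTh
  have eW : EG W := ht.d.g0
  have eX : ∀ i j l, EG fun B => (W B)⁻¹ * (M3 i j l B -
      g ^ 3 * KF / 6 * (6 * (v i * v j * v l))) ^ 2 := fun i j l =>
    ht.eg_inv.mul (((eM3 i j l).sub (EG.const _)).pow 2)
  obtain ⟨i1, i2⟩ := int_WB' hG k x h.hK z (dep_q2 x K (df (SA (K \ K0) k S) σ g v))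
    (bm_q2 hG k x K hd)
  obtain ⟨i3, i4⟩ := int_WB' hG k x h.hK z (dep_q4 x K (SA (K \ K0) k S))
    (bm_q4 hG k x K hτ)
  have hvv : ∑ i, ∑ j, ∑ l, (v i * v j * v l) ^ 2 = 1 := by
    simp only [mul_pow, ← Finset.mul_sum, hv, mul_one]
  -- the pointwise bound
  have key : ∀ B, ∑ i, ∑ j, ∑ l, (W B)⁻¹ * (M3 i j l B -
      g ^ 3 * KF / 6 * (6 * (v i * v j * v l))) ^ 2 ≤
      2 * (P0 ^ 2 * (2352 / η * (W B * q2 μ k S x K (df (SA (K \ K0) k S) σ g v) (glue K0 z B)) +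
        η * (2568576 * (W B * q4 μ k S x K (SA (K \ K0) k S) (glue K0 z B)) +
          49536 * (g ^ 8 * σ0 ^ 8) * W B))) +
      2 * g ^ 6 * ((W B)⁻¹ * (nr μ k S x K0 K z (Th x P σ) B - KF) ^ 2) := by
    intro B
    have hWp := h.WB_pos z B
    rw [← hW] at hWp
    have p1 := part1 g v hG k h.x0.le h.x1 K (glue K0 z B) hτ hσ hb hv hP hPb hη
    set Et := Ey μ k S x K (Th x P σ) (glue K0 z B) with hEt
    have q1 : ∀ i j l, (W B)⁻¹ * (M3 i j l B - g ^ 3 * KF / 6 * (6 * (v i * v j * v l))) ^ 2 ≤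
        2 * W B * (Ey μ k S x K (dR (SA (K \ K0) k S) x l (dR (SA (K \ K0) k S) x j
          (dR (SA (K \ K0) k S) x i (fun w : Unit → Ω => P (w ()))))) (glue K0 z B) -
          g ^ 3 * (v i * v j * v l) * Et) ^ 2 +
        (2 * g ^ 6 * ((W B)⁻¹ * (nr μ k S x K0 K z (Th x P σ) B - KF) ^ 2)) *
          (v i * v j * v l) ^ 2 := by
      intro i j l
      rw [hM3]
      simp only
      rw [nr_eq hG, nr_eq hG, ← hW, ← hEt]
      set a := Ey μ k S x K (dR (SA (K \ K0) k S) x l (dR (SA (K \ K0) k S) x j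
          (dR (SA (K \ K0) k S) x i (fun w : Unit → Ω => P (w ()))))) (glue K0 z B)
      set c := v i * v j * v l
      have e1 : W B * a - g ^ 3 * KF / 6 * (6 * c) =
          W B * (a - g ^ 3 * c * Et) + g ^ 3 * c * (W B * Et - KF) := by ring
      rw [e1]
      have e2 : (W B * (a - g ^ 3 * c * Et) + g ^ 3 * c * (W B * Et - KF)) ^ 2 ≤
          2 * (W B * (a - g ^ 3 * c * Et)) ^ 2 + 2 * (g ^ 3 * c * (W B * Et - KF)) ^ 2 := by
        nlinarith [sq_nonneg (W B * (a - g ^ 3 * c * Et) - g ^ 3 * c * (W B * Et - KF))]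
      refine (mul_le_mul_of_nonneg_left e2 (inv_pos.2 hWp).le).trans (le_of_eq ?_)
      have e3 : (W B)⁻¹ * (W B * W B) = W B := by
        rw [← mul_assoc, inv_mul_cancel₀ hWp.ne', one_mul]
      calc (W B)⁻¹ * (2 * (W B * (a - g ^ 3 * c * Et)) ^ 2 +
            2 * (g ^ 3 * c * (W B * Et - KF)) ^ 2)
          = 2 * ((W B)⁻¹ * (W B * W B)) * (a - g ^ 3 * c * Et) ^ 2 +
            (2 * g ^ 6 * ((W B)⁻¹ * (W B * Et - KF) ^ 2)) * c ^ 2 := by ring
        _ = _ := by rw [e3]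
    refine (Finset.sum_le_sum fun i _ => Finset.sum_le_sum fun j _ =>
      Finset.sum_le_sum fun l _ => q1 i j l).trans ?_
    simp only [Finset.sum_add_distrib, ← Finset.mul_sum]
    rw [hvv, mul_one]
    refine add_le_add ?_ le_rfl
    refine (mul_le_mul_of_nonneg_left p1 (by positivity : 0 ≤ 2 * W B)).trans (le_of_eq ?_)
    unfold cbd
    ring
  -- integration
  have hth := h.th_var z hσ hb hP hPb hη2
  rw [← hKF, ← hW] at hth
  unfold dl2
  have s1 : ∀ i j, ∑ l, ∫ B, (W B)⁻¹ * (M3 i j l B -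
      g ^ 3 * KF / 6 * (6 * (v i * v j * v l))) ^ 2 ∂(gI ι) =
      ∫ B, ∑ l, (W B)⁻¹ * (M3 i j l B -
      g ^ 3 * KF / 6 * (6 * (v i * v j * v l))) ^ 2 ∂(gI ι) := fun i j =>
    (integral_finsetSum _ fun l _ => (eX i j l).integrable).symm
  simp only [s1]
  have s2 : ∀ i, ∑ j, ∫ B, ∑ l, (W B)⁻¹ * (M3 i j l B -
      g ^ 3 * KF / 6 * (6 * (v i * v j * v l))) ^ 2 ∂(gI ι) =
      ∫ B, ∑ j, ∑ l, (W B)⁻¹ * (M3 i j l B -
      g ^ 3 * KF / 6 * (6 * (v i * v j * v l))) ^ 2 ∂(gI ι) := fun i =>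
    (integral_finsetSum _ fun j _ => (EG.sum _ fun l _ => eX i j l).integrable).symm
  simp only [s2]
  rw [← integral_finsetSum _ fun i _ => (EG.sum _ fun j _ => EG.sum _ fun l _ =>
    eX i j l).integrable]
  have eT : EG fun B => (W B)⁻¹ * (nr μ k S x K0 K z (Th x P σ) B - KF) ^ 2 :=
    ht.eg_inv.mul ((en.sub (EG.const _)).pow 2)
  have j1 : Integrable (fun B => 2352 / η * (W B * q2 μ k S x K
      (df (SA (K \ K0) k S) σ g v) (glue K0 z B))) (gI ι) := i1.const_mul _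
  have j2 : Integrable (fun B => η * (2568576 * (W B * q4 μ k S x K (SA (K \ K0) k S)
      (glue K0 z B)) + 49536 * (g ^ 8 * σ0 ^ 8) * W B)) (gI ι) :=
    ((i3.const_mul _).add (eW.integrable.const_mul _)).const_mul _
  have j3 : Integrable (fun B => 2 * (P0 ^ 2 * (2352 / η * (W B * q2 μ k S x K
      (df (SA (K \ K0) k S) σ g v) (glue K0 z B)) +
        η * (2568576 * (W B * q4 μ k S x K (SA (K \ K0) k S) (glue K0 z B)) +
          49536 * (g ^ 8 * σ0 ^ 8) * W B)))) (gI ι) := ((j1.add j2).const_mul _).const_mul _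
  have j4 : Integrable (fun B => 2 * g ^ 6 * ((W B)⁻¹ * (nr μ k S x K0 K z (Th x P σ) B -
      KF) ^ 2)) (gI ι) := eT.integrable.const_mul _
  have j5 : Integrable (fun B => 2 * (P0 ^ 2 * (2352 / η * (W B * q2 μ k S x K
      (df (SA (K \ K0) k S) σ g v) (glue K0 z B)) +
        η * (2568576 * (W B * q4 μ k S x K (SA (K \ K0) k S) (glue K0 z B)) +
          49536 * (g ^ 8 * σ0 ^ 8) * W B))) +
      2 * g ^ 6 * ((W B)⁻¹ * (nr μ k S x K0 K z (Th x P σ) B - KF) ^ 2)) (gI ι) := j3.add j4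
  refine (integral_mono (EG.sum _ fun i _ => EG.sum _ fun j _ => EG.sum _ fun l _ =>
    eX i j l).integrable j5 key).trans ?_
  have w1 : ∫ B, W B ∂(gI ι) = 1 := ht.one
  have e6 : ∫ B, (2 * (P0 ^ 2 * (2352 / η * (W B * q2 μ k S x K
      (df (SA (K \ K0) k S) σ g v) (glue K0 z B)) +
        η * (2568576 * (W B * q4 μ k S x K (SA (K \ K0) k S) (glue K0 z B)) +
          49536 * (g ^ 8 * σ0 ^ 8) * W B))) +
      2 * g ^ 6 * ((W B)⁻¹ * (nr μ k S x K0 K z (Th x P σ) B - KF) ^ 2)) ∂(gI ι) =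
      2 * cbd P0 σ0 g η
        (cx (gs ι) K0 (Zxm μ k S x) (q2 μ k S x K (df (SA (K \ K0) k S) σ g v)) z)
        (cx (gs ι) K0 (Zxm μ k S x) (q4 μ k S x K (SA (K \ K0) k S)) z) +
      2 * g ^ 6 * ∫ B, (W B)⁻¹ * (nr μ k S x K0 K z (Th x P σ) B - KF) ^ 2 ∂(gI ι) := by
    unfold cbd
    rw [integral_add j3 j4, integral_const_mul, integral_const_mul, integral_add j1 j2,
      integral_const_mul, integral_const_mul, integral_add (i3.const_mul _)
        (eW.integrable.const_mul _), integral_const_mul, integral_const_mul, integral_const_mul,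
      i2, i4, w1, mul_one]
  rw [e6]
  unfold DL
  have g6 : 0 ≤ g ^ 6 := by positivity
  have := mul_le_mul_of_nonneg_left hth (by positivity : 0 ≤ 2 * g ^ 6)
  linarith

end Blk

end Vale.Agent.P146.H498
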