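import Vale.Agent.P146.H498.Ann
import Vale.Agent.P146.H498.C3a

/-!
The weight of a block of coordinates: it is even under a flip of one site, it is smallest at the
origin, and its mean is close to the value at the origin.
-/

open MeasureTheory ProbabilityTheory

namespace Vale.Agent.P146.H498

open Vale.Agent.P157.Lv Vale.Agent.P146.H425 Vale.Agent.P146.H325 Vale.Agent.P146.H646
  Vale.Agent.P146.H196 Vale.Agent.P146.H946

set_option linter.unusedSectionVars false

variable {ι : Type} [Fintype ι] [DecidableEq ι] {Ω : Type} [MeasurableSpace Ω]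

variable {μ : Measure Ω} {k : ℝ} {S : ι → Ω → ℝ} {M0 : ℝ}

/-- A symmetry of the energies: the coordinates of `F` change sign. -/
structure Sym (μ : Measure Ω) (S : ι → Ω → ℝ) (F : Finset ι) (T : Ω → Ω) : Prop where
  mp : MeasurePreserving T μ μ
  inv : ∀ w, T (T w) = w
  odd : ∀ e ∈ F, ∀ w, S e (T w) = -S e w
  evn : ∀ e, e ∉ F → ∀ w, S e (T w) = S e w

namespace Sym

variable {F : Finset ι} {T : Ω → Ω} (h : Sym μ S F T)
include h

lemma ezm_fl (k : ℝ) (u : ι → ℝ) (w : Ω) : ezm k S (flA F u) w = ezm k S u (T w) := by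
  unfold ezm
  congr 2
  refine Finset.sum_congr rfl fun e _ => ?_
  unfold flA
  by_cases he : e ∈ F
  · rw [if_pos he, h.odd e he]; ring
  · rw [if_neg he, h.evn e he]

lemma int_T {f : Ω → ℝ} (hf : Measurable f) : ∫ w, f (T w) ∂μ = ∫ w, f w ∂μ := by
  have h1 := integral_map (μ := μ) h.mp.measurable.aemeasurable
    (f := f) (by rw [h.mp.map_eq]; exact hf.aestronglyMeasurable)
  rw [h.mp.map_eq] at h1
  exact h1.symm

lemma num_fl (hG : GM μ S M0) (k : ℝ) {g : Ω → ℝ} (hg : Measurable g) (u : ι → ℝ) :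
    ∫ w, ezm k S (flA F u) w * g w ∂μ = ∫ w, ezm k S u w * g (T w) ∂μ := by
  have h1 := h.int_T (f := fun w => ezm k S u w * g (T w))
    ((hG.bez k u).meas.mul (hg.comp h.mp.measurable))
  rw [← h1]
  refine integral_congr_ae (Filter.Eventually.of_forall fun w => ?_)
  simp only [h.inv, h.ezm_fl]

lemma Zm_fl (hG : GM μ S M0) (k : ℝ) (u : ι → ℝ) : Zm μ k S (flA F u) = Zm μ k S u := by
  have h1 := h.num_fl hG k (g := fun _ => 1) measurable_const u
  simp only [mul_one] at h1
  exact h1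

lemma Zxm_fl (hG : GM μ S M0) (k x : ℝ) (u : ι → ℝ) :
    Zxm μ k S x (flA F u) = Zxm μ k S x u := by
  unfold Zxm lzm
  rw [h.Zm_fl hG]

lemma avm_fl (hG : GM μ S M0) (k : ℝ) {g : Ω → ℝ} (hg : Measurable g) (u : ι → ℝ) :
    avm μ k S g (flA F u) = avm μ k S (fun w => g (T w)) u := by
  unfold avm
  rw [h.Zm_fl hG, h.num_fl hG k hg]

end Sym

lemma gI_flA (F : Finset ι) : (gI ι).map (flA F) = gI ι := by
  have e : flA F = fun z i => (fun i (x : ℝ) => if i ∈ F then -x else x) i (z i) := by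
    funext z i; rfl
  have hm : ∀ i, (gaussianReal 0 1).map (fun x : ℝ => if i ∈ F then -x else x) =
      gaussianReal 0 1 := by
    intro i
    by_cases hi : i ∈ F
    · simp only [hi, if_true]
      rw [gaussianReal_map_neg]; simp
    · simp only [hi, if_false]
      exact Measure.map_id
  have : ∀ i : ι, SigmaFinite ((gaussianReal 0 1).map (fun x : ℝ => if i ∈ F then -x else x)) := by
    intro i; rw [hm]; infer_instance
  rw [e, Measure.pi_map_pi (μ := fun _ : ι => gaussianReal 0 1)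
    (f := fun i (x : ℝ) => if i ∈ F then -x else x) (fun i => by
      by_cases hi : i ∈ F
      · simp only [hi, if_true]; fun_prop
      · simp only [hi, if_false]; fun_prop)]
  simp only [hm]

lemma meas_flA (F : Finset ι) : Measurable (flA F) := by
  refine measurable_pi_lambda _ fun i => ?_
  unfold flA
  by_cases hi : i ∈ F
  · simp only [hi, if_true]; fun_prop
  · simp only [hi, if_false]; fun_prop

lemma int_flA (F : Finset ι) {f : (ι → ℝ) → ℝ} (hf : Measurable f) :
    ∫ w, f (flA F w) ∂(gI ι) = ∫ w, f w ∂(gI ι) := by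
  conv_rhs => rw [← gI_flA F]
  rw [integral_map (meas_flA F).aemeasurable hf.aestronglyMeasurable]

lemma glue_neg {K0 K F : Finset ι} (h1 : ∀ e ∈ K0, e ∉ F) (h2 : K \ K0 ⊆ F) (z B w : ι → ℝ) :
    glue K (glue K0 z (-B)) (flA F w) = flA F (glue K (glue K0 z B) w) := by
  funext e
  unfold glue flA
  by_cases hK : e ∈ K
  · by_cases h0 : e ∈ K0
    · simp [hK, h0, h1 e h0]
    · have hF : e ∈ F := h2 (Finset.mem_sdiff.2 ⟨hK, h0⟩)
      simp [hK, h0, hF]
  · simp [hK]

section even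

variable {F : Finset ι} {T : Ω → Ω} (h : Sym μ S F T) (hG : GM μ S M0) (k x : ℝ)
  {K0 K : Finset ι} (h1 : ∀ e ∈ K0, e ∉ F) (h2 : K \ K0 ⊆ F) (z : ι → ℝ)
include h hG h1 h2

lemma wn_even (B : ι → ℝ) : wn (gs ι) K (Zxm μ k S x) (glue K0 z (-B)) =
    wn (gs ι) K (Zxm μ k S x) (glue K0 z B) := by
  unfold wn
  have e1 := int_flA F (f := fun w => Zxm μ k S x (glue K (glue K0 z (-B)) w))
    ((hG.meas_Zx k x).comp (measurable_glue_right K _))
  have e2 : ∫ w, Zxm μ k S x (glue K (glue K0 z (-B)) (flA F w)) ∂(gI ι) =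
      ∫ w, Zxm μ k S x (glue K (glue K0 z B) w) ∂(gI ι) := by
    simp only [glue_neg h1 h2, h.Zxm_fl hG]
  exact e1.symm.trans e2

lemma nb_odd {P : Ω → ℝ} (hP : Bm P) (ho : ∀ w, P (T w) = -P w) (B : ι → ℝ) :
    nb μ k S x K0 K z (fun w : Unit → Ω => P (w ())) (-B) =
      -nb μ k S x K0 K z (fun w : Unit → Ω => P (w ())) B := by
  unfold nb nm
  simp only [hG.avR_one k () P]
  have hm : Measurable fun u => Zxm μ k S x u * avm μ k S P u :=
    (hG.meas_Zx k x).mul (hG.cont_av k hP).measurable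
  have e1 := int_flA F (f := fun w => Zxm μ k S x (glue K (glue K0 z (-B)) w) *
      avm μ k S P (glue K (glue K0 z (-B)) w)) (hm.comp (measurable_glue_right K _))
  have hPn : (fun w => P (T w)) = fun w => -1 * P w := by funext w; rw [ho]; ring
  have e2 : ∀ w, Zxm μ k S x (glue K (glue K0 z (-B)) (flA F w)) *
      avm μ k S P (glue K (glue K0 z (-B)) (flA F w)) =
      -(Zxm μ k S x (glue K (glue K0 z B) w) * avm μ k S P (glue K (glue K0 z B) w)) := fun w => by
    rw [glue_neg h1 h2, h.Zxm_fl hG, h.avm_fl hG k hP.meas, hPn, H196.av_mul]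
    ring
  rw [← e1]
  simp only [e2]
  rw [integral_neg]

/-- the weight is smallest at the origin. -/
lemma wn_min (hx : 0 ≤ x) (B : ι → ℝ) : wn (gs ι) K (Zxm μ k S x) (glue K0 z 0) ≤
    wn (gs ι) K (Zxm μ k S x) (glue K0 z B) := by
  have hw := hG.wt k x
  have e0 := wn_even h hG k x h1 h2 z B
  have key : wn (gs ι) K (Zxm μ k S x) (glue K0 z 0) ≤
      1 / 2 * wn (gs ι) K (Zxm μ k S x) (glue K0 z B) +
        1 / 2 * wn (gs ι) K (Zxm μ k S x) (glue K0 z (-B)) := by
    unfold wn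
    rw [← integral_const_mul, ← integral_const_mul,
      ← integral_add ((hw.sec K _).const_mul _) ((hw.sec K _).const_mul _)]
    refine integral_mono (hw.sec K _) (((hw.sec K _).const_mul _).add ((hw.sec K _).const_mul _))
      fun w => ?_
    show Zxm μ k S x (glue K (glue K0 z 0) w) ≤
      1 / 2 * Zxm μ k S x (glue K (glue K0 z B) w) +
        1 / 2 * Zxm μ k S x (glue K (glue K0 z (-B)) w)
    have e1 : glue K (glue K0 z 0) w = (1 / 2 : ℝ) • glue K (glue K0 z B) w +
        (1 / 2 : ℝ) • glue K (glue K0 z (-B)) w := by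
      funext e
      unfold glue
      by_cases hK : e ∈ K
      · by_cases h0 : e ∈ K0
        · simp [hK, h0]; ring
        · simp [hK, h0]
      · simp [hK]; ring
    have e2 := hG.cv k (1 / 2) (1 / 2) (by norm_num) (by norm_num) (by norm_num)
      (glue K (glue K0 z B) w) (glue K (glue K0 z (-B)) w)
    rw [← e1] at e2
    unfold Zxm
    have e3 : Real.exp (x * lzm μ k S (glue K (glue K0 z 0) w)) ≤
        Real.exp (1 / 2 * (x * lzm μ k S (glue K (glue K0 z B) w)) +
          1 / 2 * (x * lzm μ k S (glue K (glue K0 z (-B)) w))) := by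
      refine Real.exp_le_exp.2 ?_
      have := mul_le_mul_of_nonneg_left e2 hx
      linarith
    have e4 := convexOn_exp.2 (Set.mem_univ (x * lzm μ k S (glue K (glue K0 z B) w)))
      (Set.mem_univ (x * lzm μ k S (glue K (glue K0 z (-B)) w)))
      (by norm_num : (0 : ℝ) ≤ 1 / 2) (by norm_num : (0 : ℝ) ≤ 1 / 2) (by norm_num)
    simp only [smul_eq_mul] at e4
    exact e3.trans e4
  rw [e0] at key
  linarith

end even

/-! ### the mean of the weight -/

lemma exp_lf_int (v : ι → ℝ) : Integrable (fun B : ι → ℝ => Real.exp (lf v B)) (gI ι) ∧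
    ∫ B, Real.exp (lf v B) ∂(gI ι) = Real.exp ((∑ i, v i ^ 2) / 2) := by
  have e : (fun B : ι → ℝ => Real.exp (lf v B)) =
      fun B => ∏ i, (fun (i : ι) (y : ℝ) => Real.exp (v i * y)) i (B i) := by
    funext B
    unfold lf
    rw [Real.exp_sum]
  rw [e]
  refine ⟨Integrable.fintype_prod (f := fun (i : ι) (y : ℝ) => Real.exp (v i * y))
    fun i => integrable_exp_mul_gaussianReal (v i), ?_⟩
  have h1 := integral_fintype_prod_eq_prod (𝕜 := ℝ) (μ := fun _ : ι => gaussianReal 0 1)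
    (fun (i : ι) (y : ℝ) => Real.exp (v i * y))
  have h2 : ∀ i, ∫ y, Real.exp (v i * y) ∂(gaussianReal 0 1) = Real.exp (v i ^ 2 / 2) := by
    intro i
    have h3 := mgf_gaussianReal (p := gaussianReal 0 1) (X := fun y => y) (μ := 0) (v := 1)
      (by simp) (v i)
    rw [mgf] at h3
    rw [h3]
    simp
  rw [h1]
  simp only [h2]
  rw [← Real.exp_sum, Finset.sum_div]

lemma abs_lf_le {T : ι → Ω → ℝ} (hT : ∀ e, Bm (T e)) :
    ∃ C : ℝ, 0 ≤ C ∧ ∀ w B, |lf (fun e => T e w) B| ≤ C * ‖B‖ := by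
  choose C hC hb using fun e => (hT e).bd
  refine ⟨∑ e, C e, Finset.sum_nonneg fun e _ => hC e, fun w B => ?_⟩
  unfold lf
  refine (Finset.abs_sum_le_sum_abs _ _).trans ?_
  rw [Finset.sum_mul]
  refine Finset.sum_le_sum fun e _ => ?_
  rw [abs_mul]
  exact mul_le_mul (hb e w) (by rw [← Real.norm_eq_abs]; exact norm_le_pi_norm B e)
    (abs_nonneg _) (hC e)

lemma meas_lf2 {T : ι → Ω → ℝ} (hT : ∀ e, Bm (T e)) :
    Measurable fun p : (ι → ℝ) × Ω => lf (fun e => T e p.2) p.1 := by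
  unfold lf
  exact Finset.measurable_sum _ fun e _ => ((hT e).meas.comp measurable_snd).mul
    ((measurable_pi_apply e).comp measurable_fst)

lemma avm_exp_le (hG : GM μ S M0) (k : ℝ) (u : ι → ℝ) {T : ι → Ω → ℝ} (hT : ∀ e, Bm (T e))
    {b : ℝ} (hb : ∀ w, ∑ e, T e w ^ 2 ≤ b) :
    ∫ B, avm μ k S (fun w => Real.exp (lf (fun e => T e w) B)) u ∂(gI ι) ≤ Real.exp (b / 2) := by
  have := hG.gm_prob k u
  obtain ⟨C, hC, hl⟩ := abs_lf_le hT
  simp only [hG.avm_eq]
  have hi : Integrable (Function.uncurry fun (B : ι → ℝ) (w : Ω) =>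
      Real.exp (lf (fun e => T e w) B)) ((gI ι).prod (gm μ k S u)) := by
    refine Integrable.mono' ((integrable_exp_norm C).comp_fst (gm μ k S u))
      (Real.measurable_exp.comp (meas_lf2 hT)).aestronglyMeasurable
      (Filter.Eventually.of_forall fun p => ?_)
    rw [Real.norm_eq_abs, Function.uncurry, Real.abs_exp]
    exact Real.exp_le_exp.2 ((le_abs_self _).trans (hl _ _))
  rw [integral_integral_swap hi]
  simp only [(exp_lf_int _).2]
  calc ∫ w, Real.exp ((∑ i, T i w ^ 2) / 2) ∂(gm μ k S u)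
      ≤ ∫ _w, Real.exp (b / 2) ∂(gm μ k S u) := by
        refine integral_mono ?_ (integrable_const _) fun w => ?_
        · exact (((Bm.sum _ fun e _ => (hT e).pow 2).const_mul (1 / 2)).exp.integrable
            (μ := gm μ k S u)).congr (Filter.Eventually.of_forall fun w => by
              simp only; congr 1; ring)
        · exact Real.exp_le_exp.2 (by have := hb w; linarith)
    _ = _ := by simp

lemma glue_add {K0 K : Finset ι} (z B w : ι → ℝ) :
    glue K (glue K0 z B) w = glue K (glue K0 z 0) w + fun e => if e ∈ K \ K0 then B e else 0 := by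
  funext e
  simp only [Pi.add_apply]
  unfold glue
  by_cases hK : e ∈ K
  · by_cases h0 : e ∈ K0
    · simp [hK, h0]
    · simp [hK, h0]
  · simp [hK]

lemma Zm_glue (hG : GM μ S M0) (k : ℝ) {K0 K : Finset ι} (z B w : ι → ℝ) :
    Zm μ k S (glue K (glue K0 z B) w) = Zm μ k S (glue K (glue K0 z 0) w) *
      avm μ k S (fun c => Real.exp (lf (fun e => SA (K \ K0) k S e c) B))
        (glue K (glue K0 z 0) w) := by
  rw [glue_add z B w, hG.Z_add]
  congr 2
  funext c
  congr 1
  unfold lf SA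
  rw [Finset.mul_sum]
  refine Finset.sum_congr rfl fun e _ => ?_
  by_cases he : e ∈ K \ K0
  · simp only [he, if_true]; ring
  · simp only [he, if_false]; ring

/-- the ratio of the partition functions. -/
noncomputable def avE (μ : Measure Ω) (k : ℝ) (S : ι → Ω → ℝ) (K0 K : Finset ι) (z B w : ι → ℝ) :
    ℝ := avm μ k S (fun c => Real.exp (lf (fun e => SA (K \ K0) k S e c) B))
      (glue K (glue K0 z 0) w)

lemma avE_pos (hG : GM μ S M0) (k : ℝ) (K0 K : Finset ι) (z B w : ι → ℝ) :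
    0 < avE μ k S K0 K z B w := by
  have q1 := Zm_glue hG k (K := K) (K0 := K0) z B w
  have q2 := hG.Z_pos k (glue K (glue K0 z B) w)
  have q3 := hG.Z_pos k (glue K (glue K0 z 0) w)
  rw [q1] at q2
  exact pos_of_mul_pos_right q2 q3.le

lemma meas_avE (hG : GM μ S M0) (k : ℝ) (K0 K : Finset ι) (z : ι → ℝ) :
    Measurable (Function.uncurry (avE μ k S K0 K z)) := by
  have mZ : Measurable (Zm μ k S) :=
    (continuous_iff_continuousAt.2 fun u => (hG.fd_Z k u).continuousAt).measurable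
  have e1 : Function.uncurry (avE μ k S K0 K z) = fun p : (ι → ℝ) × (ι → ℝ) =>
      Zm μ k S (glue K (glue K0 z p.1) p.2) / Zm μ k S (glue K (glue K0 z 0) p.2) := by
    funext p
    rw [Zm_glue hG k z p.1 p.2, mul_div_cancel_left₀ _ (hG.Z_pos k _).ne']
    rfl
  rw [e1]
  refine (mZ.comp ?_).div (mZ.comp ((measurable_glue_right K _).comp measurable_snd))
  exact (measurable_glue K).comp (((measurable_glue_right K0 z).comp measurable_fst).prodMk
    measurable_snd)

lemma av_exp_le_norm (hG : GM μ S M0) (k : ℝ) {T : ι → Ω → ℝ} (hT : ∀ e, Bm (T e)) {B : ι → ℝ}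
    {D : ℝ} (hD : ∀ c, |lf (fun e => T e c) B| ≤ D) (u : ι → ℝ) :
    avm μ k S (fun c => Real.exp (lf (fun e => T e c) B)) u ≤ Real.exp D := by
  have hm : Measurable fun c => lf (fun e => T e c) B :=
    (meas_lf2 hT).comp (measurable_const.prodMk measurable_id)
  have h1 := hG.av_mono k (Bm.of hm hD).exp (Bm.const (Real.exp D))
    (fun c => Real.exp_le_exp.2 ((le_abs_self _).trans (hD c))) u
  rw [hG.av_const] at h1
  exact h1

lemma avE_le (hG : GM μ S M0) (k : ℝ) (K0 K : Finset ι) (z : ι → ℝ) :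
    ∃ C : ℝ, 0 ≤ C ∧ ∀ B w, avE μ k S K0 K z B w ≤ Real.exp (C * ‖B‖) := by
  obtain ⟨C, hC, hl⟩ := abs_lf_le (bm_SA hG (K \ K0) k)
  exact ⟨C, hC, fun B w => av_exp_le_norm hG k (bm_SA hG (K \ K0) k) (fun c => hl c B) _⟩

/-- the tangent. -/
lemma Zxm_tan (hG : GM μ S M0) (k : ℝ) {x : ℝ} (hx : 0 ≤ x) (hx1 : x ≤ 1) (K0 K : Finset ι)
    (z B w : ι → ℝ) (b : ℝ) : Zxm μ k S x (glue K (glue K0 z B) w) ≤ Real.exp (x * (b / 2)) *
      ((1 - x) * Zxm μ k S x (glue K (glue K0 z 0) w) + x * Real.exp (-(b / 2)) *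
        (Zxm μ k S x (glue K (glue K0 z 0) w) * avE μ k S K0 K z B w)) := by
  have p1 := avE_pos hG k K0 K z B w
  have e1 : lzm μ k S (glue K (glue K0 z B) w) = lzm μ k S (glue K (glue K0 z 0) w) +
      Real.log (avE μ k S K0 K z B w) := by
    unfold lzm
    rw [Zm_glue hG k z B w]
    exact Real.log_mul (hG.Z_pos k _).ne' p1.ne'
  unfold Zxm
  rw [e1]
  set a := avE μ k S K0 K z B w
  set l := lzm μ k S (glue K (glue K0 z 0) w)
  have e2 := convexOn_exp.2 (Set.mem_univ (Real.log a - b / 2)) (Set.mem_univ (0 : ℝ))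
    hx (by linarith : (0 : ℝ) ≤ 1 - x) (by ring)
  simp only [smul_eq_mul, mul_zero, add_zero, Real.exp_zero, mul_one] at e2
  have e3 : Real.exp (Real.log a - b / 2) = Real.exp (-(b / 2)) * a := by
    rw [sub_eq_add_neg, Real.exp_add, Real.exp_log p1]; ring
  rw [e3] at e2
  have e4 : Real.exp (x * (l + Real.log a)) =
      Real.exp (x * (b / 2)) * Real.exp (x * l) * Real.exp (x * (Real.log a - b / 2)) := by
    rw [← Real.exp_add, ← Real.exp_add]
    congr 1
    ring
  rw [e4]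
  have e5 := mul_le_mul_of_nonneg_left e2 (by positivity :
    0 ≤ Real.exp (x * (b / 2)) * Real.exp (x * l))
  refine e5.trans (le_of_eq ?_)
  ring

lemma avE_prod (hG : GM μ S M0) (k x : ℝ) (K0 K : Finset ι) (z : ι → ℝ) :
    Integrable (Function.uncurry fun (B w : ι → ℝ) => Zxm μ k S x (glue K (glue K0 z 0) w) *
      avE μ k S K0 K z B w) ((gI ι).prod (gI ι)) := by
  obtain ⟨C, hC, avb⟩ := avE_le hG k K0 K z
  have h3 := (integrable_exp_norm (ι := ι) C).mul_prod ((hG.wt k x).sec K (glue K0 z 0))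
  refine h3.mono' ((((hG.meas_Zx k x).comp ((measurable_glue_right K _).comp
    measurable_snd)).mul (meas_avE hG k K0 K z)).aestronglyMeasurable)
    (Filter.Eventually.of_forall fun p => ?_)
  show ‖Zxm μ k S x (glue K (glue K0 z 0) p.2) * avE μ k S K0 K z p.1 p.2‖ ≤
    Real.exp (C * ‖p.1‖) * Zxm μ k S x (glue K (glue K0 z 0) p.2)
  rw [Real.norm_eq_abs, abs_of_nonneg (mul_nonneg (Zxm_pos x _).le (avE_pos hG k K0 K z _ _).le),
    mul_comm]
  exact mul_le_mul_of_nonneg_right (avb _ _) (Zxm_pos x _).le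

lemma avE_sec (hG : GM μ S M0) (k x : ℝ) (K0 K : Finset ι) (z B : ι → ℝ) :
    Integrable (fun w => Zxm μ k S x (glue K (glue K0 z 0) w) * avE μ k S K0 K z B w)
      (gI ι) := by
  obtain ⟨C, hC, avb⟩ := avE_le hG k K0 K z
  refine (((hG.wt k x).sec K (glue K0 z 0)).mul_const (Real.exp (C * ‖B‖))).mono' ?_
    (Filter.Eventually.of_forall fun w => ?_)
  · exact (((hG.meas_Zx k x).comp (measurable_glue_right K _)).mul ((meas_avE hG k K0 K z).comp
      (measurable_const.prodMk measurable_id))).aestronglyMeasurable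
  · rw [Real.norm_eq_abs, abs_of_nonneg (mul_nonneg (Zxm_pos x _).le
      (avE_pos hG k K0 K z _ _).le)]
    exact mul_le_mul_of_nonneg_left (avb _ _) (Zxm_pos x _).le

lemma avE_mean (hG : GM μ S M0) (k x : ℝ) (K0 K : Finset ι)
    (z : ι → ℝ) {b : ℝ} (hb : ∀ w, ∑ e, SA (K \ K0) k S e w ^ 2 ≤ b) :
    ∫ B, ∫ w, Zxm μ k S x (glue K (glue K0 z 0) w) * avE μ k S K0 K z B w ∂(gI ι) ∂(gI ι) ≤
      Real.exp (b / 2) * wn (gs ι) K (Zxm μ k S x) (glue K0 z 0) := by
  have hi := avE_prod hG k x K0 K z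
  rw [integral_integral_swap hi]
  unfold wn
  rw [← integral_const_mul]
  refine integral_mono hi.integral_prod_right (((hG.wt k x).sec K (glue K0 z 0)).const_mul _)
    fun w => ?_
  show ∫ B, Zxm μ k S x (glue K (glue K0 z 0) w) * avE μ k S K0 K z B w ∂(gI ι) ≤
    Real.exp (b / 2) * Zxm μ k S x (glue K (glue K0 z 0) w)
  rw [integral_const_mul, mul_comm]
  exact mul_le_mul_of_nonneg_right (avm_exp_le hG k _ (bm_SA hG _ k) hb) (Zxm_pos x _).le

lemma wn_eq_nb (hG : GM μ S M0) (k x : ℝ) (K0 K : Finset ι) (z B : ι → ℝ) :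
    nb μ k S x K0 K z (fun _ : Empty → Ω => 1) B =
      wn (gs ι) K (Zxm μ k S x) (glue K0 z B) := by
  unfold nb nm avR wn
  simp only [(hG.pi Empty).av_one, mul_one]

/-- **The mean of the weight is close to its value at the origin.** -/
theorem wn_mean (hG : GM μ S M0) (k : ℝ) {x : ℝ} (hx : 0 ≤ x) (hx1 : x ≤ 1) {K0 K : Finset ι}
    (hK : K0 ⊆ K) (z : ι → ℝ) {b : ℝ} (hb : ∀ w, ∑ e, SA (K \ K0) k S e w ^ 2 ≤ b) :
    wn (gs ι) K0 (Zxm μ k S x) z ≤
      Real.exp (x * (b / 2)) * wn (gs ι) K (Zxm μ k S x) (glue K0 z 0) := by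
  have hw := hG.wt k x
  have hi := avE_prod hG k x K0 K z
  have hsec := hw.sec K (glue K0 z 0)
  set W0 := wn (gs ι) K (Zxm μ k S x) (glue K0 z 0) with hW0
  have hin : ∀ B, wn (gs ι) K (Zxm μ k S x) (glue K0 z B) ≤ Real.exp (x * (b / 2)) *
      ((1 - x) * W0 + x * Real.exp (-(b / 2)) *
        ∫ w, Zxm μ k S x (glue K (glue K0 z 0) w) * avE μ k S K0 K z B w ∂(gI ι)) := by
    intro B
    have i1 : Integrable (fun w => (1 - x) * Zxm μ k S x (glue K (glue K0 z 0) w) +
        x * Real.exp (-(b / 2)) * (Zxm μ k S x (glue K (glue K0 z 0) w) *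
          avE μ k S K0 K z B w)) (gI ι) :=
      (hsec.const_mul (1 - x)).add ((avE_sec hG k x K0 K z B).const_mul _)
    have h5 := integral_mono (hw.sec K (glue K0 z B)) (i1.const_mul (Real.exp (x * (b / 2))))
      fun w => Zxm_tan hG k hx hx1 K0 K z B w b
    rw [integral_const_mul, integral_add (hsec.const_mul _)
      ((avE_sec hG k x K0 K z B).const_mul _), integral_const_mul, integral_const_mul] at h5
    exact h5
  have hz : wn (gs ι) K0 (Zxm μ k S x) z =
      ∫ B, wn (gs ι) K (Zxm μ k S x) (glue K0 z B) ∂(gI ι) :=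
    (int_glue2 hK z (f := Zxm μ k S x) (hw.sec K0 z)).symm
  have hiB : Integrable (fun B => ∫ w, Zxm μ k S x (glue K (glue K0 z 0) w) *
      avE μ k S K0 K z B w ∂(gI ι)) (gI ι) := hi.integral_prod_left
  have hwB : Integrable (fun B => wn (gs ι) K (Zxm μ k S x) (glue K0 z B)) (gI ι) := by
    have h6 := eg_nb (R := Empty) hG k x K0 K z (h := fun _ => 1) (Bm.const 1)
    exact h6.integrable.congr (Filter.Eventually.of_forall fun B => wn_eq_nb hG k x K0 K z B)
  rw [hz]
  have i2 : Integrable (fun B => (1 - x) * W0 + x * Real.exp (-(b / 2)) *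
      ∫ w, Zxm μ k S x (glue K (glue K0 z 0) w) * avE μ k S K0 K z B w ∂(gI ι)) (gI ι) :=
    (integrable_const ((1 - x) * W0)).add (hiB.const_mul _)
  have h7 := integral_mono hwB (i2.const_mul (Real.exp (x * (b / 2)))) hin
  refine h7.trans ?_
  have e5 := integral_const_mul (μ := gI ι) (x * Real.exp (-(b / 2)))
    fun B => ∫ w, Zxm μ k S x (glue K (glue K0 z 0) w) * avE μ k S K0 K z B w ∂(gI ι)
  rw [integral_const_mul, integral_add (integrable_const _) (hiB.const_mul _), e5]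
  refine mul_le_mul_of_nonneg_left ?_ (Real.exp_pos _).le
  have h8 := avE_mean hG k x K0 K z hb
  have h10 := mul_le_mul_of_nonneg_left h8 (by positivity : 0 ≤ x * Real.exp (-(b / 2)))
  have h11 : Real.exp (-(b / 2)) * Real.exp (b / 2) = 1 := by
    rw [← Real.exp_add]; simp
  have h12 : x * Real.exp (-(b / 2)) * (Real.exp (b / 2) * W0) = x * W0 := by
    calc _ = x * (Real.exp (-(b / 2)) * Real.exp (b / 2)) * W0 := by ring
      _ = x * W0 := by rw [h11, mul_one]
  rw [h12] at h10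
  simp only [integral_const, probReal_univ, one_smul]
  linarith

end Vale.Agent.P146.H498
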